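import Crest.Agent.X212.Gla92.Cf
import Crest.Agent.X212.Gl67.Leaf
import Crest.Agent.X212.Mon62.NkJ
import Crest.Agent.X212.Csm97.Mod

/-! # Row 212, GL (helper92): the sub-leaves of `Oke LipS LipZ LipX RepX C11` -/

set_option autoImplicit false
set_option linter.unusedSectionVars false
set_option maxSynthPendingDepth 3
noncomputable section
open scoped Manifold ContDiff Topology InnerProductSpace ENNReal NNReal
open MeasureTheory Set Function Filter Metric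

namespace Crest.Agent.X212.Gla92
open An Prm93 Mod61 Mon62 Mon62.Dm Gl67 Nd18
open Gj67 (FU SU)
open Wrd81 (TmIn)
open Cht98 (Agr)

section fmt
variable {E : Type} [NormedAddCommGroup E] [NormedSpace ℝ E] [FiniteDimensional ℝ E]
  [MeasurableSpace E] [BorelSpace E]
  {HM : Type} [TopologicalSpace HM] {I : ModelWithCorners ℝ E HM} [I.Boundaryless]
  {M : Type} [TopologicalSpace M] [ChartedSpace HM M] [IsManifold I ∞ M]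
  [MeasurableSpace M] [T2Space M] [BorelSpace M] [SecondCountableTopology M]
  {lam : Type} [Fintype lam]
  {T U Up R : Type} [NormedAddCommGroup T] [NormedSpace ℝ T] [NormedAddCommGroup U]
  [NormedSpace ℝ U] [NormedAddCommGroup Up] [NormedSpace ℝ Up] [NormedAddCommGroup R]
  [NormedSpace ℝ R] {N : ℕ} {Jc : En (Fin N)} {J : Type}

section gen
variable {ι : Type} [Fintype ι]

/-- the side over a smaller set of parameters -/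
@[reducible] def rs {𝔉 : Fam I M ι lam T} (s : Sid 𝔉 N Jc U Up R) (Q' : Set T) :
    Sid (res 𝔉 Q') N Jc U Up R :=
  ⟨s.p, s.ρ, s.j, s.A0, s.Φ0, s.b, s.dr, s.bp, s.mo, s.lo, s.ht, s.sh⟩

variable {𝔉 : J → Fam I M ι lam T} (s : ∀ i, Sid (𝔉 i) N Jc U Up R) (Ω : Set M)

/-- the reference frames and the heights agree on `Ω` -/
structure Lo : Prop where
  op : IsOpen Ω
  e : ∀ i j, ∀ x ∈ Ω, ∀ a, (𝔉 i).F0.e a x = (𝔉 j).F0.e a x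
  μ : ∀ i j, (𝔉 i).F0.μ.restrict Ω = (𝔉 j).F0.μ.restrict Ω
  ht : ∀ i j, ∀ x ∈ Ω, (s i).ht x = (s j).ht x

/-- geometry of the sides -/
structure Gm : Prop where
  loc : ∃ K, IsCompact K ∧ K ⊆ Ω ∧ ∀ i, ∀ t ∈ (𝔉 i).Q, Agr (𝔉 i).G0 ((𝔉 i).G t) Kᶜ
  gr : ∀ i, ∀ t ∈ (𝔉 i).Q, ∀ x, ∑ a, ((𝔉 i).G t).F.D a (s i).ht x ^ 2 ≤ 1
  lop : ∀ i, ∀ t ∈ (𝔉 i).Q, ∀ x, 1 ≤ (s i).ht x →
    Mp86.Lop I ((𝔉 i).G t).F.e ((𝔉 i).G t).F.dv (s i).ht x ≤ 0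
  bp : Bv0 𝔉 fun i => (s i).bp
  mo : Bv0 𝔉 fun i => (s i).mo
  lo : Bv0 𝔉 fun i => (s i).lo
  pk : ∃ a, ∀ i, ∀ x ∈ tsupport (s i).bp, ∀ z ∈ tsupport (s i).mo, |(s i).ht x - (s i).ht z| ≤ a

/-- a cut inside `Ω` which does not degenerate -/
structure CtU (k : Cut M lam) : Prop where
  sub : CutIn I Ω k
  ok : ∀ i, ∀ t ∈ (𝔉 i).Q, k.OK (𝔉 i).B ((𝔉 i).G t).F
  lb : ∃ c > 0, ∀ i, ∀ t ∈ (𝔉 i).Q, ∀ θ u, c ≤ ‖k.om (𝔉 i).B ((𝔉 i).G t).F (k.γ θ u)‖ ∧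
    c ≤ ‖hsL (k.q0 (𝔉 i).B ((𝔉 i).G t).F (s i).md (k.γ θ u))‖

variable (𝔉) in
/-- coefficients that are smooth in the parameter, uniformly on the ball -/
structure Co {A : Type} [NormedAddCommGroup A] [NormedSpace ℝ A] (r₀ : ℝ) (γ : J → T → A) :
    Prop where
  sm : ∀ i, ContDiffOn ℝ ∞ (γ i) (𝔉 i).Q
  bn : ∀ n, Bn (X := fun _ => T) (fun _ => closedBall 0 r₀) n γ

end gen

variable (I M lam) in
/-- LEAF CUTU (format): the row of a cut extends to the Banach models -/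
def CutStmt : Prop := ∀ (ι h T U Up R J W : Type) [Fintype ι] [Fintype h] [NormedAddCommGroup T]
  [NormedSpace ℝ T] [NormedAddCommGroup U] [NormedSpace ℝ U] [NormedAddCommGroup Up]
  [NormedSpace ℝ Up] [NormedAddCommGroup R] [NormedSpace ℝ R] (N r k : ℕ) (Jc : En (Fin N))
  (𝔉 : J → Fam I M ι lam T) (s : ∀ i, Sid (𝔉 i) N Jc U Up R) (δ r₀ : ℝ) (ρ : ℝ≥0)
  (H : Un s δ r₀) (c : Cm N r h R) (Ω : Set M) (ct : Cut M lam) (S : Finset W)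
  (tc : W → Tc M lam r) (γ : W → J → T → ℝ) (σ : ∀ i, T → Pc r (𝔉 i).B ct) (j : h),
  (H.kf c k ρ).OK False (k + 1) → Lo s Ω → CtU s Ω ct → (∀ w ∈ S, Co 𝔉 r₀ (γ w)) →
  (∀ w ∈ S, (∀ i, ∀ t ∈ (𝔉 i).Q, γ w i t = 0) ∨ XiIn I Ω (tc w).ξ) →
  (∀ i, ∀ t ∈ (𝔉 i).Q, ∀ x, σ i t x = ∑ w ∈ S, γ w i t • x.tc (𝔉 i).B ((𝔉 i).G t).F ct (tc w)) →
  (H.dm h r k ρ).Sc (N := L2c (Fin N)) fun z y => crow ct (𝔉 z.1).B ((𝔉 z.1).G y.2.1.1).F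
    (σ z.1 y.2.1.1) ((s z.1).cfg c y.1.1 y.2.1) (c.ψ0 j + y.2.1.2.2.2 j)

variable {E3 : Type} [NormedAddCommGroup E3] [NormedSpace ℝ E3] [FiniteDimensional ℝ E3]
  [MeasurableSpace E3] [BorelSpace E3]
  {H3 : Type} [TopologicalSpace H3] {I3 : ModelWithCorners ℝ E3 H3} [I3.Boundaryless]
  {Y : Type} [TopologicalSpace Y] [ChartedSpace H3 Y] [IsManifold I3 ∞ Y] [T2Space Y]
  [MeasurableSpace Y] [BorelSpace Y] [SecondCountableTopology Y] [CompactSpace Y]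
  {κ : Type} [Fintype κ] {DY : YD I3 Y κ lam} {𝔉 : J → Fam I M (Option κ) lam T}
  (s : ∀ i, Sid (𝔉 i) N Jc U Up R) (Ω : Set M)
  (K : ∀ i, ∀ t ∈ (𝔉 i).Q, Nk DY (𝔉 i).B ((𝔉 i).G t))

/-- necks that do not move; the height has slope at most one -/
def FxU : Prop := ∃ (K0 : ∀ i, Nk DY (𝔉 i).B (𝔉 i).G0) (C : ℝ),
  (∀ i t ht, Same (K i t ht) (K0 i)) ∧ ∀ i, ∀ x ∈ (K0 i).dp (1 / 2), ∀ z ∈ (K0 i).dp (1 / 2),
    |(s i).ht x - (s i).ht z| ≤ C + |(K0 i).tm x - (K0 i).tm z|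

/-- finite necks inside `Ω` that are smooth functions of `θ i t` (compare `Mon62.Mv`) -/
def MvU {Pm : Type} [NormedAddCommGroup Pm] [NormedSpace ℝ Pm] (θ : J → T → Pm) : Prop :=
  ∃ (O O' : Set Pm) (V C : Set M) (π : M → Y) (g : Pm → M → ℝ) (P L : Pm → ℝ),
    IsOpen O ∧ IsCompact O' ∧ O' ⊆ O ∧ (∀ i, MapsTo (θ i) (𝔉 i).Q O') ∧
    IsOpen V ∧ IsCompact C ∧ C ⊆ V ∧ C ⊆ Ω ∧ ContMDiffOn I I3 ∞ π V ∧
    (∀ u ∈ O, ContDiffAt ℝ ∞ P u ∧ ContDiffAt ℝ ∞ L u ∧ P u + 2 ≤ L u ∧ ∀ x ∈ V, JAt I g u x ∧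
      (g u x ∈ Dp (some (P u)) (some (L u)) (1 / 4) → x ∈ C)) ∧
    ∀ i t ht, (K i t ht).p = some (P (θ i t)) ∧ (K i t ht).q = some (L (θ i t)) ∧
      (K i t ht).dp (1 / 4) ⊆ C ∧
      ∀ x ∈ V, x ∈ (K i t ht).ψ.target ∧ (K i t ht).ψ.symm x = (π x, g (θ i t) x)

end fmt

/-! ### jobs -/

open M An.Job Gj67

variable {Wi : Type} {X : Mf 4} {A κ lam : Type} [Fintype A] [Fintype κ] [Fintype lam]
  [DecidableEq lam] {M : Mark X A κ} {W : World M} {L : ML M lam} {Λ : Lns W L}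
  {A' h : Type} [Fintype A'] [DecidableEq A'] [Fintype h] {r n : ℕ}
  {J : Job Wi Λ A' h r n} {σ : Cel A'} {a : A'}
  {U Up R : Type} [NormedAddCommGroup U] [NormedSpace ℝ U] [NormedAddCommGroup Up]
  [NormedSpace ℝ Up] [NormedAddCommGroup R] [NormedSpace ℝ R]

section job
variable {T : Type} [NormedAddCommGroup T] [NormedSpace ℝ T] {c : M.Cl} {ι : Type}

variable (J c) in
/-- the backgrounds of a job along `θ` -/
abbrev jF (G0 : Geo (W.Z c).I (W.Z c).M (Option κ) (lam ⊕ lam)) (θ : T → A' → ℝ) (Q : Set T) :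
    Mod61.Fam (W.Z c).I (W.Z c).M (Option κ) (lam ⊕ lam) T :=
  Met55.fam (J.B c) G0.F G0 (fun t => J.G c (θ t)) Q univ univ

variable {G0 : ι → Geo (W.Z c).I (W.Z c).M (Option κ) (lam ⊕ lam)} {θ : ι → T → A' → ℝ}
  {Q : ι → Set T} {N : ℕ} {Jc : En (Fin N)}
  (s : ∀ i, Sid (jF J c (G0 i) (θ i) (Q i)) N Jc U Up R) (Ω : Set (W.Z c).M)

/-- a neck is switched off, or moves inside `Ω`, or is fixed and switched on -/
def NkA (x : A) (b : Option Bool) : Prop :=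
  (∀ i, ∀ t ∈ Q i, J.Ac c (θ i t) (x, b) → J.ν x (θ i t) = 0) ∨
    ∃ ac : ∀ i, ∀ t ∈ Q i, J.Ac c (θ i t) (x, b),
      MvU (𝔉 := fun i => jF J c (G0 i) (θ i) (Q i)) Ω
        (fun i t ht => J.K c x b _ (ac i t ht)) θ ∨
      FxU s (fun i t ht => J.K c x b _ (ac i t ht)) ∧ ∀ i, ∀ t ∈ Q i, J.ν x (θ i t) = 1

variable (J θ Q) in
/-- the terms with index `w` are switched off or have their data in `Ω` -/
structure TmA (w : Wi) : Prop where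
  tw : (∀ i, ∀ t ∈ Q i, J.co w (θ i t) = 0) ∨ TmIn (W.Z c).I Ω ((J.tp c).tm (J.tw w))
  tc : ∀ j, (∀ i, ∀ t ∈ Q i, J.cc j w (θ i t) = 0) ∨
    XiIn (W.Z c).I Ω ((J.tp c).tc (J.tc j w)).ξ

end job

variable (d : Dat J σ a U Up R) (δ : ℝ) (k : ℕ)

/-- uniformly for long necks and small parameters -/
def EvX (P : ∀ ι : Type, (ι → d.Ta) → ℝ → Prop) : Prop :=
  ∃ S ∈ d.lg, ∃ r > 0, ∀ ι (τ : ι → d.Ta), (∀ i, τ i ∈ S) → ∀ ρ ∈ Ioc (0 : ℝ) r, P ι τ ρ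

/-- for small parameters -/
def EvS (P : ℝ → Prop) : Prop := ∃ r > 0, ∀ ρ ∈ Ioc (0 : ℝ) r, P ρ

variable (J a) in
/-- `up` as a partial homeomorphism; `d.φ τ` is its restriction to `{hS < la τ}` -/
def ph0 : OpenPartialHomeomorph (W.Z (J.cf a)).M (W.Z M.c0).M :=
  (W.φ (J.cf a)).toOpenPartialHomeomorph.symm.trans (W.φ M.c0).toOpenPartialHomeomorph

/-- the part of `Z c0` that is the face below the height `t` -/
def Om (t : ℝ) : Set (W.Z M.c0).M := ph0 J a '' ((ph0 J a).source ∩ {z | d.hS z < t})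

/-- parameters of the long neck -/
abbrev QX (τ : d.Ta) (ρ : ℝ) : Set (Tc σ a) := (d.FX τ).Q ∩ ball 0 ρ

/-- the long neck over small parameters -/
abbrev sX (τ : d.Ta) (ρ : ℝ) : Sid (jF J M.c0 (d.Gh τ) (d.s τ) (QX d τ ρ)) d.N d.Jc U Up R :=
  rs (d.Xs τ) (ball 0 ρ)

/-- parameters of the face -/
abbrev QS (ρ : ℝ) : Set (Tc σ a) := d.FS.Q ∩ ball 0 ρ

/-- the face over small parameters -/
abbrev sS (ρ : ℝ) (_ : Unit) :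
    Sid (jF J (J.cf a) (J.G _ d.y.s) (d.s 1) (QS d ρ)) d.N d.Jc U Up R := rs d.S (ball 0 ρ)

/-- LEAF LO-X -/
def LoX : Prop := ∀ t, EvX d fun _ τ _ => Lo (fun i => d.Xs (τ i)) (Om d t)

/-- LEAF GM-X -/
def GmX : Prop := ∀ᶠ t in atTop, EvX d fun _ τ _ => Gm (fun i => d.Xs (τ i)) (Om d t)

/-- LEAF GM-S -/
def GmS : Prop := Gm (fun _ : Unit => d.S) univ

/-- LEAF GM-Z -/
def GmZ : Prop := (Gm (𝔉 := fun _ : ℝ => d.FZ) d.Z ∅ ∧ ∃ C, FU d.FZ 1 C ∧ ∀ τ, SU (d.Z τ) C) ∧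
  FxU (𝔉 := fun _ : ℝ => d.FZ) d.Z fun _ _ _ => d.D.nk

/-- LEAF NK-X -/
def NkX : Prop := ∀ x b, ∀ᶠ t in atTop, EvX d fun _ τ ρ => NkA (fun i => sX d (τ i) ρ) (Om d t) x b

/-- LEAF NK-S -/
def NkS : Prop := ∀ x b, EvS fun ρ => NkA (sS d ρ) univ x b

/-- LEAF TM-X -/
def TmX : Prop := ∀ w, ∀ᶠ t in atTop, EvX d fun _ τ ρ =>
  TmA J (fun i => d.s (τ i)) (fun i => QX d (τ i) ρ) (Om d t) w

/-- LEAF TM-S -/
def TmS : Prop := ∀ w, EvS fun ρ =>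
  TmA (c := J.cf a) J (fun _ : Unit => d.s 1) (fun _ => QS d ρ) univ w

/-- LEAF CUT-X -/
def CtX : Prop := ∀ j, ∀ᶠ t in atTop, EvX d fun _ τ ρ =>
  CtU (fun i => sX d (τ i) ρ) (Om d t) (J.cut _ j)

/-- LEAF CUT-S -/
def CtS : Prop := ∀ j, EvS fun ρ => CtU (sS d ρ) univ (J.cut _ j)

/-- LEAF OKE-X -/
def OkX : Prop := ∃ ρ > 0, ∀ᶠ τ in d.lg, (∀ q, (d.sX τ q).Ok ρ) ∧
  ∀ w ∈ Sec (W.Z M.c0).I (d.Xs τ).bd.pC, ∀ t, ‖t‖ ≤ ρ →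
    (d.Xs τ).row t w ∈ Sec (W.Z M.c0).I (d.Xs τ).Pg

/-- no moving limit, small weight -/
structure Sm0 : Prop where
  b : d.bS = 0 ∧ d.bZ = 0
  δ : δ ≤ 1 / 32

end Crest.Agent.X212.Gla92
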