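import Crest.Agent.X212.Gla92.Lip

/-! # Row 212, GL (helper92): uniform `C^{1,1}` bounds for the Banach models -/

set_option autoImplicit false
set_option linter.unusedSectionVars false
set_option maxSynthPendingDepth 3
noncomputable section
open scoped Manifold ContDiff Topology InnerProductSpace ENNReal NNReal
open MeasureTheory Set Function Filter Real Metric

namespace Crest.Agent.X212.Gla92
open An Sob92 Prm93 Mod61 Map77 Mon62 Mon62.Dm Gl67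
open Ell97 (UB)

theorem c11_of {X X' Z Z' : Type} [NormedAddCommGroup X] [NormedSpace ℝ X] [NormedAddCommGroup X']
    [NormedSpace ℝ X'] [NormedAddCommGroup Z] [NormedSpace ℝ Z] [NormedAddCommGroup Z']
    [NormedSpace ℝ Z'] {g : X → Z} {f : X' → Z'} {L : X →L[ℝ] X'} (hL : ‖L‖ ≤ 1) {P : Z' →L[ℝ] Z}
    (hP : ‖P‖ ≤ 1) {O : Set X} (hO : IsOpen O) {c : Z}
    (e : ∀ v ∈ O, g v = c + P (f (L v))) {ρ K : ℝ} (h0 : 0 ≤ ρ) (hK : 0 ≤ K)
    (h1 : ∀ v, ‖v‖ ≤ ρ → v ∈ O ∧ DifferentiableAt ℝ f (L v) ∧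
      ‖fderiv ℝ f (L v) - fderiv ℝ f 0‖ ≤ K * ‖L v - 0‖) (h2 : ‖fderiv ℝ f 0‖ ≤ K) :
    ‖fderiv ℝ g 0‖ ≤ K ∧ ∀ v, ‖v‖ ≤ ρ → ‖fderiv ℝ g v - fderiv ℝ g 0‖ ≤ K * ‖v‖ := by
  have d : ∀ v, ‖v‖ ≤ ρ → fderiv ℝ g v = P ∘L fderiv ℝ f (L v) ∘L L := fun v hv =>
    (((P.hasFDerivAt.comp v ((h1 v hv).2.1.hasFDerivAt.comp v L.hasFDerivAt)).const_add
      c).congr_of_eventuallyEq (eventually_of_mem (hO.mem_nhds (h1 v hv).1) e)).fderiv
  have n : ∀ A : X' →L[ℝ] Z', ‖P ∘L A ∘L L‖ ≤ ‖A‖ := fun A =>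
    (P.opNorm_comp_le _).trans ((mul_le_of_le_one_left (norm_nonneg _) hP).trans
      ((A.opNorm_comp_le L).trans (mul_le_of_le_one_right (norm_nonneg _) hL)))
  have d0 := d 0 (by simpa using h0)
  rw [map_zero] at d0
  refine ⟨d0 ▸ (n _).trans h2, fun v hv => ?_⟩
  rw [d v hv, d0, ← ContinuousLinearMap.comp_sub, ← ContinuousLinearMap.sub_comp]
  refine (n _).trans ((h1 v hv).2.2.trans (mul_le_mul_of_nonneg_left ?_ hK))
  rw [sub_zero]
  exact (L.le_of_opNorm_le hL v).trans_eq (one_mul _)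

variable {E : Type} [NormedAddCommGroup E] [NormedSpace ℝ E] [FiniteDimensional ℝ E]
  [MeasurableSpace E] [BorelSpace E]
  {HM : Type} [TopologicalSpace HM] {I : ModelWithCorners ℝ E HM} [I.Boundaryless]
  {M : Type} [TopologicalSpace M] [ChartedSpace HM M] [IsManifold I ∞ M]
  [MeasurableSpace M] [T2Space M] [BorelSpace M] [SecondCountableTopology M]
  {ι lam h : Type} [Fintype ι] [Fintype lam] [Fintype h]
  {T U Up R : Type} [NormedAddCommGroup T] [NormedSpace ℝ T] [NormedAddCommGroup U]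
  [NormedSpace ℝ U] [NormedAddCommGroup Up] [NormedSpace ℝ Up] [NormedAddCommGroup R]
  [NormedSpace ℝ R] {N r n m : ℕ} {Jc : En (Fin N)} {J : Type} {𝔉 : J → Fam I M ι lam T}
  {s : ∀ i, Sid (𝔉 i) N Jc U Up R} {Ω : Set M} {δ r₀ : ℝ} {k : ℕ} {ρ : ℝ≥0}
  {ct : h → Cut M lam}

/-- Hardy fields as `L²` fields -/
def embL {𝔉 : Fam I M ι lam T} (s : Sid 𝔉 N Jc U Up R) (r : ℕ) (ct : h → Cut M lam) :
    s.PH r ct →L[ℝ] PP T U r h N :=
  (ContinuousLinearMap.id ℝ T).prodMap ((ContinuousLinearMap.id ℝ U).prodMap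
    ((ContinuousLinearMap.id ℝ _).prodMap (.pi fun j => (Submodule.subtypeL _) ∘L .proj j)))

theorem norm_emb {𝔉 : Fam I M ι lam T} (s : Sid 𝔉 N Jc U Up R) (q : s.PH r ct) :
    ‖embL s r ct q‖ ≤ ‖q‖ :=
  max_le_max le_rfl (max_le_max le_rfl (max_le_max le_rfl
    ((pi_norm_le_iff_of_nonneg (norm_nonneg _)).2 fun j => norm_le_pi_norm q.2.2.2 j)))

variable (s δ k n m ct) in
/-- the values of the models -/
abbrev ZZ (z : J × Pf) : Type :=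
  (((Fp s δ z).H k (s z.1).Pm × (Fp s δ z).H k (s z.1).P2 × (Fin n → ℂ) × (Fin m → ℝ)) ×
    (∀ j, (ct j).H (𝔉 z.1).B (s z.1).md) × (h → ℝ)) ×
    (Fp s δ z).H k (s z.1).Pg × Up × (h → ℝ) × R

namespace Un
variable {H : Un s δ r₀} {c : Cm N r h R} {ε : ∀ i, Eqn (𝔉 i) r n m ct}

theorem a0_out {V : Type} [NormedAddCommGroup V] [InnerProductSpace ℝ V] [CompleteSpace V]
    (hk : 4 ≤ k) {w : ∀ z, YY h r s z → M → V} (a : (H.dm h r k ρ).A0 False k w)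
    {p : J → M → V →L[ℝ] V} (hp : UB (P0 𝔉) p) (hi : ∀ i x v, p i x (p i x v) = p i x v)
    (e : ∀ z y x, p z.1 x (w z y x) = w z y x) :
    ∃ f : ∀ z, XX h r s δ k z → (Fp s δ z).H k (p z.1), UC (H.dm h r k ρ).toRg f ∧
      ∀ z y x, (Fp s δ z).val k _ (f z ((H.dm h r k ρ).pt z y)) x =
        w z y x - w z ((H.dm h r k ρ).y₀ z) x := by
  obtain ⟨γ, h1, h2⟩ := a.rebase
  have b : (H.dm h r k ρ).A0 True k fun z y x => w z y x - w z ((H.dm h r k ρ).y₀ z) x :=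
    A0.of_pure ((a.sz.add (Sz.fixed a.sz.ub.neg)).congr fun _ _ _ => sub_eq_add_neg _ _) h1
      fun z y x => sub_eq_of_eq_add' (h2 z y x)
  obtain ⟨f, f1, f2⟩ := b.out hk (H.ubW hp) fun z => hi z.1
  exact ⟨f, f1, fun z y x => (f2 z y x).trans (by rw [map_sub, e, e])⟩

variable (G : Gm s Ω) (hk : 4 ≤ k) (a : H.Cl c k ρ False fun i => (ε i).e) (b : H.Cr k ρ c ε)
include G hk a b

/-- the common extension -/
theorem exists_f : ∃ f : ∀ z, XX h r s δ k z → ZZ n m s δ k ct z, UC (H.dm h r k ρ).toRg f ∧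
    ∀ i (y : YY h r s (i, p0)) v v₀, (s i).Val c (ε i) δ k y.1.1 y.2.1 v →
      (s i).Val c (ε i) δ k 0 0 v₀ → v = (((v₀.1.1.1, v₀.1.1.2.1, 0), 0), v₀.2.1, 0) +
          f (i, p0) ((H.dm h r k ρ).pt (i, p0) y) := by
  obtain ⟨f1, a1, b1⟩ := a0_out hk a.D H.ub_Pm (fun i x v => by
    rw [Pm_eq (H.ok i)]
    exact congrArg (fun S : En (Fin N) => S v) (Std94.pm_pm (H.fam i).B (Std94.pmx (H.ok i).ok x)))
    fun z y x => by rw [Pm_eq (H.ok _)]; exact a.pD _ _ _ y.2.2 x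
  obtain ⟨f2, a2, b2⟩ := a0_out hk a.C H.ub_P2 (fun i x v => by
    rw [P2_eq (H.ok i)]; exact Std94.p2_p2 (m := (s i).md) (H.fam i).B x v)
    fun z y x => by rw [P2_eq (H.ok _)]; exact a.pC _ _ _ y.2.2 x
  obtain ⟨f3, a3, b3⟩ := a0_out (H := H) (ρ := ρ) hk (H.a0_row (h := h) (r := r) hk) H.ub_Pg
    (fun i x v => by rw [Pg_eq (H.ok i)]; exact Wz78.pg_pg (m := (s i).md) x v)
    fun z y x => pg_row (H.ok _) _ _ x
  obtain ⟨f4, a4, b4⟩ := H.sc_pk (h := h) (r := r) (k := k) (ρ := ρ) G (by omega)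
  obtain ⟨f5, a5, b5⟩ := sc_eR G hk a b
  let P : ∀ z : J × Pf, (h → L2c (Fin N)) →L[ℝ] ∀ j, (ct j).H (𝔉 z.1).B (s z.1).md := fun z =>
    .pi fun j => Submodule.orthogonalProjectionOnto _ ∘L .proj j
  have hP : Bv P := ⟨1, fun z => ContinuousLinearMap.opNorm_le_bound _ zero_le_one fun u =>
    (pi_norm_le_iff_of_nonneg (by positivity)).2 fun j =>
      ((Submodule.norm_orthogonalProjectionOnto_apply_le _ _).trans (norm_le_pi_norm u j)).trans_eq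
        (one_mul _).symm⟩
  refine ⟨_, ((a1.prod (a2.prod (uc_fst a5))).prod (((uc_fst (uc_snd a5)).clm hP).prod
    (uc_fst (uc_snd (uc_snd a5))))).prod (a3.prod (a4.prod (uc_snd (uc_snd (uc_snd a5))))),
    fun i y v v₀ e e₀ => ?_⟩
  have inj := fun {V : Type} [NormedAddCommGroup V] [InnerProductSpace ℝ V] [CompleteSpace V]
    (p : M → V →L[ℝ] V) => val_injective (p := p) ((H.dm h r k ρ).sup (i, p0)) hk
  have c5 := e.e.trans (b5 (i, p0) y)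
  refine Prod.ext (Prod.ext (Prod.ext (inj _ ?_) (Prod.ext (inj _ ?_) ?_)) (Prod.ext ?_ ?_))
    (Prod.ext (inj _ ?_) (Prod.ext ?_ ?_))
  · refine e.D.trans (funext fun x => Eq.symm ((congrFun (val_add _ _) x).trans ?_))
    exact (congrArg₂ (· + ·) (congrFun e₀.D x) (b1 (i, p0) y x)).trans (add_sub_cancel _ _)
  · refine e.C.trans (funext fun x => Eq.symm ((congrFun (val_add _ _) x).trans ?_))
    exact (congrArg₂ (· + ·) (congrFun e₀.C x) (b2 (i, p0) y x)).trans (add_sub_cancel _ _)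
  · exact (congrArg Prod.fst c5).trans (zero_add _).symm
  · refine Eq.trans (funext fun j => ?_) (zero_add _).symm
    exact (Submodule.orthogonalProjectionOnto_mem_subspace_eq_self (v.1.2.1 j)).symm.trans
      (congrArg _ (congrFun (congrArg (·.2.1) c5) j))
  · exact (congrArg (·.2.2.1) c5).trans (zero_add _).symm
  · refine e.g.trans (funext fun x => Eq.symm ((congrFun (val_add _ _) x).trans ?_))
    exact (congrArg₂ (· + ·) (congrFun e₀.g x) (b3 (i, p0) y x)).trans (add_sub_cancel _ _)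
  · exact (e.pk.trans (b4 (i, p0) y)).trans (zero_add _).symm
  · exact (congrArg (·.2.2.2) c5).trans (zero_add _).symm

omit G hk a b in
theorem ext_f {i : J} {f : XX h r s δ k (i, p0) → ZZ n m s δ k ct (i, p0)}
    {Hm : (s i).EE r ct δ k → ZZ n m s δ k ct (i, p0)} (f1 : ContinuousOn f {v | v.2.1 ∈ (𝔉 i).Q})
    (f2 : ContinuousOn Hm ((s i).dom δ k)) {c : ZZ n m s δ k ct (i, p0)}
    (e : ∀ w q, q.1 ∈ (𝔉 i).Q → Hm ((s i).sp δ k w q) =
      c + f ((Fp s δ (i, p0)).toH (k + 1) _ w, embL (s i) r ct q)) :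
    ∀ v ∈ (s i).dom δ k, Hm v = c + f (v.1, embL (s i) r ct v.2) := fun v hv => by
  obtain ⟨u, hu⟩ := exists_seq v.1
  have t1 : Tendsto (fun j => (s i).sp δ k (u j) v.2) atTop (𝓝[(s i).dom δ k] v) :=
    tendsto_nhdsWithin_iff.2 ⟨hu.prodMk_nhds tendsto_const_nhds, .of_forall fun _ => hv⟩
  have t2 : Tendsto (fun j => ((Fp s δ (i, p0)).toH (k + 1) _ (u j), embL (s i) r ct v.2)) atTop
      (𝓝[{v : XX h r s δ k (i, p0) | v.2.1 ∈ (𝔉 i).Q}] (v.1, embL (s i) r ct v.2)) :=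
    tendsto_nhdsWithin_iff.2 ⟨hu.prodMk_nhds tendsto_const_nhds, .of_forall fun _ => hv⟩
  exact tendsto_nhds_unique ((f2 v hv).tendsto.comp t1)
    ((((f1 _ hv).tendsto.comp t2).const_add c).congr fun j => (e _ _ hv).symm)

/-- **uniform `C^{1,1}` bounds** -/
theorem c11 : ∃ C, ∀ i Hm, (s i).Rep c (ε i) δ k Hm → ‖fderiv ℝ Hm 0‖ ≤ C ∧
    ∀ v, ‖v‖ ≤ min √ρ r₀ → ‖fderiv ℝ Hm v - fderiv ℝ Hm 0‖ ≤ C * ‖v‖ := by
  obtain ⟨f, f1, f2⟩ := exists_f G hk a b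
  obtain ⟨K, K0, hK⟩ := f1.c11 H.cvx
  refine ⟨K, fun i Hm e => ?_⟩
  let L : (s i).EE r ct δ k →L[ℝ] XX h r s δ k (i, p0) :=
    (ContinuousLinearMap.id ℝ _).prodMap (embL (s i) r ct)
  have n' : ∀ v, ‖L v‖ ≤ ‖v‖ := fun v => max_le_max le_rfl (norm_emb _ _)
  have op : IsOpen ((s i).dom δ k : Set ((s i).EE r ct δ k)) :=
    (H.fam i).opn.preimage (f := fun v : (s i).EE r ct δ k => v.2.1) (by fun_prop)
  have z : (0 : XX h r s δ k (i, p0)) ∈ (H.dm h r k ρ).B (i, p0) :=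
    ⟨mem_closedBall_self (sqrt_nonneg _), mem_closedBall_self H.r0⟩
  obtain ⟨v₀, e0⟩ : ∃ v₀, (s i).Val c (ε i) δ k 0 0 v₀ := ⟨_, e.val 0 0 (H.ok i).q0⟩
  have e1 := ext_f (f1.sm (i, p0)).continuousOn e.sm.continuousOn fun w q hq =>
    f2 i (w, ⟨(s i).emb q, hq⟩) _ _ (e.val w q hq) e0
  have m0 : ∀ v, ‖v‖ ≤ min √ρ r₀ → L v ∈ (H.dm h r k ρ).B (i, p0) := fun v hv =>
    ⟨mem_closedBall_zero_iff.2 ((norm_fst_le _).trans ((n' v).trans (hv.trans (min_le_left _ _)))),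
      mem_closedBall_zero_iff.2 ((norm_snd_le _).trans ((n' v).trans (hv.trans (min_le_right _ _))))⟩
  have m' := fun v hv => (H.dm h r k ρ).sub _ (m0 v hv)
  have h1 : ‖L‖ ≤ 1 := ContinuousLinearMap.opNorm_le_bound _ zero_le_one
    fun v => (n' v).trans_eq (one_mul _).symm
  have h2 : ∀ v, ‖v‖ ≤ min √ρ r₀ → v ∈ (s i).dom δ k ∧ DifferentiableAt ℝ (f (i, p0)) (L v) ∧
      ‖fderiv ℝ (f (i, p0)) (L v) - fderiv ℝ (f (i, p0)) 0‖ ≤ K * ‖L v - 0‖ := fun v hv =>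
    ⟨m' v hv, f1.sm.diff (m' v hv), ((hK _ _ z).2.2 _ (m0 v hv)).2⟩
  let P : ZZ n m s δ k ct (i, p0) →L[ℝ] (s i).Y1 n m ct δ k × (s i).Y2 h δ k :=
    ContinuousLinearMap.id ℝ _
  have h3 : ‖P‖ ≤ 1 := ContinuousLinearMap.opNorm_le_bound _ zero_le_one
    fun v => (one_mul _).ge
  exact c11_of (g := Hm) h1 h3 op e1 (le_min (sqrt_nonneg _) H.r0) K0 h2 (hK _ _ z).2.1

end Un

end Crest.Agent.X212.Gla92
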