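import Crest.Agent.X212.Gla92.Lo
import Crest.Agent.X212.Mon62.Pb

/-! # Row 212, GL (helper92): the sub-leaves for moving limits -/

set_option autoImplicit false
set_option linter.unusedSectionVars false
set_option maxSynthPendingDepth 3
noncomputable section
open scoped Manifold ContDiff Topology InnerProductSpace ENNReal NNReal
open MeasureTheory Set Function Filter Metric

namespace Crest.Agent.X212.Gla92
open An Prm93 Mod61 Mon62 Mon62.Dm Gl67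
open Wrd81 (TmIn)
open Ell97 (UB)

section fmt
variable {E : Type} [NormedAddCommGroup E] [NormedSpace ℝ E] [FiniteDimensional ℝ E]
  [MeasurableSpace E] [BorelSpace E]
  {HM : Type} [TopologicalSpace HM] {I : ModelWithCorners ℝ E HM} [I.Boundaryless]
  {M : Type} [TopologicalSpace M] [ChartedSpace HM M] [IsManifold I ∞ M]
  [MeasurableSpace M] [T2Space M] [BorelSpace M] [SecondCountableTopology M]
  {lam : Type} [Fintype lam]

section gen
variable {ι h : Type} [Fintype ι] [Fintype h]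
  {T U Up R : Type} [NormedAddCommGroup T] [NormedSpace ℝ T] [NormedAddCommGroup U]
  [NormedSpace ℝ U] [NormedAddCommGroup Up] [NormedSpace ℝ Up] [NormedAddCommGroup R]
  [NormedSpace ℝ R] {N r : ℕ} {Jc : En (Fin N)} {J : Type}

/-- the curvature row of the base connection with the limit moved by `u` -/
def bC {𝔉 : Fam I M ι lam T} (s : Sid 𝔉 N Jc U Up R) (u : U) (x : M) :
    Fm (ι × ι) (HS (Fin N)) :=
  s.md.p2 𝔉.B x (s.md.Fg (𝔉.G 0).F (s.md.addC (𝔉.W0 s.md s.A0 0) fun x =>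
    idx (𝔉.S 0 x) (.id ℝ _) (s.b x u)) x)

variable {𝔉 : J → Fam I M ι lam T} (s : ∀ i, Sid (𝔉 i) N Jc U Up R) (δ : ℝ) (k : ℕ)

/-- uniformly bounded, and uniformly in the space with the largest weight -/
structure Wb {V : Type} [NormedAddCommGroup V] [NormedSpace ℝ V] (f : J → M → V) : Prop where
  ub : UB (P0 𝔉) f
  n : ∃ K : ℝ≥0, ∀ i, Gl67.N (P0 𝔉 i) (fun x => 2 * δ * ka ((s i).ht x)) univ k (f i) ≤ K

/-- moving limits: the spinor decays, the curvature row decays -/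
structure Mo : Prop where
  Φ : Wb s δ (k + 1) fun i => (s i).Φ0
  C : ∃ (n : ℕ) (c : Fin n → U → ℝ) (γ : Fin n → J → M → Fm (ι × ι) (HS (Fin N))),
    (∀ a, ContDiff ℝ ∞ (c a)) ∧ (∀ a, Wb s δ k (γ a)) ∧
    ∀ i u x, bC (s i) u x = bC (s i) 0 x + ∑ a, c a u • γ a i x

variable {s δ} {r₀ : ℝ} (H : Un s δ r₀) (c : Cm N r h R) (ρ : ℝ≥0)

/-- the connections are smooth families plus pure families -/
def WA : Prop := ∀ a, (H.dm h r k ρ).A1 (k + 1) fun z y x => hsL ((H.kf c k ρ).W z y a x)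

/-- the value of a word at a point -/
def XA (ξ : Xi M lam r) (x : M) : Prop := (H.dm h r k ρ).Sc (N := En (Fin N)) fun z y =>
  ((s z.1).cfg c y.1.1 y.2.1).xi ((𝔉 z.1).G y.2.1.1).F ξ x

/-- the local part of the equations lies in the calculus -/
structure Ca (Ω : Set M) : Prop where
  W : WA k H c ρ
  eq0 : ∀ n m, H.Cl c k ρ False fun i => (𝔉 i).eq0 r n m
  tm : ∀ n m (τ : Tm M lam r n), TmIn I Ω τ → H.Cl c k ρ True fun i t =>
    (⟨tmP (𝔉 i).B ((𝔉 i).G t).F τ, fun _ => 0⟩ : PtX M ι lam r n m)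
  xi : ∀ ξ x, XiIn I Ω ξ → XA k H c ρ ξ x

end gen

variable (I M lam)

/-- LEAF CAP (format): the calculus for moving limits -/
def CapStmt : Prop := ∀ (ι h T U Up R J : Type) [Fintype ι] [Fintype h] [NormedAddCommGroup T]
  [NormedSpace ℝ T] [NormedAddCommGroup U] [NormedSpace ℝ U] [FiniteDimensional ℝ U]
  [NormedAddCommGroup Up] [NormedSpace ℝ Up] [NormedAddCommGroup R] [NormedSpace ℝ R] (N r k : ℕ)
  (Jc : En (Fin N)) (𝔉 : J → Fam I M ι lam T) (s : ∀ i, Sid (𝔉 i) N Jc U Up R) (δ r₀ : ℝ)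
  (ρ : ℝ≥0) (H : Un s δ r₀) (c : Cm N r h R) (Ω : Set M), 7 ≤ k → Lo s Ω → Mo s δ k →
  Ca k H c ρ Ω

/-- LEAF CUTU, second form: the row of a cut extends to the Banach models -/
def CutStmt2 : Prop := ∀ (ι h T U Up R J W : Type) [Fintype ι] [Fintype h] [NormedAddCommGroup T]
  [NormedSpace ℝ T] [NormedAddCommGroup U] [NormedSpace ℝ U] [NormedAddCommGroup Up]
  [NormedSpace ℝ Up] [NormedAddCommGroup R] [NormedSpace ℝ R] (N r k : ℕ) (Jc : En (Fin N))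
  (𝔉 : J → Fam I M ι lam T) (s : ∀ i, Sid (𝔉 i) N Jc U Up R) (δ r₀ : ℝ) (ρ : ℝ≥0)
  (H : Un s δ r₀) (c : Cm N r h R) (Ω : Set M) (ct : Cut M lam) (S : Finset W)
  (tc : W → Tc M lam r) (γ : W → J → T → ℝ) (σ : ∀ i, T → Pc r (𝔉 i).B ct) (j : h),
  7 ≤ k → WA k H c ρ → Lo s Ω → CtU s Ω ct → (∀ w ∈ S, Co 𝔉 r₀ (γ w)) →
  (∀ w ∈ S, (∀ i, ∀ t ∈ (𝔉 i).Q, γ w i t = 0) ∨ XA k H c ρ (tc w).ξ ct.x0) →
  (∀ i, ∀ t ∈ (𝔉 i).Q, ∀ x, σ i t x = ∑ w ∈ S, γ w i t • x.tc (𝔉 i).B ((𝔉 i).G t).F ct (tc w)) →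
  (H.dm h r k ρ).Sc (N := L2c (Fin N)) fun z y => crow ct (𝔉 z.1).B ((𝔉 z.1).G y.2.1.1).F
    (σ z.1 y.2.1.1) ((s z.1).cfg c y.1.1 y.2.1) (c.ψ0 j + y.2.1.2.2.2 j)

end fmt

open M An.Job Gj67

variable {Wi : Type} {X : Mf 4} {A κ lam : Type} [Fintype A] [Fintype κ] [Fintype lam]
  [DecidableEq lam] {M : Mark X A κ} {W : World M} {L : ML M lam} {Λ : Lns W L}
  {A' h : Type} [Fintype A'] [DecidableEq A'] [Fintype h] {r n : ℕ}
  {J : Job Wi Λ A' h r n} {σ : Cel A'} {a : A'}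
  {U Up R : Type} [NormedAddCommGroup U] [NormedSpace ℝ U] [NormedAddCommGroup Up]
  [NormedSpace ℝ Up] [NormedAddCommGroup R] [NormedSpace ℝ R]
  (d : Dat J σ a U Up R) (δ : ℝ) (k : ℕ)

/-- LEAF MOV -/
structure Mov : Prop where
  S : Mo (fun _ : Unit => d.S) δ k
  Z : Mo (𝔉 := fun _ : ℝ => d.FZ) d.Z δ k
  X : EvX d fun _ τ _ => Mo (fun i => d.Xs (τ i)) δ k

end Crest.Agent.X212.Gla92
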