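import Crest.Agent.X212.Gla92.Lz0
import Crest.Agent.X212.Gla92.X
import Crest.Agent.X212.Gb50.Base
import Crest.Agent.X212.Cay24.GlS

/-! Row 212, GL-LOCZ (helper92): reduction to families. -/

set_option autoImplicit false
set_option linter.unusedSectionVars false
set_option maxSynthPendingDepth 3
noncomputable section
open scoped Manifold ContDiff Topology NNReal
open MeasureTheory Set Function Filter Real Metric

namespace Crest.Agent.X212.Lz92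
open An An.Job M Nd18 Gj67 Gb50
open Gl67 (PP Sid Cm g0 ka)
open Map77 (Cf)
open Cay24 (At)

section gen
variable {E : Type} [NormedAddCommGroup E] [NormedSpace ℝ E] [FiniteDimensional ℝ E]
  [MeasurableSpace E] [BorelSpace E]
  {HM : Type} [TopologicalSpace HM] {I : ModelWithCorners ℝ E HM}
  {M : Type} [TopologicalSpace M] [ChartedSpace HM M] [IsManifold I ∞ M]
  [MeasurableSpace M] {ι lam : Type} [Fintype ι] [Fintype lam] {T : Type} [NormedAddCommGroup T]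
  [NormedSpace ℝ T] {r r' : ℝ} {C : ℕ → ℝ}

theorem fu_rad {𝔉 : Mod61.Fam I M ι lam T} (a : FU 𝔉 r C) (e : r' ≤ r) : FU 𝔉 r' C :=
  have s := closedBall_subset_closedBall (x := (0 : T)) e
  have u := fun {A : Type} [NormedAddCommGroup A] [NormedSpace ℝ A] {f : T → M → A}
    (a : UBn 𝔉.F0.toPre r C f) => show UBn 𝔉.F0.toPre r' C f from fun k n t ht => a k n t (s ht)
  ⟨s.trans a.sub, a.t0, fun t ht => a.tG t (s ht), a.o, a.l, fun _ _ => u (a.S _ _),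
    fun _ _ => u (a.Si _ _), fun _ _ _ => u (a.cf _ _ _), fun _ => u (a.la _),
    fun _ _ _ => u (a.c _ _ _), fun _ => u (a.dv _), fun _ => u (a.a _),
    a.μ.imp fun _ b => ⟨b.1, u b.2.1, b.2.2⟩⟩

end gen

variable {Wi : Type} {X : M.Mf 4} {A κ lam : Type} [Fintype A] [Fintype κ] [Fintype lam]
  [DecidableEq lam] {M : Mark X A κ} {W : World M} {L : ML M lam} {Λ : Lns W L}
  {A' h : Type} [Fintype A'] [DecidableEq A'] [Fintype h] {r n : ℕ}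
  {J : Job Wi Λ A' h r n} {σ : Cel A'} {a : A'}
  {U Up R : Type} [NormedAddCommGroup U] [NormedSpace ℝ U] [NormedAddCommGroup Up]
  [NormedSpace ℝ Up] [NormedAddCommGroup R] [NormedSpace ℝ R]
  {d : Dat J σ a U Up R} {q₀ : Wi →₀ ℝ} {δ : ℝ} {k : ℕ}

variable (d δ k) in
/-- the conclusion of `LocZ` -/
def Tg (τ : d.Ta) (q : Wi →₀ ℝ) (w w' : (W.Z M.c0).M → Cf (Option κ) (Fin d.N))
    (p : PP (Tc σ a) U r h d.N) (t : ℝ) (η : ℝ≥0) : Prop :=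
  (d.sZ τ q).Q (g0 δ) (Ici t) k ((d.sZ τ q).E (pull (d.ψ τ) w') p - (d.sX τ q).E w p ∘ d.ψ τ) ≤ η

theorem Tg.mono {τ q w w' p s t η} (e : s ≤ t) (h : Tg d δ k τ q w w' p s η) :
    Tg d δ k τ q w w' p t η := (Gl67.Sd.Q_mono (Ici_subset_Ici.2 e)).trans h

theorem Fz.tg {F : Fz d q₀ δ k} (h : F.FinZ) {η : ℝ≥0} (hη : 0 < η) : ∃ t, ∀ᶠ e in F.l,
    Tg d δ k (F.τ e) (F.q e) (F.w e) (F.w' e) (F.p e) t η := h η hη

variable (d δ k) in
/-- the hypotheses of `LocZ` -/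
structure Hy (τ : d.Ta) (q : Wi →₀ ℝ) (w w' : (W.Z M.c0).M → Cf (Option κ) (Fin d.N))
    (p : PP (Tc σ a) U r h d.N) (b : ℝ) (ρ : ℝ≥0) : Prop where
  sw : w ∈ Sec (W.Z M.c0).I (d.Xs τ).bd.pC
  sw' : w' ∈ Sec (W.Z M.c0).I (d.Xs τ).bd.pC
  ts : tsupport w' ⊆ d.hX τ ⁻¹' Ici 1
  eq : ∀ x, b < d.hX τ x → w' x = w x
  np : ‖p‖ ≤ ρ
  Q : (d.sX τ q).Q (g0 δ) univ (k + 1) w ≤ ρ
  Q' : (d.sX τ q).Q (g0 δ) univ (k + 1) w' ≤ ρ

theorem of_tg (h : d.Seq q₀ fun l τ q => ∃ ρ : ℝ≥0, 0 < ρ ∧ ∀ b, ∀ η : ℝ≥0, 0 < η → ∃ t, ∀ᶠ i in l,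
    ∀ w w' p, Hy d δ k (τ i) (q i) w w' p b ρ → Tg d δ k (τ i) (q i) w w' p t η) :
    d.LocZ q₀ δ k := fun α l τ q a1 a2 =>
  (h α l τ q a1 a2).imp fun _ h => ⟨h.1, fun b η hη => (h.2 b η hη).imp fun _ h => h.mono
    fun _ h w a1 w' a2 a3 a4 p a5 a6 a7 => h w w' p ⟨a1, a2, a3, a4, a5, a6, a7⟩⟩

/-- **LEAF RED** -/
theorem red (H : d.OK q₀ δ) (hk : 7 ≤ k) (hF : ∀ F : Fz d q₀ δ k, F.FinZ) : d.LocZ q₀ δ k := by
  refine of_tg fun α l τ q hτ hq => ?_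
  obtain ⟨r₀, r0, C1, -, h1⟩ := (geo H).fam
  obtain ⟨C2, h2⟩ := Gb50.base H
  obtain ⟨ρ1, p1, h3⟩ := Cay24.s_cl H
  obtain ⟨s₀, k1, k2⟩ := H.ok.lin
  obtain ⟨C3, h5⟩ := (H.okZ 0).fam.tame
  obtain ⟨C4, h6⟩ := cbs_Dτ d.D
  have h7 : ∀ i, d.D.Z.CBs (d.D.Z.D i Prod.snd) C4 := by
    have : ∀ i, d.D.Z.CBs (d.D.Z.D i d.D.nk.τ) C4 := h6 d.D.nk
    rwa [show d.D.nk.τ = Prod.snd from funext fun z => by simp [Nk.τ, YD.nk, tf]] at this
  let C : ℕ → ℝ := fun j => max (max (C1 j) (C2 j)) (max (C3 j) (C4 j))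
  let ρ : ℝ≥0 := ⟨min r₀ ρ1, by positivity⟩
  have δ0 := H.δ0
  have δ1 := H.δ1.2 d.x
  refine ⟨ρ, lt_min r0 p1, fun b η hη => ?_⟩
  let G : d.Ta → Prop := fun τ => Lg d τ ∧ At d τ ∧ (d.Xs τ).OK ∧ FU (d.FX τ) ρ C ∧
    SU (d.Xs τ) C ∧ s₀ ≤ τ
  have hG : ∀ᶠ i in l, G (τ i) := hτ.eventually <| by
    filter_upwards [ev_lg H, Cay24.ev_at (geo H), h1, h2,
      (tendsto_comap : Tendsto _ d.lg _).eventually_const_le k1] with τ a1 a2 a3 a4 a5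
    exact ⟨a1, a2, a4.1, fu_rad (Gla92.fu_mono a3.2.1 fun _ => le_max_of_le_left (le_max_left _ _))
      (min_le_left _ _), Gla92.su_mono a4.2.1 fun _ => le_max_of_le_left (le_max_right _ _), a5⟩
  let 𝒟 := {x : α × ((W.Z M.c0).M → Cf (Option κ) (Fin d.N)) ×
      ((W.Z M.c0).M → Cf (Option κ) (Fin d.N)) × PP (Tc σ a) U r h d.N // G (τ x.1) ∧
    Hy d δ k (τ x.1) (q x.1) x.2.1 x.2.2.1 x.2.2.2 b ρ}
  obtain ⟨t, ht⟩ := Lcz33.ev_ultra (l := comap (fun x : 𝒟 => x.1.1) l) (P := fun t x =>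
      Tg d δ k (τ x.1.1) (q x.1.1) x.1.2.1 x.1.2.2.1 x.1.2.2.2 t η)
    (fun s t e _ => Tg.mono e) fun 𝒰 h𝒰 => by
      have n1 : ∀ x : 𝒟, ‖x.1.2.2.2.1‖ ≤ ρ := fun x => (norm_fst_le _).trans x.2.2.np
      have m : Tendsto (fun x : 𝒟 => x.1.1) 𝒰 l := tendsto_comap.mono_left h𝒰
      obtain ⟨t₀, h0, lim⟩ := (isCompact_closedBall (0 : Tc σ a) ρ).ultrafilter_le_nhds'
        (𝒰.map fun x => x.1.2.2.2.1) (Ultrafilter.mem_map.2 (univ_mem' fun x =>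
          mem_closedBall_zero_iff.2 (n1 x)))
      obtain ⟨S, s1, s2⟩ := hq
      exact Fz.tg (hF
        { 𝒟 := 𝒟, l := 𝒰, τ := fun x => τ x.1.1, q := fun x => q x.1.1, w := fun x => x.1.2.1
          w' := fun x => x.1.2.2.1, p := fun x => x.1.2.2.2, b := b, ρ := ρ, t₀ := t₀, C := C
          θ := min (2 * δ) ((J.xs d.x).N.δ / 4), ok := H, hk := hk, tτ := hτ.comp m, tp := lim
          cv := ⟨S, fun _ => s1 _, fun w => (s2 w).comp m⟩, lg := fun x => x.2.1.1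
          ta := fun x => x.2.1.2.1, okX := fun x => x.2.1.2.2.1, fu := fun x => x.2.1.2.2.2.1
          su := fun x => x.2.1.2.2.2.2.1, np := fun x => x.2.2.np
          cl := fun x => h3 _ ⟨by linarith [x.2.1.1.half], x.2.1.1.lt.le⟩ _
            ((n1 x).trans (min_le_right _ _))
          cl0 := h3 _ ⟨zero_le_one, le_rfl⟩ _
            ((mem_closedBall_zero_iff.1 h0).trans (min_le_right _ _))
          ν := fun x => (k2 a _ H.hd _ (le_of_le_of_eq x.2.1.2.2.2.2.2 (ee_a _ _ _).symm)).2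
            (d.hb true).1
          tz := Ell97.Tame_mono h5 fun _ => le_max_of_le_right (le_max_left _ _)
          cs := fun i => Ell97.CBs_mono (h7 i) fun _ => le_max_of_le_right (le_max_right _ _)
          δθ := lt_min (by linarith) (by linarith), θδ := min_le_left _ _
          θN := by linarith [min_le_right (2 * δ) ((J.xs d.x).N.δ / 4)]
          sw := fun x => x.2.2.sw, sw' := fun x => x.2.2.sw', ts := fun x => x.2.2.ts
          eq := fun x => x.2.2.eq, Q := fun x => x.2.2.Q, Q' := fun x => x.2.2.Q' }) hη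
  exact ⟨t, (hG.and (eventually_comap.1 ht)).mono fun i hi w w' p a1 =>
    hi.2 ⟨(i, w, w', p), hi.1, a1⟩ rfl⟩

end Crest.Agent.X212.Lz92
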