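import Crest.Agent.X212.Gla92.Lz2
import Crest.Agent.X212.Gla92.Lz3
import Crest.Agent.X212.Cay24.Lz

/-! Row 212, **GL-LOCZ** (helper92). -/

set_option autoImplicit false
noncomputable section

namespace Crest.Agent.X212.Lz92
open An An.Job M Gj67

variable {Wi : Type} {X : M.Mf 4} {A κ lam : Type} [Fintype A] [Fintype κ] [Fintype lam]
  [DecidableEq lam] {M : Mark X A κ} {W : World M} {L : ML M lam} {Λ : Lns W L}
  {A' h : Type} [Fintype A'] [DecidableEq A'] [Fintype h] {r n : ℕ}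
  {J : Job Wi Λ A' h r n} {σ : Cel A'} {a : A'}
  {U Up R : Type} [NormedAddCommGroup U] [NormedSpace ℝ U] [NormedAddCommGroup Up]
  [NormedSpace ℝ Up] [NormedAddCommGroup R] [NormedSpace ℝ R]
  {d : Dat J σ a U Up R} {q₀ : Wi →₀ ℝ} {δ : ℝ} {k : ℕ}

/-- **GL-LOCZ** -/
theorem locZ (H : d.OK q₀ δ) (hk : 7 ≤ k) : d.LocZ q₀ δ k :=
  red H hk fun F => Cay24.Lz.fin F (F.hkZ (Cay24.Lz.pk F))

end Crest.Agent.X212.Lz92
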