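import Crest.Agent.X212.Gla92.X
import Crest.Agent.X212.Lpe67.Main
import Crest.Agent.X212.Rep70.B

/-! # Row 212, GL (helper92): the leaves `Oke LipS LipZ LipX RepX C11` -/

set_option autoImplicit false
set_option linter.unusedSectionVars false
noncomputable section
open scoped Manifold ContDiff Topology InnerProductSpace ENNReal NNReal
open Set Function Filter

namespace Crest.Agent.X212.Gla92
open An An.Job M Gj67

variable {Wi : Type} {X : Mf 4} {A κ lam : Type} [Fintype A] [Fintype κ] [Fintype lam]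
  [DecidableEq lam] {M : Mark X A κ} {W : World M} {L : ML M lam} {Λ : Lns W L}
  {A' h : Type} [Fintype A'] [DecidableEq A'] [Fintype h] {r n : ℕ}
  {J : Job Wi Λ A' h r n} {σ : Cel A'} {a : A'}
  {U Up R : Type} [NormedAddCommGroup U] [NormedSpace ℝ U] [FiniteDimensional ℝ U]
  [NormedAddCommGroup Up] [NormedSpace ℝ Up] [NormedAddCommGroup R] [NormedSpace ℝ R]
  {d : Dat J σ a U Up R} {q₀ : Wi →₀ ℝ} {δ : ℝ} {k : ℕ} (H : d.OK q₀ δ) (hk : 7 ≤ k)
include H hk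

/-- **LEAF OKE** -/
theorem oke : d.Oke q₀ := by
  obtain ⟨ρ, -, r0, b, -⟩ := Lpe67.okLipS H hk q₀
  obtain ⟨ρ', r1, e⟩ := Rep70.okX H (Gb50.geo H) (Gb50.base H)
  have r2 : (0 : ℝ) < min (min (ρ : ℝ) ρ') (1 / 2) := lt_min (lt_min r0 r1) one_half_pos
  have l1 : min (min (ρ : ℝ) ρ') (1 / 2) ≤ ρ := (min_le_left _ _).trans (min_le_left _ _)
  have l2 : min (min (ρ : ℝ) ρ') (1 / 2) ≤ ρ' := (min_le_left _ _).trans (min_le_right _ _)
  exact ⟨_, r2, ⟨b.sm, fun w hw q hq => b.smE w hw q (hq.trans l1)⟩,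
    okZ H hk r2.le ((min_le_right _ _).trans_lt one_half_lt_one), e.mono fun τ e =>
      ⟨fun q => ⟨(e.1 q).sm, fun w hw p hp => (e.1 q).smE w hw p (hp.trans l2)⟩,
        fun w hw t ht => e.2 w hw t (ht.trans l2)⟩⟩

/-- **the six leaves of row 6703** -/
theorem six : d.Oke q₀ ∧ d.LipS q₀ δ k ∧ d.LipZ q₀ δ k ∧ d.LipX q₀ δ k ∧ d.RepX δ k ∧
    d.C11 q₀ δ k :=
  ⟨oke H hk, Lpe67.lipS H hk, lipZ H hk, lipX H hk, Rep70.repX H hk (Gb50.base H), c11 H hk⟩

end Crest.Agent.X212.Gla92
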