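import Crest.Agent.X212.Gla92.Dm
import Crest.Agent.X212.An.Job

/-! # Row 212, GL (helper92): configurations of the sides, the gauge row, classes of equations -/

set_option autoImplicit false
set_option linter.unusedSectionVars false
set_option maxSynthPendingDepth 3
noncomputable section
open scoped Manifold ContDiff Topology InnerProductSpace ENNReal NNReal
open MeasureTheory Set Function Filter Real Metric

namespace Crest.Agent.X212.Gla92
open An Sob92 Prm93 Mod61 Map77 Mon62 Mon62.Dm Gl67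
open Ell97 (UB)
open Std94 (Kl)

variable {E : Type} [NormedAddCommGroup E] [NormedSpace ℝ E] [FiniteDimensional ℝ E]
  [MeasurableSpace E] [BorelSpace E]
  {HM : Type} [TopologicalSpace HM] {I : ModelWithCorners ℝ E HM} [I.Boundaryless]
  {M : Type} [TopologicalSpace M] [ChartedSpace HM M] [IsManifold I ∞ M]
  [MeasurableSpace M] [T2Space M] [BorelSpace M] [SecondCountableTopology M]
  {ι lam h : Type} [Fintype ι] [Fintype lam] [Fintype h]
  {T U Up R : Type} [NormedAddCommGroup T] [NormedSpace ℝ T] [NormedAddCommGroup U]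
  [NormedSpace ℝ U] [NormedAddCommGroup Up] [NormedSpace ℝ Up] [NormedAddCommGroup R]
  [NormedSpace ℝ R] {N r n m : ℕ} {Jc : En (Fin N)}

/-! ### one side -/

section one
variable {𝔉 : Fam I M ι lam T} {s : Sid 𝔉 N Jc U Up R} (H : s.OK)
include H

theorem Pg_eq : s.Pg = s.md.pg := by rw [Sid.Pg, H.om.1, indicator_univ]
theorem Pp_eq : s.Pp = s.md.pp 𝔉.B := by rw [Sid.Pp, H.om.2, indicator_univ]
theorem Pm_eq : s.Pm = s.md.pm 𝔉.B := by rw [Sid.Pm, H.om.2, indicator_univ]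
theorem P1_eq : s.P1 = s.md.p1 𝔉.B := by unfold Sid.P1; rw [Pg_eq H]; rfl
theorem P2_eq : s.P2 = s.md.p2 𝔉.B := by unfold Sid.P2; rw [Pg_eq H]; rfl

theorem fa_mem (w : Sec I s.bd.pC) (x : M) : s.md.p1 𝔉.B x (fa (w.1 x)) = fa (w.1 x) := by
  rw [← P1_eq H]; exact (f2_ps _ _).symm.trans (congrArg _ (w.2.2.2 x))

theorem fp_mem (w : Sec I s.bd.pC) (x : M) : s.md.pp 𝔉.B x (fp (w.1 x)) = fp (w.1 x) := by
  rw [← Pp_eq H]; exact (s2_ps _ _).symm.trans (congrArg _ (w.2.2.2 x))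

variable (c : Cm N r h R) (w : Sec I s.bd.pC) {q : PP T U r h N} (hq : q.1 ∈ 𝔉.Q)
include hq

theorem conn_cfg : s.md.IsConn 𝔉.B (𝔉.G q.1) (s.cfg c w.1 q).W := by
  have e : ∀ x a, fa (w.1 x) a + s.b x q.2.1 a ∈ s.md.gS x := fun x a => by
    rw [← fa_mem H, ← H.pb, Md.p1, Wz78.idx_apply, Wz78.idx_apply]
    exact add_mem (Submodule.sum_mem _ fun b _ => Submodule.smul_mem _ _ (Wz78.pg_mem x _))
      (Submodule.sum_mem _ fun b _ => Submodule.smul_mem _ _ (Wz78.pg_mem x _))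
  refine isConn_addC H.ok (H.fam.conn _ _ H.ok H.conn _ hq) (fun a => ?_) (fun x a => ?_)
    fun x a => ?_
  · simp only [Wz78.idx_apply]
    exact contMDiff_finsetSum fun b _ => (Cb.sm ((H.fam.sS a b).cb _ hq)).smul
      ((pj _ b).contMDiff.comp ((fa.contMDiff.comp w.2.1).add
        ((Cb.sm H.cb).clm_apply contMDiff_const)))
  · rw [Wz78.idx_apply]
    exact Submodule.sum_mem _ fun b _ => Submodule.smul_mem _ _ (e x b)
  · simp only [Wz78.idx_apply, Finset.smul_sum, smul_smul]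
    rw [Finset.sum_comm]
    simp only [← Finset.sum_smul, H.fam.PS _ hq]

theorem pm_eq0 (x : M) : s.md.pm 𝔉.B x ((𝔉.eq0 r n m q.1).D (s.cfg c w.1 q) x) =
    (𝔉.eq0 r n m q.1).D (s.cfg c w.1 q) x := by
  have e := Wz78.dir_pp H.fam.B H.ok (conn_cfg H c w hq) (u := s.Φ0 + fun x => fp (w.1 x)) (x := x)
    (((Cb.sm H.cΦ).add (fp.contMDiff.comp w.2.1)) x)
  simp only [Pi.add_apply, map_add, H.pos, fp_mem H] at e
  exact e.symm

omit hq in
theorem pg_row (t : T) (w : M → Cf ι (Fin N)) (x : M) : s.Pg x (s.row t w x) = s.row t w x := by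
  have e : ∀ ξ, s.Pg x (s.Pg x ξ) = s.Pg x ξ := by rw [Pg_eq H]; exact Wz78.pg_pg (m := s.md) x
  have e' : ∀ (L : CL (HS (Fin N)) (Cf ι (Fin N))) v, s.Pg x (Op.tr (L ∘L s.Pg x) v) =
      Op.tr (L ∘L s.Pg x) v := fun L v => ext_inner_left ℝ fun ξ => by
    have := Wz78.inner_pg (m := s.md) x
    rw [← Pg_eq H] at this
    rw [← this, Ell97.inner_tr, Ell97.inner_tr]
    simp only [ContinuousLinearMap.comp_apply, e]
  simp only [Sid.row, Op.app, Pre.op, Op.adj, Bd.d0, cut, map_add, map_sum, map_smul, e,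
    neg_apply, map_neg, ← ContinuousLinearMap.comp_assoc, e', ContinuousLinearMap.comp_apply]

end one

variable {J : Type} {𝔉 : J → Fam I M ι lam T} {s : ∀ i, Sid (𝔉 i) N Jc U Up R} {δ r₀ : ℝ}

theorem tk {A : Type} [NormedAddCommGroup A] [NormedSpace ℝ A] {F : J → Pre I M ι} {f : J → M → A}
    (h : UB F f) : (ubK F).mem fun q => f q.1 q.2 := h

theorem fk {A : Type} [NormedAddCommGroup A] [NormedSpace ℝ A] {F : J → Pre I M ι} {g : J × M → A}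
    (h : (ubK F).mem g) : UB F fun i x => g (i, x) := h

theorem kl_tp {X α Y Z : Type} {K : Kl X} [Fintype α] [NormedAddCommGroup Y] [NormedSpace ℝ Y]
    [NormedAddCommGroup Z] [InnerProductSpace ℝ Z] {f : X → α → Y →L[ℝ] Z}
    (h : ∀ a, K.mem fun x => f x a) : K.mem fun x => tp (f x) := by
  simp only [tp_eq]; exact Kl.fsum _ fun a => Kl.comp (K.const _) (h a)

theorem kl_sm2 {X Y Z Y' Z' : Type} {K : Kl X} [NormedAddCommGroup Y] [NormedSpace ℝ Y]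
    [NormedAddCommGroup Z] [NormedSpace ℝ Z] [NormedAddCommGroup Y'] [NormedSpace ℝ Y']
    [NormedAddCommGroup Z'] [NormedSpace ℝ Z'] {f : X → Y →L[ℝ] Y'} {g : X → Z →L[ℝ] Z'}
    (h : K.mem f) (h' : K.mem g) : K.mem fun x => sm2 (f x) (g x) :=
  K.add (Kl.comp (K.const _) (Kl.comp h (K.const _))) (Kl.comp (K.const _) (Kl.comp h' (K.const _)))

theorem us_mulK {X Y : J → Type} [∀ i, NormedAddCommGroup (X i)] [∀ i, NormedSpace ℝ (X i)]
    {D : Dm I M ι X Y} {V W : Type} [NormedAddCommGroup V] [InnerProductSpace ℝ V]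
    [NormedAddCommGroup W] [InnerProductSpace ℝ W] [CompleteSpace V] [CompleteSpace W] {j : ℕ}
    {ε : Prop} (hj : 4 ≤ j) {A : (Σ i, X i) × M → V →L[ℝ] W} (hA : (usK D).mem A)
    {w : ∀ i, Y i → M → V} (h : D.A0 True j w) :
    D.A0 ε j fun i y x => A (⟨i, D.pt i y⟩, x) (w i y x) := us_mul hj hA h

theorem a0_adj {X Y : J → Type} [∀ i, NormedAddCommGroup (X i)] [∀ i, NormedSpace ℝ (X i)]
    {D : Dm I M ι X Y} {V W : Type} [NormedAddCommGroup V] [InnerProductSpace ℝ V]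
    [NormedAddCommGroup W] [InnerProductSpace ℝ W] [FiniteDimensional ℝ V] [FiniteDimensional ℝ W]
    {j : ℕ} {G : ∀ i, X i → Fr I M ι} (hF : D.FF G) (hj : 4 ≤ j) {p : J → M → V →L[ℝ] V}
    {q : J → M → W →L[ℝ] W} {σ : ι → J → M → V →L[ℝ] W} {b : ∀ i, X i → M → V →L[ℝ] W}
    (hp : UB D.P p) (hq : UB D.P q) (hσ : ∀ a, UB D.P (σ a)) (hb : D.US b) {u : ∀ i, Y i → M → W}
    (hu : D.A0 True (j + 1) u) : D.A0 True j fun i y => ((cut (G i (D.pt i y)).toPre (p i) (q i)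
      (fun a => σ a i) (b i (D.pt i y))).adj (G i (D.pt i y))).app (G i (D.pt i y)) (u i y) := by
  have := FiniteDimensional.complete ℝ V
  have := FiniteDimensional.complete ℝ W
  have s1 := fun a => (hq.comp ((hσ a).comp hp)).clm (Ell97.trL V W)
  have f : ∀ {A : Type} [NormedAddCommGroup A] [NormedSpace ℝ A] {f : J → M → A}, UB D.P f →
      (usK D).mem fun z => f z.1.1 z.2 := fun h => US.fixed h
  have g : ∀ {A : Type} [NormedAddCommGroup A] [NormedSpace ℝ A] {f : J → M → A}, UB D.P f →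
      ∀ a, (usK D).mem fun z => (G z.1.1 z.1.2).D a (f z.1.1) z.2 :=
    fun h a => us_dG hF (US.fixed h) a
  have b0 : (usK D).mem fun z => b z.1.1 z.1.2 z.2 := hb
  have d0 : ∀ a, (usK D).mem fun z => (G z.1.1 z.1.2).dv a z.2 := fun a => (hF.dv a).us
  have b1 := Kl.comp (f hp) (Kl.sub (Kl.clm (Ell97.trL V W) (Kl.comp (f hq) ((usK D).add b0
    (Kl.fsum Finset.univ fun a => Kl.comp (f (hσ a)) (g hp a)))))
    (Kl.fsum Finset.univ fun a => (usK D).add (g (s1 a) a) (Kl.smul (d0 a) (f (s1 a)))))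
  exact ((A0.fsum Finset.univ fun a _ => (hu.dG hF hj a).app hj (s1 a).neg).add
    (us_mulK hj b1 (hu.lower hj j.le_succ))).congr fun _ _ _ => rfl

variable (s) in
/-- the modules -/
abbrev mf : MF M ι lam (J × Pf) :=
  ⟨N, Jc, fun z => (s z.1).p, fun z => (s z.1).ρ, fun z => (s z.1).j⟩

namespace Un
variable (H : Un s δ r₀)
include H

theorem ub_P (a b : ι) : UB (P0 𝔉) fun i => (𝔉 i).B.P a b :=
  let ⟨C, h⟩ := H.tame; ⟨C, fun i => by
    beta_reduce; rw [← (H.fam i).P0]; exact (h i).P a b⟩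

theorem ub_om : UB (N := En (Fin N)) (P0 𝔉) fun i => (s i).md.om (𝔉 i).B :=
  have := fk (Kl.csmul (1 / 24 : ℝ) (Kl.fsum Finset.univ fun a => Kl.fsum Finset.univ fun b =>
    Kl.fsum Finset.univ fun c => Kl.fsum Finset.univ fun d => Kl.smul (tk (H.o a b c d))
      (Kl.mulL (Kl.mulL (Kl.mulL (tk (H.ρ a)) (tk (H.ρ b))) (tk (H.ρ c))) (tk (H.ρ d)))))
  ub_congr this fun _ => rfl

theorem ub_pp : UB (N := En (Fin N)) (P0 𝔉) fun i => (s i).md.pp (𝔉 i).B :=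
  (UB.const _).smul (H.p.sub H.ub_om)
theorem ub_pm : UB (N := En (Fin N)) (P0 𝔉) fun i => (s i).md.pm (𝔉 i).B :=
  (UB.const _).smul (H.p.add H.ub_om)

theorem ub_pg : UB (N := CL (HS (Fin N)) (HS (Fin N))) (P0 𝔉) fun i => (s i).md.pg :=
  have := fk (Kl.pgF ((ubK (P0 𝔉)).const Jc) (fun a => tk (H.ρ a)) (tk H.j))
  ub_congr this fun i => funext fun x => Std94.pg_eq (H.fam i).B (Std94.pmx (H.ok i).ok x)

theorem ub_sd (a b : ι × ι) : UB (P0 𝔉) fun i x => (𝔉 i).B.sd x a b :=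
  ub_congr ((UB.const (1 / 2 : ℝ)).smul (((UB.const (1 / 2 : ℝ)).smul (((H.ub_P a.1 b.1).smul
    (H.ub_P a.2 b.2)).sub ((H.ub_P a.1 b.2).smul (H.ub_P a.2 b.1)))).add
    ((UB.const (1 / 2 : ℝ)).smul (H.o a.1 a.2 b.1 b.2)))) fun i => funext fun x => by
      simp only [Base.sd, Base.a2, Base.st, smul_eq_mul]; ring

theorem ub_p1 : UB (N := CL (Fm ι (HS (Fin N))) (Fm ι (HS (Fin N)))) (P0 𝔉) fun i =>
    (s i).md.p1 (𝔉 i).B :=
  have := fk (Kl.idx (fun a b => tk (H.ub_P a b)) (tk H.ub_pg))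
  ub_congr this fun _ => rfl

theorem ub_p2 : UB (N := CL (Fm (ι × ι) (HS (Fin N))) (Fm (ι × ι) (HS (Fin N)))) (P0 𝔉) fun i =>
    (s i).md.p2 (𝔉 i).B :=
  have := fk (Kl.idx (fun a b => tk (H.ub_sd a b)) (tk H.ub_pg))
  ub_congr this fun _ => rfl

theorem ub_Pg : UB (P0 𝔉) fun i => (s i).Pg := ub_congr H.ub_pg fun i => Pg_eq (H.ok i)
theorem ub_Pm : UB (P0 𝔉) fun i => (s i).Pm := ub_congr H.ub_pm fun i => Pm_eq (H.ok i)
theorem ub_P2 : UB (P0 𝔉) fun i => (s i).P2 := ub_congr H.ub_p2 fun i => P2_eq (H.ok i)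

theorem ub_pC : UB (P0 𝔉) fun i => (s i).bd.pC :=
  have a : UB (P0 𝔉) fun i => (s i).P1 := ub_congr H.ub_p1 fun i => P1_eq (H.ok i)
  have b : UB (P0 𝔉) fun i => (s i).Pp := ub_congr H.ub_pp fun i => Pp_eq (H.ok i)
  have := fk (kl_sm2 (tk a) (tk b))
  ub_congr this fun _ => rfl

variable {k : ℕ} {ρ : ℝ≥0} {ε ε' : Prop}

/-- the configurations -/
def kf (c : Cm N r h R) (k : ℕ) (ρ : ℝ≥0) : CF (H.dm h r k ρ) (mf s) r where
  G z v := ((𝔉 z.1).G v.2.1).F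
  W z y := ((s z.1).cfg c y.1.1 y.2.1).W
  Φ z y := (s z.1).Φ0 + fun x => fp (y.1.1 x)
  z _ y := c.z0 + y.2.1.2.2.1

theorem ubW_pm : UB (H.dm h r k ρ).P ((mf s).pm fun z => (𝔉 z.1).B) :=
  have := H.ubW (h := h) (r := r) (k := k) (ρ := ρ) H.ub_pm; this

theorem ubW_pp : UB (H.dm h r k ρ).P (N := En (Fin N)) fun z => ((mf s).m z).pp (𝔉 z.1).B :=
  have := H.ubW (h := h) (r := r) (k := k) (ρ := ρ) H.ub_pp; this

theorem ubW_p2 : UB (H.dm h r k ρ).P ((mf s).p2 fun z => (𝔉 z.1).B) :=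
  have := H.ubW (h := h) (r := r) (k := k) (ρ := ρ) H.ub_p2; this

theorem a0_w (hk : 3 ≤ k) : (H.dm h r k ρ).A0 ε (k + 1) fun _ y => y.1.1 :=
  A0.of_coord (by omega) (p := fun z => (s z.1).bd.pC) (δ := fun _ v => v.1) (uc_fst H.uc_id)
    ⟨fun _ y => Cb_of_hcs y.1.2.1 y.1.2.2.1, UB.const 0⟩
    fun z y => (val_toH ((H.dm h r k ρ).sup z) (by omega) y.1).symm

theorem us_fix {A : Type} [NormedAddCommGroup A] [NormedSpace ℝ A] {f : J → M → A}
    (hf : UB (P0 𝔉) f) : (usK (H.dm h r k ρ)).mem fun q => f q.1.1.1 q.2 := US.fixed (H.ubW hf)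

theorem us_ut {A : Type} [NormedAddCommGroup A] [NormedSpace ℝ A] {f : J → T → M → A}
    (hf : UT 𝔉 r₀ f) : (usK (H.dm h r k ρ)).mem fun q => f q.1.1.1 q.1.2.2.1 q.2 := H.usW hf

theorem us_S : (usK (H.dm h r k ρ)).mem fun q =>
    idx ((𝔉 q.1.1.1).S q.1.2.2.1 q.2) (.id ℝ (HS (Fin N))) :=
  Kl.idx (fun a b => H.us_ut (H.S a b)) ((usK _).const _)

theorem us_W0 (a : ι) : (usK (H.dm h r k ρ)).mem (N := En (Fin N)) fun q =>
    (𝔉 q.1.1.1).W0 (s q.1.1.1).md (s q.1.1.1).A0 q.1.2.2.1 a q.2 :=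
  (usK _).add ((usK _).add (Kl.fsum _ fun b => Kl.smul (H.us_ut (H.S a b)) (H.us_fix (H.A0 b)))
    (Kl.fsum _ fun b => Kl.fsum _ fun l => Kl.smul (H.us_ut (H.cf a b l))
      (Kl.mulL (H.us_fix (H.ρ b)) (H.us_fix (H.ρ l)))))
    (Kl.smul (H.us_ut (H.la a)) (Kl.mulL ((usK _).const Jc) (H.us_fix H.p)))

/-- **the gauge row** -/
theorem a0_row (hk : 4 ≤ k) :
    (H.dm h r k ρ).A0 ε k fun z y => (s z.1).row y.2.1.1 y.1.1 := by
  let K := usK (H.dm h r k ρ)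
  have hw := H.a0_w (h := h) (r := r) (ρ := ρ) (ε := True) (by omega : 3 ≤ k)
  have u := us_mulK (ε := True) (by omega) (kl_sm2 H.us_S (K.const (.id ℝ (Eu (Fin N))))) hw
  have s0 : ∀ a, UB (P0 𝔉) fun i x => σ0 (κ := Fin N) ((s i).bd.Px x) a := fun a =>
    ub_congr (fk (Kl.neg (Kl.comp ((ubK _).const (i1 _ _)) (kl_tp fun b =>
      Kl.smul (tk (H.ub_P b a)) ((ubK _).const (ContinuousLinearMap.id ℝ (HS (Fin N)))))))) fun _ => rfl
  have b0 : K.mem fun q => Map77.base ((𝔉 q.1.1.1).W0 (s q.1.1.1).md (s q.1.1.1).A0 q.1.2.2.1)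
      (s q.1.1.1).Φ0 q.2 := by
    simp only [Map77.base, ← fun v : ι → HS (Fin N) => (PiLp.ext (sum_ij v) : _ = WithLp.toLp 2 v)]
    exact K.add (Kl.clm _ (Kl.fsum _ fun a => Kl.clm _ (Kl.clm hsL (H.us_W0 a))))
      (Kl.clm _ (H.us_fix H.Φ0))
  have b1 : (H.dm h r k ρ).US fun z v x => l0 (Map77.base ((𝔉 z.1).W0 (s z.1).md (s z.1).A0 v.2.1)
      (s z.1).Φ0 x : Cf ι (Fin N)) := Kl.clm l0 b0
  have a1 := a0_adj H.ff hk (H.ubW H.ub_Pg) (H.ubW H.ub_pC) (fun a => H.ubW (s0 a)) b1 u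
  have a2 := A0.fsum Finset.univ fun a _ => (Lc.fixed (H.ubW (H.dr a))).smul hk
    (((hw.lower hk k.le_succ).clm hk (pj _ a ∘L fa)).app hk (H.ubW H.ub_Pg))
  exact ((a1.add a2).imp fun _ => trivial).congr fun _ _ _ => rfl

theorem skW (c : Cm N r h R) (z : J × Pf) (y : YY h r s z) (a : ι) (x : M) : Skw ((H.kf c k ρ).W z y a x) :=
  (conn_cfg (H.ok _) c y.1 y.2.2).sk a x

theorem sc_z (c : Cm N r h R) : (H.dm h r k ρ).Sc (H.kf c k ρ).z := (Sc.const _).add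
  (H.sc_q (ContinuousLinearMap.fst ℝ _ _ ∘L ContinuousLinearMap.snd ℝ _ _ ∘L
    ContinuousLinearMap.snd ℝ _ _))

/-- the calculus of `Mon62` applies if the moving limit is trivial -/
theorem cfOK (c : Cm N r h R) (hk : 7 ≤ k)
    (hb : (H.dm h r k ρ).A0 False (k + 1) fun z y x => (s z.1).b x y.2.1.2.1) :
    (H.kf c k ρ).OK False (k + 1) := by
  obtain ⟨χ, c1, c2⟩ := H.loc
  have h4 : 4 ≤ k + 1 := by omega
  have hw := H.a0_w (h := h) (r := r) (ρ := ρ) (ε := False) (by omega : 3 ≤ k)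
  have sS := fun a b => H.lcW (h := h) (r := r) (k := k) (ρ := ρ) (H.S a b) c1 fun i => (c2 i).1 a b
  refine ⟨by omega, H.ff, H.rb, H.rb, H.re, H.re, fun a => ?_, H.skW c,
    (A0.fixed (H.ubW H.Φ0)).add (hw.clm h4 fp), H.sc_z c, fun a => H.ubW (H.ρ a), H.ubW H.j,
    H.ubW H.ub_pg⟩
  have mul := fun {f g : J → M → En (Fin N)} (hf : UB (P0 𝔉) f) (hg : UB (P0 𝔉) g) =>
    A0.fixed (D := H.dm h r k ρ) (j := k + 1) (H.ubW ((hf.comp hg).clm hsL))
  refine ((((A0.fsum Finset.univ fun b _ => (sS a b).smul h4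
    (A0.fixed (H.ubW ((H.A0 b).clm hsL)))).add (A0.fsum Finset.univ fun b _ =>
      A0.fsum Finset.univ fun l _ => (H.lcW (H.cf a b l) c1 fun i => (c2 i).2.1 a b l).smul h4
        (mul (H.ρ b) (H.ρ l)))).add ((H.lcW (H.la a) c1 fun i => (c2 i).2.2.1 a).smul h4
          (mul (UB.const Jc) H.p))).add (A0.fsum Finset.univ fun b _ => (sS a b).smul h4
            (((hw.clm h4 fa).add hb).clm h4 (pj _ b)))).congr fun z y x => ?_
  have e := Wz78.idx_apply ((𝔉 z.1).S y.2.1.1 x) (ContinuousLinearMap.id ℝ (HS (Fin N)))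
    (fa (y.1.1 x) + (s z.1).b x y.2.1.2.1) a
  simp only [kf, Sid.cfg, Md.addC, Fam.W0, map_add hsL, map_sum hsL, map_smul hsL, Wz78.hsL_opL, e]
  rfl

theorem hb0 (hb : ∀ i x u, (s i).b x u = 0) :
    (H.dm h r k ρ).A0 False (k + 1) fun z y x => (s z.1).b x y.2.1.2.1 :=
  A0.zero.congr fun _ _ _ => hb _ _ _

/-! ### equations -/

/-- equations in the calculus -/
structure Cl (c : Cm N r h R) (k : ℕ) (ρ : ℝ≥0) (ε : Prop) (e : J → T → PtX M ι lam r n m) : Prop where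
  D : (H.dm h r k ρ).A0 ε k (V := Eu (Fin N)) fun z y =>
    (e z.1 y.2.1.1).D ((s z.1).cfg c y.1.1 y.2.1)
  C : (H.dm h r k ρ).A0 ε k (V := Fm (ι × ι) (HS (Fin N))) fun z y =>
    (e z.1 y.2.1.1).C ((s z.1).cfg c y.1.1 y.2.1)
  S : (H.dm h r k ρ).Sc fun z y =>
    ((e z.1 y.2.1.1).S ((s z.1).cfg c y.1.1 y.2.1), (e z.1 y.2.1.1).R ((s z.1).cfg c y.1.1 y.2.1))
  pD : ∀ i (w : Sec I (s i).bd.pC) q, q.1 ∈ (𝔉 i).Q → ∀ x, (s i).md.pm (𝔉 i).B x
    ((e i q.1).D ((s i).cfg c w.1 q) x) = (e i q.1).D ((s i).cfg c w.1 q) x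
  pC : ∀ i (w : Sec I (s i).bd.pC) q, q.1 ∈ (𝔉 i).Q → ∀ x, (s i).md.p2 (𝔉 i).B x
    ((e i q.1).C ((s i).cfg c w.1 q) x) = (e i q.1).C ((s i).cfg c w.1 q) x

end Un

namespace Un
variable {H : Un s δ r₀} {c : Cm N r h R} {e e' : J → T → PtX M ι lam r n m} {k : ℕ} {ρ : ℝ≥0}
  {ε ε' : Prop}

namespace Cl

theorem congr (a : H.Cl c k ρ ε e) (b : ∀ i, ∀ t ∈ (𝔉 i).Q, e' i t = e i t) : H.Cl c k ρ ε e' :=
  ⟨a.D.congr fun _ y _ => by rw [b _ _ y.2.2], a.C.congr fun _ y _ => by rw [b _ _ y.2.2],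
    a.S.congr fun _ y => by rw [b _ _ y.2.2], fun i w q hq => b i _ hq ▸ a.pD i w q hq,
    fun i w q hq => b i _ hq ▸ a.pC i w q hq⟩

theorem imp (a : H.Cl c k ρ ε e) (b : ε' → ε) : H.Cl c k ρ ε' e :=
  ⟨a.D.imp b, a.C.imp b, a.S, a.pD, a.pC⟩

theorem zero : H.Cl c k ρ ε (0 : J → T → PtX M ι lam r n m) :=
  ⟨A0.zero, A0.zero, Sc.const 0, fun _ _ _ _ _ => map_zero _, fun _ _ _ _ _ => map_zero _⟩

theorem add (a : H.Cl c k ρ ε e) (b : H.Cl c k ρ ε e') : H.Cl c k ρ ε (e + e') :=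
  ⟨a.D.add b.D, a.C.add b.C, a.S.add b.S, fun i w q hq x => (map_add _ _ _).trans
    (congrArg₂ (· + ·) (a.pD i w q hq x) (b.pD i w q hq x)), fun i w q hq x =>
    (map_add _ _ _).trans (congrArg₂ (· + ·) (a.pC i w q hq x) (b.pC i w q hq x))⟩

theorem smul (hk : 4 ≤ k) (t : ℝ) (a : H.Cl c k ρ ε e) : H.Cl c k ρ ε (t • e) :=
  ⟨a.D.clm hk (t • .id ℝ _), a.C.clm hk (t • .id ℝ _), a.S.clm (t • .id ℝ _),
    fun i w q hq x => (map_smul _ _ _).trans (congrArg (t • ·) (a.pD i w q hq x)),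
    fun i w q hq x => (map_smul _ _ _).trans (congrArg (t • ·) (a.pC i w q hq x))⟩

theorem neg (hk : 4 ≤ k) (a : H.Cl c k ρ ε e) : H.Cl c k ρ ε (-e) := neg_one_smul ℝ e ▸ a.smul hk _

theorem sum {K : Type*} (t : Finset K) {v : K → J → T → PtX M ι lam r n m}
    (a : ∀ i ∈ t, H.Cl c k ρ ε (v i)) : H.Cl c k ρ ε (∑ i ∈ t, v i) :=
  Finset.sum_induction _ _ (fun _ _ => add) zero a

/-- coefficients that depend on the side and on the parameter -/
theorem par {γ : J → T → ℝ} (h1 : ∀ i, ContDiffOn ℝ ∞ (γ i) (𝔉 i).Q)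
    (h2 : ∀ n, Bn (fun _ => closedBall 0 r₀) n γ) (a : H.Cl c k ρ True e) :
    H.Cl c k ρ ε fun i t => γ i t • e i t := by
  have g : (H.dm h r k ρ).Sc fun z y => γ z.1 y.2.1.1 :=
    ⟨_, H.uc_t (f := fun z => γ z.1) (fun z => h1 z.1) fun n => bn_reix Prod.fst n (h2 n),
      fun _ _ => rfl⟩
  have a1 := a.D.smulc (ε := ε) g
  have a2 := a.C.smulc (ε := ε) g
  have a3 := g.bil (ContinuousLinearMap.lsmul ℝ ℝ) a.S
  refine ⟨a1.congr fun _ _ _ => rfl, a2.congr fun _ _ _ => rfl, a3.congr fun _ _ => rfl,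
    fun i w q hq x => ?_, fun i w q hq x => ?_⟩
  · exact (map_smul _ (γ i q.1) _).trans (congrArg (γ i q.1 • ·) (a.pD i w q hq x))
  · exact (map_smul _ (γ i q.1) _).trans (congrArg (γ i q.1 • ·) (a.pC i w q hq x))

end Cl

variable (κ : (H.kf c k ρ).OK False (k + 1))
include κ

/-- the unperturbed equations -/
theorem cl_eq0 : H.Cl c k ρ False fun i => (𝔉 i).eq0 r n m := by
  have hk := κ.hj
  have a1 := κ.eqD (l := k) (by omega) le_rfl
  have a2 := κ.eqC (l := k) (by omega) le_rfl H.ubW_p2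
  refine ⟨?_, ?_, ?_, fun i w _ hq => ?_, fun i w q _ x => ?_⟩
  · exact a1
  · exact a2
  · exact (Sc.const 0).congr fun _ _ => rfl
  · exact pm_eq0 (H.ok i) c w hq
  · have b := Std94.p2_p2 (m := (s i).md) (H.fam i).B x
    simp only [Fam.eq0, eq0, Md.mu]
    exact (map_sub _ _ _).trans (congrArg₂ (· - ·) (b _) (b _))

omit κ in
theorem pm_tm (H : Un s δ r₀) (i : J) (w : M → Cf ι (Fin N)) (q : PP T U r h N) (F : Fr I M ι) (τ : Tm M lam r n)
    (x : M) : (s i).md.pm (𝔉 i).B x (((s i).cfg c w q).tD (𝔉 i).B F τ x) =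
      ((s i).cfg c w q).tD (𝔉 i).B F τ x ∧ (s i).md.p2 (𝔉 i).B x
        (((s i).cfg c w q).tC (𝔉 i).B F τ x) = ((s i).cfg c w q).tC (𝔉 i).B F τ x := by
  have a := fun v => congrArg (fun S : En (Fin N) => S v)
    (Std94.pm_pm (H.fam i).B (Std94.pmx (H.ok i).ok x))
  have b := Std94.p2_p2 (m := (s i).md) (H.fam i).B x
  cases τ with
  | lin u => exact ⟨a _, map_zero _⟩
  | anti d s u => exact ⟨a _, map_zero _⟩
  | ad g g' ξ => exact ⟨map_zero _, b _⟩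
  | adj d s g g' u v l => exact ⟨map_zero _, b _⟩
  | adn f g g' φ L => exact ⟨map_zero _, b _⟩
  | _ => exact ⟨map_zero _, map_zero _⟩

/-- the terms of the jobs -/
theorem cl_tm {τ : Tm M lam r n} (hT : (H.dm h r k ρ).TmU τ) (hp : (H.kf c k ρ).Pu (k + 1) τ) :
    H.Cl c k ρ ε fun i t => (⟨tmP (𝔉 i).B ((𝔉 i).G t).F τ, fun _ => 0⟩ : PtX M ι lam r n m) :=
  have hk := κ.hj
  ⟨((κ.tD H.ubW_pm hT hp).lower (by omega) k.le_succ).imp
    fun _ => trivial, ((κ.tC H.ubW_p2 hT hp).lower (by omega)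
      k.le_succ).imp fun _ => trivial, sc_prod (κ.tS hT) (Sc.const 0),
    fun i _ _ _ x => (H.pm_tm i _ _ _ τ x).1, fun i _ _ _ x => (H.pm_tm i _ _ _ τ x).2⟩

end Un

end Crest.Agent.X212.Gla92
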