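import Crest.Agent.X212.Gla92.Nk
import Crest.Agent.X212.Lpe67.Un
import Crest.Agent.X212.Cap39.Main

/-! # Row 212, GL (helper92): `Uv` and `Ca` from explicit bounds -/

set_option autoImplicit false
set_option linter.unusedSectionVars false
set_option maxSynthPendingDepth 3
noncomputable section
open scoped Manifold ContDiff Topology InnerProductSpace ENNReal NNReal
open MeasureTheory Set Function Filter Metric

namespace Crest.Agent.X212.Gla92
open An Sob92 Prm93 Mod61 Mon62 Mon62.Dm Gl67 Nd18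
open Gj67 (FU SU UBn)
open Ell97 (UB)

variable {E : Type} [NormedAddCommGroup E] [NormedSpace ℝ E] [FiniteDimensional ℝ E]
  [MeasurableSpace E] [BorelSpace E]
  {HM : Type} [TopologicalSpace HM] {I : ModelWithCorners ℝ E HM} [I.Boundaryless]
  {M : Type} [TopologicalSpace M] [ChartedSpace HM M] [IsManifold I ∞ M]
  [MeasurableSpace M] [T2Space M] [BorelSpace M] [SecondCountableTopology M]
  {lam h : Type} [Fintype lam] [Fintype h]
  {T U Up R : Type} [NormedAddCommGroup T] [NormedSpace ℝ T] [NormedAddCommGroup U]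
  [NormedSpace ℝ U] [NormedAddCommGroup Up] [NormedSpace ℝ Up] [NormedAddCommGroup R]
  [NormedSpace ℝ R] {N r n m k : ℕ} {Jc : En (Fin N)} {J J' : Type}
  {Ω : Set M} {δ r₀ r₁ ρ₁ : ℝ} {C : ℕ → ℝ} {Q' : Set T} {ρ : ℝ≥0}

section gen
variable {ι : Type} [Fintype ι]

theorem dens_one (F : Pre I M ι) {g : M → ℝ} (hg : Continuous g) {O : Set M} (hO : IsOpen O)
    (e : (F.μ.withDensity fun x => ENNReal.ofReal (Real.exp (g x))).restrict O = F.μ.restrict O) :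
    ∀ x ∈ O, g x = 0 := fun x hx => by
  have := lfm F
  have := openPos F
  have c : Continuous fun x => ENNReal.ofReal (Real.exp (g x)) :=
    ENNReal.continuous_ofReal.comp (Real.continuous_exp.comp hg)
  rw [restrict_withDensity hO.measurableSet] at e
  have e1 := (withDensity_eq_iff_of_sigmaFinite c.measurable.aemeasurable aemeasurable_const).1
    (e.trans withDensity_one.symm)
  have e2 := Measure.eqOn_open_of_ae_eq e1 hO c.continuousOn continuousOn_const hx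
  simpa using e2

variable {𝔉 : J → Fam I M ι lam T} {s : ∀ i, Sid (𝔉 i) N Jc U Up R}

/-- **the volume forms over a small ball** -/
theorem uv_of (ok : ∀ i, (s i).OK) (fu : ∀ i, FU (𝔉 i) r₁ C)
    (e0 : ∀ i, (𝔉 i).G0.F.μ = (𝔉 i).F0.μ) (L : Lo s Ω) (G : Gm s Ω) (h1 : δ ≤ 1 / 32)
    (r1 : r₀ < ρ₁) (r2 : ρ₁ ≤ r₁) : Uv (fun i => rs (s i) (ball 0 ρ₁)) δ r₀ := by
  have F := fun i => (ok i).fam
  have hr := r1.le.trans r2
  have sub : ∀ i, closedBall 0 r₀ ⊆ (res (𝔉 i) (ball 0 ρ₁)).Q := fun i t ht =>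
    ⟨(fu i).sub (closedBall_subset_closedBall hr ht), closedBall_subset_ball r1 ht⟩
  choose g g1 g2 g3 using fun i => (fu i).μ
  obtain ⟨K, k1, k2, k3⟩ := G.loc
  obtain ⟨χ, c1, c2, c3, -, c4⟩ := Met55.exists_cut (I := I) k1 L.op k2
  have z : ∀ i, ∀ t ∈ (𝔉 i).Q, ∀ x, χ x ≠ 1 → g i t x = 0 := fun i t ht x e =>
    dens_one (P0 𝔉 i) (Cb.sm ((g1 i).cb _ ht)).continuous (k3 i t ht).op (by
      rw [← g3 i t ht, (k3 i t ht).μ (F i).G0.vol ((F i).G t ht).vol, e0])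
      x fun k => e (c4 _ k).self_of_nhds
  refine ⟨h1, e0, fun i t x => g i t x / 2, (Lpe67.ut_of g1 g2 hr).comp
    (fun i => (F i).opn.inter isOpen_ball) sub (contDiff_id.div_const 2), fun i t ht => ?_,
    fun _ => χ, (Lpe67.lo_rs L).bu c1 c2 c3, fun i t ht u hu x e => ?_⟩
  · refine (g3 i t ht.1).trans (congrArg _ (funext fun x => ?_))
    rw [mul_div_cancel₀ _ two_ne_zero]
  · simp only [z i t ht.1 x e, z i u hu.1 x e]

/-- **the calculus without moving limits** -/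
theorem ca0 (H : Un s δ r₀) (c : Cm N r h R) (hk : 7 ≤ k) (hb : ∀ i x u, (s i).b x u = 0)
    (L : Lo s Ω) : Ca k H c ρ Ω :=
  have κ := H.cfOK (ρ := ρ) c hk (H.hb0 hb)
  ⟨Cap39.wa H c (by omega), fun _ _ => Un.cl_eq0 κ, fun _ _ _ a => L.cl_tm κ a,
    fun _ x a => Csm97.sc_xi κ (L.xiU H a) (L.xiP κ a) fun _ => x⟩

theorem mo_rs (a : Mo s δ k) : Mo (fun i => rs (s i) Q') δ k :=
  let ⟨n, c, γ, b1, b2, b3⟩ := a.C
  ⟨⟨a.Φ.ub, a.Φ.n⟩, n, c, γ, b1, fun a => ⟨(b2 a).ub, (b2 a).n⟩, b3⟩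

variable (φ : J' → J)

theorem ub_ix {A : Type} [NormedAddCommGroup A] [NormedSpace ℝ A] {f : J → M → A}
    (a : UB (P0 𝔉) f) : UB (P0 fun i => 𝔉 (φ i)) fun i => f (φ i) := a.imp fun _ b i => b (φ i)

theorem Mo.ix (a : Mo s δ k) : Mo (fun i => s (φ i)) δ k :=
  let ⟨n, c, γ, b1, b2, b3⟩ := a.C
  ⟨⟨ub_ix φ a.Φ.ub, a.Φ.n.imp fun _ b i => b (φ i)⟩, n, c, fun a i => γ a (φ i), b1,
    fun a => ⟨ub_ix φ (b2 a).ub, (b2 a).n.imp fun _ b i => b (φ i)⟩, fun i => b3 (φ i)⟩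

theorem Gm.ix (a : Gm s Ω) : Gm (fun i => s (φ i)) Ω :=
  have b := fun {V : Type} [NormedAddCommGroup V] [NormedSpace ℝ V] {f : J → M → V}
    (h : Bv0 𝔉 f) => show Bv0 (fun i => 𝔉 (φ i)) fun i => f (φ i) from
      ⟨ub_ix φ h.ub, fun _ => h.hc _, h.vol.imp fun _ b _ => b _⟩
  ⟨a.loc.imp fun _ k => ⟨k.1, k.2.1, fun _ => k.2.2 _⟩, fun _ => a.gr _, fun _ => a.lop _,
    b a.bp, b a.mo, b a.lo, a.pk.imp fun _ b _ => b _⟩

theorem lo_empty : Lo s ∅ :=
  ⟨isOpen_empty, fun _ _ _ k => k.elim, fun _ _ => by simp, fun _ _ _ k => k.elim⟩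

end gen

end Crest.Agent.X212.Gla92
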