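import Crest.Agent.X212.Gl67.Low
import Crest.Agent.X212.Mon62.RE

/-! # Row 212, GL (helper92): complements to the calculus of `Mon62`, weighted norms -/

set_option autoImplicit false
set_option linter.unusedSectionVars false
set_option maxSynthPendingDepth 3
noncomputable section
open scoped Manifold ContDiff Topology InnerProductSpace ENNReal NNReal
open MeasureTheory Set Function Filter Real

namespace Crest.Agent.X212.Gla92
open An Sob92 Prm93 Mon62 Mon62.Dm Gl67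
open Ell97 (UB)

variable {E : Type} [NormedAddCommGroup E] [NormedSpace ℝ E] [FiniteDimensional ℝ E]
  [MeasurableSpace E] [BorelSpace E]
  {HM : Type} [TopologicalSpace HM] {I : ModelWithCorners ℝ E HM} [I.Boundaryless]
  {M : Type} [TopologicalSpace M] [ChartedSpace HM M] [IsManifold I ∞ M]
  [MeasurableSpace M] [T2Space M] [BorelSpace M] [SecondCountableTopology M] {ι : Type} [Fintype ι]
  {J : Type} {X Y : J → Type} [∀ i, NormedAddCommGroup (X i)] [∀ i, NormedSpace ℝ (X i)]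
  {N N' : Type} [NormedAddCommGroup N] [NormedSpace ℝ N] [NormedAddCommGroup N']
  [NormedSpace ℝ N']
  {V W : Type} [NormedAddCommGroup V] [InnerProductSpace ℝ V] [NormedAddCommGroup W]
  [InnerProductSpace ℝ W]

/-! ### norms -/

section nrm
variable {F : Pre I M ι} {g : M → ℝ} {k : ℕ} {u : M → N} {x : M}

theorem J_clm (L : N →L[ℝ] N') : ∀ (k : ℕ) {u : M → N}, Sm I u →
    Gl67.J F k (fun y => L (u y)) x ≤ ‖L‖ ^ 2 * Gl67.J F k u x := by
  have h0 : ∀ v, ‖L v‖ ^ 2 ≤ ‖L‖ ^ 2 * ‖v‖ ^ 2 := fun v => by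
    rw [← mul_pow]; exact pow_le_pow_left₀ (norm_nonneg _) (L.le_opNorm v) 2
  intro k
  induction k with
  | zero => exact fun _ => h0 _
  | succ k ih =>
    intro u hu
    rw [Gl67.J, Gl67.J, mul_add, Finset.mul_sum]
    refine add_le_add (h0 _) (Finset.sum_le_sum fun a _ => ?_)
    rw [show F.D a (fun y => L (u y)) = fun y => L (F.D a u y) from
      funext fun y => dv_clm L (hu.mdifferentiableAt (by simp))]
    exact ih (F.sm_D hu a)

theorem N_clm (L : N →L[ℝ] N') (hu : Sm I u) :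
    Gl67.N F g univ k (fun y => L (u y)) ≤ q2 L * Gl67.N F g univ k u :=
  N_le .univ (sq_nonneg _) fun x _ =>
    (mul_le_mul_of_nonneg_left (J_clm L k hu) (exp_pos _).le).trans_eq (by ring)

theorem q2_le_one {L : N} (h : ‖L‖ ≤ 1) : q2 L ≤ 1 :=
  ENNReal.ofReal_le_one.2 (pow_le_one₀ (norm_nonneg _) h)

theorem N_prod (hg : Continuous g) {v : M → N'} (hu : Sm I u) (hv : Sm I v) :
    Gl67.N F g univ k (fun y => (u y, v y)) ≤
      2 * Gl67.N F g univ k u + 2 * Gl67.N F g univ k v := by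
  have e : (fun y => (u y, v y)) = (fun y => ContinuousLinearMap.inl ℝ N N' (u y)) +
      fun y => ContinuousLinearMap.inr ℝ N N' (v y) := funext fun y => by simp
  rw [e]
  refine (N_add isOpen_univ .univ subset_rfl hg (smO ((ContinuousLinearMap.contMDiff _).comp hu))
    (smO ((ContinuousLinearMap.contMDiff _).comp hv))).trans (add_le_add
      (mul_le_mul_right ((N_clm _ hu).trans (mul_le_of_le_one_left' (q2_le_one ?_))) _)
      (mul_le_mul_right ((N_clm _ hv).trans (mul_le_of_le_one_left' (q2_le_one ?_))) _))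
  exacts [ContinuousLinearMap.norm_inl_le_one _ _ _, ContinuousLinearMap.norm_inr_le_one _ _ _]

theorem J_le {C : ℝ} : ∀ (k : ℕ) {u : M → N}, F.CB k u C →
    Gl67.J F k u x ≤ (Fintype.card ι + 1) ^ k * C ^ 2
  | 0, _, h => by simpa [Gl67.J] using pow_le_pow_left₀ (norm_nonneg _) (CB_bound h x) 2
  | k + 1, u, h => by
    have h1 := Finset.sum_le_card_nsmul Finset.univ _ _ fun a _ => J_le k (CB_D h a)
    have h2 := pow_le_pow_left₀ (norm_nonneg _) (CB_bound h x) 2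
    have h3 : C ^ 2 ≤ (Fintype.card ι + 1) ^ k * C ^ 2 := le_mul_of_one_le_left (sq_nonneg C)
      (one_le_pow₀ (by linarith [Nat.cast_nonneg (α := ℝ) (Fintype.card ι)]))
    rw [nsmul_eq_mul, Finset.card_univ] at h1
    rw [Gl67.J, pow_succ (_ + 1 : ℝ)]
    linarith

theorem N_bump {C c : ℝ} (h : F.CB k u C) (hc : ∀ x ∈ tsupport u, g x ≤ c) :
    Gl67.N F g univ k u ≤ ENNReal.ofReal (exp (2 * c) * ((Fintype.card ι + 1) ^ k * C ^ 2)) *
      F.μ (tsupport u) := by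
  rw [N_supp subset_rfl, ← setLIntegral_const]
  exact setLIntegral_mono' (isClosed_tsupport u).measurableSet fun x hx =>
    ENNReal.ofReal_le_ofReal (mul_le_mul (exp_le_exp.2 (by linarith [hc x hx])) (J_le k h)
      (J_nonneg k u) (exp_pos _).le)

theorem N_sec {F' : Pre I M ι} (h : Nk89.WtP F F' g) {p : M → V →L[ℝ] V} (w : Sec I p) :
    Gl67.N F g univ k w.1 = q2 (F'.toH k p w) := by
  rw [N_eq h (FL_sec k w), q2, Pre.norm_toH, nrm_sq]

theorem N_val [CompleteSpace V] {F' : Fr I M ι} (h : Nk89.WtP F F'.toPre g) {S : ℝ}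
    (hS : Sup F'.toPre S) (hk : 4 ≤ k) {p : M → V →L[ℝ] V} (a : F'.H k p)
    (ha : Sm I (F'.val k p a)) : Gl67.N F g univ k (F'.val k p a) = q2 a := by
  obtain ⟨h1, h2⟩ := Is.FL_norm k (Is.val hS hk a) ha
  rw [N_eq h h1, q2, h2, nrm_sq]

/-- Cauchy-Schwarz against a bump -/
theorem q2_int {σ : M → N →L[ℝ] N'} {C c : ℝ} (hg : Continuous g) (hu : Continuous u)
    (h : ∀ x, ‖σ x‖ ≤ C) (hc : ∀ x ∈ tsupport σ, c ≤ g x) : q2 (∫ x, σ x (u x) ∂F.μ) ≤
      ENNReal.ofReal ((C * exp (-c)) ^ 2) * F.μ (tsupport σ) * Gl67.N F g univ k u := by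
  have hA := (isClosed_tsupport σ).measurableSet
  have C0 : ∀ x : M, 0 ≤ C := fun x => (norm_nonneg _).trans (h x)
  let f : M → ℝ≥0∞ := fun x => ENNReal.ofReal (exp (g x) * ‖u x‖)
  have h1 : ‖∫ x, σ x (u x) ∂F.μ‖ₑ ≤
      ENNReal.ofReal |C * exp (-c)| * ∫⁻ x in tsupport σ, ((fun _ => 1 : M → ℝ≥0∞) * f) x ∂F.μ := by
    rw [← lintegral_const_mul' _ _ ENNReal.ofReal_ne_top, ← lintegral_indicator hA]
    refine (enorm_integral_le_lintegral_enorm _).trans (lintegral_mono fun x => ?_)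
    by_cases hx : x ∈ tsupport σ
    · rw [indicator_of_mem hx, Pi.mul_apply, one_mul, ← ENNReal.ofReal_mul (abs_nonneg _),
        ← ofReal_norm, abs_of_nonneg (mul_nonneg (C0 x) (exp_pos _).le)]
      refine ENNReal.ofReal_le_ofReal (((σ x).le_of_opNorm_le (h x) _).trans ?_)
      rw [mul_assoc, ← mul_assoc (exp _), ← exp_add]
      exact mul_le_mul_of_nonneg_left (le_mul_of_one_le_left (norm_nonneg _)
        (one_le_exp (by linarith [hc x hx]))) (C0 x)
    · simp [image_eq_zero_of_notMem_tsupport hx]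
  have h2 := ENNReal.lintegral_mul_le_Lp_mul_Lq (F.μ.restrict (tsupport σ))
    Real.HolderConjugate.two_two (f := fun _ => 1) (g := f) aemeasurable_const
    (hg.rexp.mul hu.norm).measurable.ennreal_ofReal.aemeasurable
  have h3 : ∫⁻ x in tsupport σ, f x ^ (2 : ℝ) ∂F.μ ≤ Gl67.N F g univ k u := by
    refine le_trans (lintegral_mono fun x => ?_) (N_mono (subset_univ (tsupport σ)))
    rw [ENNReal.rpow_two, ← ENNReal.ofReal_pow (by positivity), mul_pow, sq (exp _), ← exp_add,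
      ← two_mul]
    refine ENNReal.ofReal_le_ofReal (mul_le_mul_of_nonneg_left ?_ (exp_pos _).le)
    cases k with
    | zero => exact le_rfl
    | succ k => exact le_add_of_nonneg_right (Finset.sum_nonneg fun _ _ => J_nonneg k _)
  have h4 : ∀ a : ℝ≥0∞, (a ^ (1 / 2 : ℝ)) ^ 2 = a := fun a => by
    rw [← ENNReal.rpow_natCast, ← ENNReal.rpow_mul]; simp
  rw [q2, ENNReal.ofReal_pow (norm_nonneg _), ofReal_norm, ← sq_abs,
    ENNReal.ofReal_pow (abs_nonneg _), mul_assoc]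
  refine (pow_le_pow_left' (h1.trans (mul_le_mul_right h2 _)) 2).trans ?_
  rw [mul_pow, mul_pow, h4, h4]
  simp only [ENNReal.one_rpow, lintegral_const, Measure.restrict_apply_univ, one_mul]
  gcongr

end nrm

/-! ### classes -/

/-- uniformly bounded families -/
def ubK (F : J → Pre I M ι) : Std94.Kl (J × M) :=
  ⟨fun f => UB F fun i x => f (i, x), UB.const, UB.add,
    fun h h' => h.bil (ContinuousLinearMap.id ℝ _) h'⟩

theorem ub_exp {F : J → Pre I M ι} {ψ : J → M → ℝ} (hs : ∀ i, Sm I (ψ i)) (h0 : ∀ i x, ψ i x ≤ 0)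
    (hD : ∀ a, UB F fun i => (F i).D a (ψ i)) : UB F fun i x => exp (ψ i x) := by
  obtain ⟨D, hD⟩ := UB.unif hD
  have h1 : ∀ i x, ‖exp (ψ i x)‖ ≤ 1 := fun i x => by
    rw [Real.norm_of_nonneg (exp_pos _).le]; exact exp_le_one_iff.2 (h0 i x)
  have : ∀ k, ∃ C, ∀ i, (F i).CB k (fun x => exp (ψ i x)) C := fun k => by
    induction k with
    | zero => exact ⟨1, fun i => CB_zero.2 (h1 i)⟩
    | succ k ih =>
      obtain ⟨C, hC⟩ := ih
      refine ⟨max 1 (2 ^ (k + 1) * ‖ContinuousLinearMap.mul ℝ ℝ‖ * |C| * |D k|), fun i =>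
        CB_succ.2 ⟨fun x => (h1 i x).trans (le_max_left _ _), fun a => ?_⟩⟩
      rw [show (F i).D a (fun x => exp (ψ i x)) = fun x => ContinuousLinearMap.mul ℝ ℝ
        (exp (ψ i x)) ((F i).D a (ψ i) x) from funext fun x => Nk89.D_exp _ (hs i) a x]
      exact CB_mono (CB_bil _ (Nk89.sm_exp (hs i)) (hD i a).1 (hC i) ((hD i a).2 k))
        (le_max_right _ _)
  choose C hC using this
  exact ⟨C, fun i => ⟨Nk89.sm_exp (hs i), fun k => hC k i⟩⟩

variable {D : Dm I M ι X Y} {ε : Prop} {j : ℕ}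

section us
variable {f f' : ∀ i, X i → M → N}

theorem us_add (h : D.US f) (h' : D.US f') : D.US fun i x z => f i x z + f' i x z :=
  ⟨fun i x hx => Cb_add (h.cb i x hx) (h'.cb i x hx), fun k => ((h.uc k).add (h'.uc k)).congr
    fun i x hx => (eq_toB (by rw [map_add, fn_toB (h.cb i x hx), fn_toB (h'.cb i x hx)]; rfl)).symm⟩

theorem us_app {A : ∀ i, X i → M → N →L[ℝ] N'} (h : D.US A) (h' : D.US f) :
    D.US fun i x z => A i x z (f i x z) :=
  ⟨fun i x hx => Cb_app (h.cb i x hx) (h'.cb i x hx), fun k => (UC.bil (β := fun i =>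
    B.bil (F := D.P i) (k := k) (ContinuousLinearMap.id ℝ (N →L[ℝ] N'))) ⟨_, fun _ =>
      LinearMap.mkContinuous₂_norm_le _ (by positivity) _⟩ (h.uc k) (h'.uc k)).congr fun i x hx =>
    (eq_toB (by rw [B.fn_bil, fn_toB (h.cb i x hx), fn_toB (h'.cb i x hx)]; rfl)).symm⟩

theorem us_D (h : D.US f) (a : ι) : D.US fun i x => (D.P i).D a (f i x) :=
  ⟨fun i x hx => Cb_D (h.cb i x hx) a, fun k => ((h.uc (k + 1)).clm (L := fun i => B.D a)
    ⟨1, fun _ => ContinuousLinearMap.opNorm_le_bound _ zero_le_one fun f =>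
      (B.norm_le (by positivity)).2 (by simpa using CB_D f.CB a)⟩).congr fun i x hx =>
      (eq_toB (by rw [B.fn_D, fn_toB (h.cb i x hx)])).symm⟩

theorem us_congr (h : D.US f) (e : ∀ i, ∀ x ∈ D.U i, f' i x = f i x) : D.US f' :=
  ⟨fun i x hx => e i x hx ▸ h.cb i x hx, fun k => (h.uc k).congr fun i x hx => by rw [e i x hx]⟩

variable (D) in
/-- smooth families of bounded functions -/
def usK : Std94.Kl ((Σ i, X i) × M) :=
  ⟨fun f => D.US fun i x z => f (⟨i, x⟩, z), fun c => US.fixed (UB.const c), us_add, us_app⟩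

theorem us_sum {κ : Type*} [Fintype κ] {u : κ → ∀ i, X i → M → N} (h : ∀ a, D.US (u a)) :
    D.US fun i x z => ∑ a, u a i x z :=
  Std94.Kl.fsum (K := usK D) (f := fun a q => u a q.1.1 q.1.2 q.2) _ h

theorem us_smul {c : ∀ i, X i → M → ℝ} (hc : D.US c) (h : D.US f) :
    D.US fun i x z => c i x z • f i x z :=
  Std94.Kl.smul (K := usK D) (f := fun q => c q.1.1 q.1.2 q.2) (g := fun q => f q.1.1 q.1.2 q.2)
    hc h

theorem us_dG {G : ∀ i, X i → Fr I M ι} (hF : D.FF G) (h : D.US f) (a : ι) :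
    D.US fun i x => (G i x).D a (f i x) :=
  let ⟨_, h1, h2⟩ := hF.mix
  us_congr (us_sum fun b => us_smul (h1 a b).us (us_D h b)) fun i x hx => (h2 i x hx).D a _

/-- parameters as constant functions -/
theorem us_par {c : ∀ i, X i → N} (h : UC D.toRg c) : D.US fun i x _ => c i x :=
  ⟨fun _ _ _ => Cb_const _, fun k => (h.clm (L := fun i => B.const (F := D.P i) (k := k))
    ⟨1, fun _ => LinearMap.mkContinuous_norm_le _ zero_le_one _⟩).congr fun _ _ _ =>
      (eq_toB (B.fn_const _)).symm⟩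

theorem us_mul [CompleteSpace V] [CompleteSpace W] (hj : 4 ≤ j) {A : ∀ i, X i → M → V →L[ℝ] W}
    (hA : D.US A) {w : ∀ i, Y i → M → V} (h : D.A0 True j w) :
    D.A0 ε j fun i y x => A i (D.pt i y) x (w i y x) := by
  obtain ⟨δ, h1, h2⟩ := h.pure
  exact A0.of_pure (hA.sz.bil (ContinuousLinearMap.id ℝ _) h.sz) ((hA.mulH j).app h1)
    fun i y x => by rw [vl, val_mulH (D.sup i) hj (hA.cb i _ (D.mem i _)) (Maps.triv _), h2]

end us

section sc
variable {c : ∀ i, Y i → N} {d : ∀ i, Y i → N'}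

theorem sc_prod (h : D.Sc c) (h' : D.Sc d) : D.Sc fun i y => (c i y, d i y) :=
  let ⟨_, h1, h2⟩ := h; let ⟨_, k1, k2⟩ := h'; ⟨_, h1.prod k1, fun i y => by simp only [h2, k2]⟩

theorem sc_sum {κ : Type*} [Fintype κ] {u : κ → ∀ i, Y i → N} (h : ∀ a, D.Sc (u a)) :
    D.Sc fun i y => ∑ a, u a i y := by
  choose γ h1 h2 using h
  exact ⟨_, UC.sum h1, fun i y => by simp only [h2]⟩

theorem sc_pi {κ : Type} [Fintype κ] {u : ∀ i, Y i → κ → N} (h : ∀ a, D.Sc fun i y => u i y a) :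
    D.Sc u := by
  classical
  exact (sc_sum fun a => (h a).clm (ContinuousLinearMap.single ℝ (fun _ => N) a)).congr
    fun i y => (Finset.univ_sum_single _).symm

theorem sc_fixed {a : J → N} (h : Bv a) : D.Sc fun i _ => a i := ⟨_, UC.const h, fun _ _ => rfl⟩

/-- functionals that are bounded on the smooth points -/
theorem sc_int [CompleteSpace V] (hj : 4 ≤ j) {w : ∀ i, Y i → M → V} (h : D.A0 True j w)
    {σ : J → M → V →L[ℝ] N} (hs : ∀ i, Continuous (σ i)) (hc : ∀ i, HasCompactSupport (σ i))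
    {P : J → Pre I M ι} {K : ℝ} (hK : ∀ i (u : Sec I (triv M V)),
      ‖∫ x, σ i x (u.1 x) ∂(P i).μ‖ ≤ K * ‖(D.P i).toH j _ u‖) :
    D.Sc fun i y => ∫ x, σ i x (w i y x) ∂(P i).μ := by
  obtain ⟨δ, h1, h2⟩ := h.pure
  have cv := fun i (u : D.H V j i) => continuous_val (D.sup i) hj u
  have hi : ∀ i (u : D.H V j i), Integrable (fun x => σ i x (D.vl u x)) (P i).μ := fun i u =>
    ((hs i).clm_apply (cv i u)).integrable_of_hasCompactSupport
      ((hc i).mono fun x hx h => hx (by simp [h]))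
  let L : ∀ i, D.H V j i →L[ℝ] N := fun i => LinearMap.mkContinuous
    { toFun := fun u => ∫ x, σ i x (D.vl u x) ∂(P i).μ
      map_add' := fun u v => by
        rw [← integral_add (hi i u) (hi i v)]
        simp only [vl, val_add, Pi.add_apply, map_add]
      map_smul' := fun c u => by
        simp only [vl, val_smul, Pi.smul_apply, map_smul, integral_smul, RingHom.id_apply] }
    ((∫ x, ‖σ i x‖ ∂(P i).μ) * √|D.C 0|) fun u => by
      rw [mul_assoc, ← integral_mul_const]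
      exact norm_integral_le_of_norm_le (((hs i).norm.integrable_of_hasCompactSupport
        (hc i).norm).mul_const _) (.of_forall fun x => ((σ i x).le_opNorm _).trans
          (mul_le_mul_of_nonneg_left (norm_val_le (D.sup i) hj u x) (norm_nonneg _)))
  have e : ∀ i u, L i u = ∫ x, σ i x (D.vl u x) ∂(P i).μ := fun _ _ => rfl
  refine ⟨_, h1.clm (L := L) ⟨|K|, fun i => ContinuousLinearMap.opNorm_le_bound _ (abs_nonneg K)
    (H_le (f := fun u => ‖L i u‖) (g := fun u => |K| * ‖u‖) (L i).continuous.norm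
      (continuous_const.mul continuous_norm) fun u => ?_)⟩, fun i y => by simp only [e, h2]⟩
  rw [e, vl, val_toH (D.sup i) hj u]
  exact (hK i u).trans (mul_le_mul_of_nonneg_right (le_abs_self K) (norm_nonneg _))

end sc

/-! ### the resolvent, uniformly -/

theorem chg_bd {F₀ F₁ : Pre I M ι} {F : Fr I M ι} (h : Cmp F₀ F₁) (h₀ : Act V F₀ F)
    (h₁ : Act V F₁ F) {a : ℕ → ℝ} {l : ℕ} {R K : ℝ}
    (ha : ∀ k, ‖F₀.liftT k k (triv M V) F₁ (triv M V) id‖ ≤ a k ∧
      ‖F₁.liftT k k (triv M V) F₀ (triv M V) id‖ ≤ a k)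
    (hK : ∀ T ∈ closure (Adm V F₁ l), ‖T‖ ≤ max (a l * (|R| * a l))
      (a (l + 1) * (|R| * a (l + 1))) → ∀ u, ‖u‖ ≤ K * ‖QQ F₁ F l T u‖)
    {T : Mu F₀ V l} (hT : T ∈ closure (Adm V F₀ l)) (hR : ‖T‖ ≤ R) (u : HT F₀ V (l + 2)) :
    ‖u‖ ≤ a (l + 2) * (|K| * a l) * ‖QQ F₀ F l T u‖ := by
  let φ : Mu F₀ V l → Mu F₁ V l := fun T =>
    (fun c => cjM h l (T.1 c), fun c => cjM h (l + 1) (T.2 c))
  have hφ : Continuous φ := by
    unfold φ cjM
    exact (continuous_pi fun c => continuous_const.clm_comp (Continuous.clm_comp (by fun_prop)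
      continuous_const)).prodMk (continuous_pi fun c => continuous_const.clm_comp
        (Continuous.clm_comp (by fun_prop) continuous_const))
  have hm : MapsTo φ (Adm V F₀ l) (Adm V F₁ l) := fun T ⟨A, h1, h2, h3, h4⟩ =>
    ⟨A, h1, h2, fun c => rep_conj h.symm (h3 c), fun c => rep_conj h.symm (h4 c)⟩
  have a0 : ∀ k, 0 ≤ a k := fun k => (norm_nonneg _).trans (ha k).1
  have hn : ∀ k (T : HT F₀ V k →L[ℝ] HT F₀ V k), ‖T‖ ≤ R → ‖cjM h k T‖ ≤ a k * (|R| * a k) :=
    fun k T hT => (ContinuousLinearMap.opNorm_comp_le _ _).trans (mul_le_mul (ha k).1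
      ((ContinuousLinearMap.opNorm_comp_le _ _).trans (mul_le_mul (hT.trans (le_abs_self R))
        (ha k).2 (norm_nonneg _) (abs_nonneg R))) (norm_nonneg _) (a0 k))
  have k2 := hK (φ T) (hm.closure hφ hT) (max_le_max
    ((pi_norm_le_iff_of_nonneg (by have := a0 l; positivity)).2 fun c =>
      hn _ _ ((norm_le_pi_norm T.1 c).trans ((norm_fst_le T).trans hR)))
    ((pi_norm_le_iff_of_nonneg (by have := a0 (l + 1); positivity)).2 fun c =>
      hn _ _ ((norm_le_pi_norm T.2 c).trans ((norm_snd_le T).trans hR))))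
    (Prm93.chg (l + 2) _ h u)
  have h1 := ((Prm93.chg (l + 2) (triv M V) h).symm :
    HT F₁ V (l + 2) →L[ℝ] HT F₀ V (l + 2)).le_of_opNorm_le (ha _).2 (Prm93.chg (l + 2) _ h u)
  rw [ContinuousLinearEquiv.coe_coe, ContinuousLinearEquiv.symm_apply_apply] at h1
  rw [← chg_QQ h h₀ h₁] at k2
  rw [mul_assoc, mul_assoc]
  exact h1.trans (mul_le_mul_of_nonneg_left (k2.trans (mul_le_mul (le_abs_self K)
    ((Prm93.chg l (triv M V) h : HT F₀ V l →L[ℝ] HT F₁ V l).le_of_opNorm_le (ha l).1 _)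
    (norm_nonneg _) (abs_nonneg K))) (a0 _))

/-- `RB` from comparable tame frames with a small drift -/
theorem rb_unif [FiniteDimensional ℝ V] {G F' : ∀ i, X i → Fr I M ι} (hF : D.FF G)
    (h1 : ∀ i, ∀ x ∈ D.U i, Cmp (D.P i) (F' i x).toPre ∧
      ∃ d C, Nk89.Dr (G i x) (F' i x) d ∧ (F' i x).Tame C)
    {d C a : ℕ → ℝ} (h2 : ∀ i, ∀ x ∈ D.B i, Nk89.Dr (G i x) (F' i x) d ∧ (F' i x).Tame C ∧
      ∀ k, ‖(D.P i).liftT k k (triv M V) (F' i x).toPre (triv M V) id‖ ≤ a k ∧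
        ‖(F' i x).liftT k k (triv M V) (D.P i) (triv M V) id‖ ≤ a k) : D.RB V G := fun l _ => by
  refine ⟨fun i x hx T hT => ?_, fun R => ?_⟩
  · obtain ⟨c, _, _, c1, c2⟩ := h1 i x hx
    obtain ⟨K, hK⟩ := (rb1_dr (V := V) c1 c2).chg c (hF.act hx) (c1.act c2) l ‖T‖
    exact (hK T hT le_rfl).1
  · obtain ⟨K, -, hK⟩ := Nk89.res_unif (I := I) (M := M) (ι := ι) (V := V) C d l
      (max (a l * (|R| * a l)) (a (l + 1) * (|R| * a (l + 1))))
    exact ⟨_, fun i x hx T hT hR => let ⟨c1, c2, c3⟩ := h2 i x hx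
      chg_bd (h1 i x (D.sub i hx)).1 (hF.act (D.sub i hx)) (c1.act c2) c3
        (fun T a b => (hK _ _ c1 c2 (Ell97.reg V _) T a b).2) hT hR⟩

/-- tameness passes to comparable frames -/
theorem tame_mix (C : ℕ → ℝ) (c : ℝ≥0) : ∃ C', ∀ (F F' : Fr I M ι) (S S' : ι → ι → M → ℝ),
    F.Tame C → Mix F.toPre F'.toPre S → Mix F'.toPre F.toPre S' → (∀ a b, F.CBs (S a b) C) →
    (∀ a b, F.CBs (S' a b) C) → F'.μ ≤ c • F.μ → F.μ ≤ c • F'.μ → (∀ a b, F.CBs (F'.P a b) C) →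
    (∀ a b l, F.CBs (F'.c a b l) C) → (∀ a, F.CBs (F'.dv a) C) → F'.Tame C' := by
  obtain ⟨m, hm⟩ : ∃ m : ℕ → ℝ, ∀ k, m k = cM (Fintype.card ι) (C k) k * |C k| := ⟨_, fun _ => rfl⟩
  obtain ⟨n, hn⟩ : ∃ n : ℕ → ℝ, ∀ k, n k = cN ι ι c (m k) k ^ 2 := ⟨_, fun _ => rfl⟩
  have n0 : ∀ k, 0 ≤ n k := fun k => (sq_nonneg _).trans (hn k).ge
  refine ⟨fun k => m k + ((1 + c) * |C 0| * n 1 + |C 0| * n 4), fun F F' S S' h h1 h2 s s' m1 m2
    p1 p2 p3 => ?_⟩
  have m0 : ∀ k, 0 ≤ m k := fun k =>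
    (mul_nonneg (zero_le_one.trans (cM_one_le _ _ _)) (abs_nonneg _)).trans (hm k).ge
  have n1 : 0 ≤ (1 + c) * |C 0| * n 1 := mul_nonneg (by positivity) (n0 1)
  have n4 : 0 ≤ |C 0| * n 4 := mul_nonneg (abs_nonneg _) (n0 4)
  have up : ∀ {f : M → ℝ}, F.CBs f C → F'.CBs f m := fun hf =>
    ⟨hf.1, fun k => CB_mono (h1.CB (fun a b => (s a b).1) k (fun a b => (s a b).2 k) hf.1 (hf.2 k))
      (hm k).ge⟩
  have up' : ∀ {f : M → ℝ}, F.CBs f C → F'.CBs f fun k =>
      m k + ((1 + c) * |C 0| * n 1 + |C 0| * n 4) := fun hf =>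
    Ell97.CBs_mono (up hf) fun k => le_add_of_nonneg_right (add_nonneg n1 n4)
  have ip : ∀ k (f : M → ℝ), Sm I f → HasCompactSupport f → F.ip k f f ≤ n k * F'.ip k f f :=
    fun k f f1 f2 => by
    rw [ip_eq, ip_eq, ← nrm_sq, ← nrm_sq, hn, ← mul_pow]
    exact pow_le_pow_left₀ (nrm_nonneg _ _) (h2.nrm (fun a b => (s' a b).1) m2 k
      (fun a b => (up (s' a b)).2 k) f1 f2) 2
  have i0 : ∀ (G : Fr I M ι) k (f : M → ℝ), 0 ≤ G.ip k f f := fun G k f => by
    rw [ip_eq]; exact n2_nonneg _ _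
  have le : ∀ k f, Sm I f → HasCompactSupport f → C 0 * F.ip k f f ≤ |C 0| * n k * F'.ip k f f :=
    fun k f f1 f2 => by
    rw [mul_assoc]
    exact mul_le_mul (le_abs_self _) (ip k f f1 f2) (i0 _ _ _) (abs_nonneg _)
  refine ⟨fun a b => up' (p1 a b), fun a b l => up' (p2 a b l), fun a => up' (p3 a),
    fun f f1 f2 => ?_, fun f f1 f2 x => ((h.sup f f1 f2 x).trans (le 4 f f1 f2)).trans
      (mul_le_mul_of_nonneg_right (by linarith [m0 0]) (i0 _ _ _)), fun K hK =>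
      let ⟨χ, a, b⟩ := h.exh K hK; ⟨χ, up' a, b⟩⟩
  have i1 : Integrable (fun x => f x ^ 4) F.μ := (f1.continuous.pow 4).integrable_of_hasCompactSupport
    (f2.mono fun x hx h => hx (by simp [h]))
  have i2 : ∫ x, f x ^ 4 ∂F'.μ ≤ (1 + c) ^ 2 * ∫ x, f x ^ 4 ∂F.μ := by
    refine (integral_mono_measure m1 (.of_forall fun x => by positivity)
      i1.smul_measure_nnreal).trans ?_
    rw [integral_smul_nnreal_measure]
    exact mul_le_mul_of_nonneg_right (by nlinarith [c.coe_nonneg])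
      (integral_nonneg fun x => by positivity)
  refine (sqrt_le_sqrt i2).trans ?_
  rw [sqrt_mul (sq_nonneg _), sqrt_sq (by positivity)]
  refine (mul_le_mul_of_nonneg_left ((h.l4 f f1 f2).trans (le 1 f f1 f2)) (by positivity)).trans ?_
  rw [← mul_assoc, ← mul_assoc]
  exact mul_le_mul_of_nonneg_right (by linarith [m0 0]) (i0 _ _ _)

end Crest.Agent.X212.Gla92
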