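import Crest.Agent.X212.Gl67.Defs
import Crest.Agent.X212.Mon62.Lca
import Crest.Agent.X212.Gla92.US

/-!
# Row 212, GL (helper92): families of sides, uniform hypotheses, the Banach models

`Un s δ r₀`: uniform geometry of the sides `s i`; `dm`: the models for all weight profiles.
-/

set_option autoImplicit false
set_option linter.unusedSectionVars false
set_option maxSynthPendingDepth 3
noncomputable section
open scoped Manifold ContDiff Topology InnerProductSpace ENNReal NNReal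
open MeasureTheory Set Function Filter Real Metric

namespace Crest.Agent.X212.Gla92
open An Sob92 Prm93 Mod61 Map77 Mon62 Mon62.Dm Gl67
open Ell97 (UB)
open Std94 (Kl)

variable {E : Type} [NormedAddCommGroup E] [NormedSpace ℝ E] [FiniteDimensional ℝ E]
  [MeasurableSpace E] [BorelSpace E]
  {HM : Type} [TopologicalSpace HM] {I : ModelWithCorners ℝ E HM} [I.Boundaryless]
  {M : Type} [TopologicalSpace M] [ChartedSpace HM M] [IsManifold I ∞ M]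
  [MeasurableSpace M] [T2Space M] [BorelSpace M] [SecondCountableTopology M]
  {ι lam h : Type} [Fintype ι] [Fintype lam] [Fintype h]
  {T U Up R : Type} [NormedAddCommGroup T] [NormedSpace ℝ T] [NormedAddCommGroup U]
  [NormedSpace ℝ U] [NormedAddCommGroup Up] [NormedSpace ℝ Up] [NormedAddCommGroup R]
  [NormedSpace ℝ R] {N r n m : ℕ} {Jc : En (Fin N)} {J : Type} {𝔉 : J → Fam I M ι lam T}
  {A : Type} [NormedAddCommGroup A] [NormedSpace ℝ A]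

theorem bn_reix {J J' : Type} {X : J → Type} [∀ i, NormedAddCommGroup (X i)]
    [∀ i, NormedSpace ℝ (X i)] {B : ∀ i, Set (X i)} (φ : J' → J) (n : ℕ) :
    ∀ {Z : J → Type} [∀ i, NormedAddCommGroup (Z i)] [∀ i, NormedSpace ℝ (Z i)]
      {f : ∀ i, X i → Z i}, Bn B n f → Bn (fun i => B (φ i)) n fun i => f (φ i) := by
  induction n with
  | zero => exact fun ⟨K, hK⟩ => ⟨K, fun i => hK _⟩
  | succ n ih => exact fun ⟨⟨K, hK⟩, h⟩ => ⟨⟨K, fun i => hK _⟩, ih h⟩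

theorem wm_mono {μ ν : Measure M} {c : ℝ≥0} (h : μ ≤ c • ν) (ψ : M → ℝ) :
    Nk89.wm μ ψ ≤ c • Nk89.wm ν ψ := by
  rw [Nk89.wm, Nk89.wm, ENNReal.smul_def, ← withDensity_smul_measure]
  exact Measure.le_iff.2 fun s hs => by
    rw [withDensity_apply _ hs, withDensity_apply _ hs]
    exact lintegral_mono' (Measure.restrict_mono le_rfl h) le_rfl

theorem dens_le {μ : Measure M} {ρ : M → ℝ} {C : ℝ} (h : ∀ x, ‖ρ x‖ ≤ C) :
    (μ.withDensity fun x => ENNReal.ofReal (ρ x)) ≤ C.toNNReal • μ := by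
  have : (μ.withDensity fun x => ENNReal.ofReal (ρ x)) ≤ μ.withDensity fun _ => ENNReal.ofReal C :=
    withDensity_mono (.of_forall fun x => ENNReal.ofReal_le_ofReal ((le_abs_self _).trans (h x)))
  rwa [withDensity_const] at this

theorem smul_mono {μ : Measure M} {c c' : ℝ≥0} (h : c ≤ c') : c • μ ≤ c' • μ :=
  Measure.le_iff'.2 fun s => by
    simp only [Measure.coe_nnreal_smul_apply]
    exact mul_le_mul_left (ENNReal.coe_le_coe.2 h) _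

theorem ub_congr {F : J → Pre I M ι} {f g : J → M → A} (h : UB F f) (e : ∀ i, g i = f i) :
    UB F g := funext e ▸ h

section prod
variable {X₁ X₂ : J → Type} [∀ i, NormedAddCommGroup (X₁ i)] [∀ i, NormedSpace ℝ (X₁ i)]
  [∀ i, NormedAddCommGroup (X₂ i)] [∀ i, NormedSpace ℝ (X₂ i)] {X : J → Type}
  [∀ i, NormedAddCommGroup (X i)] [∀ i, NormedSpace ℝ (X i)] {Q : Rg X} {f : ∀ i, X i → X₁ i × X₂ i}

theorem uc_fst (h : UC Q f) : UC Q fun i v => (f i v).1 :=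
  h.clm (L := fun i => ContinuousLinearMap.fst ℝ (X₁ i) (X₂ i))
    ⟨1, fun _ => ContinuousLinearMap.norm_fst_le _ _ _⟩

theorem uc_snd (h : UC Q f) : UC Q fun i v => (f i v).2 :=
  h.clm (L := fun i => ContinuousLinearMap.snd ℝ (X₁ i) (X₂ i))
    ⟨1, fun _ => ContinuousLinearMap.norm_snd_le _ _ _⟩

end prod

/-- weight profiles -/
structure Pf where
  x : ℝ
  y : ℝ
  z : ℝ
  hx : 0 ≤ x
  hy : 0 ≤ y
  hz : y ≤ z

/-- the basic profile -/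
@[reducible] def p0 : Pf := ⟨0, 0, 0, le_rfl, le_rfl, le_rfl⟩

variable (𝔉) in
/-- the frames without weight -/
abbrev P0 (i : J) : Pre I M ι := (𝔉 i).F0.toPre

variable (𝔉) in
/-- smooth in the parameter, uniformly on the ball -/
structure UT (r₀ : ℝ) (f : J → T → M → A) : Prop where
  sb : ∀ i, SB (P0 𝔉 i) (𝔉 i).Q (f i)
  bn : ∀ k n, Bn (X := fun _ => T) (fun _ => closedBall 0 r₀) n fun i t => toB (P0 𝔉 i) k (f i t)

variable (s : ∀ i, Sid (𝔉 i) N Jc U Up R)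

variable (𝔉) in
/-- bounded with supports of bounded volume -/
structure Bv0 (f : J → M → A) : Prop where
  ub : UB (P0 𝔉) f
  hc : ∀ i, HasCompactSupport (f i)
  vol : ∃ K : ℝ≥0, ∀ i, (𝔉 i).F0.μ (tsupport (f i)) ≤ K

/-- bumps at bounded height -/
structure Bu (f : J → M → A) : Prop extends Bv0 𝔉 f where
  ht : ∃ a, ∀ i, ∀ x ∈ tsupport (f i), (s i).ht x ≤ a

/-- uniform geometry -/
structure Un (δ r₀ : ℝ) : Prop where
  ok : ∀ i, (s i).OK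
  δ0 : 0 ≤ δ
  r0 : 0 ≤ r₀
  sub : ∀ i, closedBall 0 r₀ ⊆ (𝔉 i).Q
  tame : ∃ C, ∀ i, (𝔉 i).F0.Tame C
  o : ∀ a b c d, UB (P0 𝔉) fun i => (𝔉 i).B.o a b c d
  p : UB (P0 𝔉) fun i => (s i).p
  ρ : ∀ a, UB (P0 𝔉) fun i => (s i).ρ a
  j : UB (P0 𝔉) fun i => (s i).j
  A0 : ∀ a, UB (P0 𝔉) fun i => (s i).A0 a
  Φ0 : UB (P0 𝔉) fun i => (s i).Φ0
  b : UB (P0 𝔉) fun i => (s i).b
  dr : ∀ a, UB (P0 𝔉) fun i => (s i).dr a
  ht : ∀ a, UB (P0 𝔉) fun i => (P0 𝔉 i).D a (s i).ht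
  S : ∀ a b, UT 𝔉 r₀ fun i t x => (𝔉 i).S t x a b
  Si : ∀ a b, UT 𝔉 r₀ fun i t x => (𝔉 i).Si t x a b
  cf : ∀ a b k, UT 𝔉 r₀ fun i t x => (𝔉 i).cf t x a b k
  la : ∀ a, UT 𝔉 r₀ fun i t x => (𝔉 i).la t x a
  c : ∀ a b k, UT 𝔉 r₀ fun i t => ((𝔉 i).G t).F.c a b k
  dv : ∀ a, UT 𝔉 r₀ fun i t => ((𝔉 i).G t).F.dv a
  dens : ∃ ρ, UT 𝔉 r₀ ρ ∧ ∀ i, ∀ t ∈ (𝔉 i).Q, (∀ x, 0 ≤ ρ i t x) ∧
    ((𝔉 i).G t).F.μ = (𝔉 i).F0.μ.withDensity fun x => ENNReal.ofReal (ρ i t x)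
  low : ∀ i, ∀ t ∈ (𝔉 i).Q, ∃ c : ℝ≥0, (𝔉 i).F0.μ ≤ c • ((𝔉 i).G t).F.μ
  lowU : ∃ c : ℝ≥0, ∀ i, ∀ t ∈ closedBall (0 : T) r₀, (𝔉 i).F0.μ ≤ c • ((𝔉 i).G t).F.μ
  loc : ∃ χ : J → M → ℝ, Bu s χ ∧ ∀ i, (∀ a b, Off (𝔉 i).Q (χ i) fun t x => (𝔉 i).S t x a b) ∧
    (∀ a b k, Off (𝔉 i).Q (χ i) fun t x => (𝔉 i).cf t x a b k) ∧
    (∀ a, Off (𝔉 i).Q (χ i) fun t x => (𝔉 i).la t x a) ∧
    (∀ a b k, Off (𝔉 i).Q (χ i) fun t => ((𝔉 i).G t).F.c a b k) ∧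
    ∀ a, Off (𝔉 i).Q (χ i) fun t => ((𝔉 i).G t).F.dv a
  slope : ∀ i, ∀ t ∈ (𝔉 i).Q, ∀ x, 16 * δ ^ 2 * ∑ a, ((𝔉 i).G t).F.D a (s i).ht x ^ 2 ≤ 1

/-- the weight -/
abbrev wg (δ : ℝ) (z : J × Pf) (x : M) : ℝ := pr δ z.2.x z.2.y z.2.z ((s z.1).ht x)

/-- the weighted frames -/
abbrev Fp (δ : ℝ) (z : J × Pf) : Fr I M ι :=
  (Nk89.wtF (𝔉 z.1) (fun x => pr δ z.2.x z.2.y z.2.z ((s z.1).ht x)) ((s z.1).sm_pr δ _ _ _)).F0

variable (r h) in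
/-- the models -/
abbrev XX (δ : ℝ) (k : ℕ) (z : J × Pf) : Type :=
  (Fp s δ z).H (k + 1) (s z.1).bd.pC × PP T U r h N

variable (r h) in
/-- the smooth points -/
abbrev YY (z : J × Pf) : Type := Sec I (s z.1).bd.pC × {q : PP T U r h N // q.1 ∈ (𝔉 z.1).Q}

theorem wt_Fp (δ : ℝ) (z : J × Pf) : Nk89.Wt (𝔉 z.1).F0 (Fp s δ z) (wg s δ z) :=
  Nk89.wt_wt _ ((s z.1).sm_pr δ _ _ _)

variable {s} {δ r₀ : ℝ}

theorem UT.ub {f : J → T → M → A} (h : UT 𝔉 r₀ f) (e : ∀ i, closedBall 0 r₀ ⊆ (𝔉 i).Q) :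
    UB (fun q : (J × Pf) × closedBall (0 : T) r₀ => P0 𝔉 q.1.1) fun q => f q.1.1 q.2 := by
  choose K hK using fun k => h.bn k 0
  refine ⟨K, fun q => ⟨Cb.sm ((h.sb _).cb _ (e _ q.2.2)), fun k => ?_⟩⟩
  have := CB_mono (B.CB _) (hK k q.1.1 _ q.2.2)
  rwa [fn_toB ((h.sb _).cb _ (e _ q.2.2))] at this

namespace Un
variable (H : Un s δ r₀)
include H

theorem fam (i : J) : (𝔉 i).OK := (H.ok i).fam

theorem wg0 (z : J × Pf) (x : M) : 0 ≤ wg s δ z x := pr_nonneg H.δ0 z.2.hz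

theorem ub_wg (a : ι) : UB (fun z : J × Pf => P0 𝔉 z.1) fun z => (P0 𝔉 z.1).D a (wg s δ z) :=
  let ⟨_, hC⟩ := UB.unif H.ht; ⟨_, fun z => CBs_pr (s z.1).sh (hC z.1) a⟩

theorem tameW : ∃ C, ∀ z, (Fp s δ z).Tame C :=
  let ⟨_, hC⟩ := H.tame; let ⟨_, hD⟩ := UB.unif H.ub_wg
  ⟨_, fun z => (wt_Fp s δ z).tame (hC z.1) (H.wg0 z) (hD z)⟩

variable (r h) in
/-- the models for all profiles -/
def dm (k : ℕ) (ρ : ℝ≥0) : Dm I M ι (XX h r s δ k) (YY h r s) where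
  U z := {v | v.2.1 ∈ (𝔉 z.1).Q}
  B _ := closedBall 0 √ρ ×ˢ closedBall 0 r₀
  op z := (H.fam _).opn.preimage (f := fun v : XX h r s δ k z => v.2.1) (by fun_prop)
  sub z v hv := H.sub _ (mem_closedBall_zero_iff.2
    ((norm_fst_le v.2).trans (mem_closedBall_zero_iff.1 hv.2)))
  F := Fp s δ
  C := H.tameW.choose
  tame := H.tameW.choose_spec
  pt z y := ((Fp s δ z).toH (k + 1) _ y.1, y.2.1)
  y₀ z := (0, ⟨0, (H.ok _).q0⟩)
  mem _ y := y.2.2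
  dns z v hv := let ⟨a, ha⟩ := exists_seq v.1
    mem_closure_of_tendsto (ha.prodMk_nhds tendsto_const_nhds) (.of_forall fun n =>
      ⟨(a n, ⟨v.2, hv⟩), rfl⟩)
  base z := ⟨by simp, by simpa using H.r0⟩

variable {k : ℕ} {ρ : ℝ≥0}

omit H in
theorem ub0 {f : J → M → A} (h : UB (P0 𝔉) f) :
    UB (fun z : J × Pf => P0 𝔉 z.1) fun z => f z.1 := let ⟨C, h⟩ := h; ⟨C, fun z => h z.1⟩

theorem ubW' {f : J × Pf → M → A} (hf : UB (fun z : J × Pf => P0 𝔉 z.1) f) :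
    UB (H.dm h r k ρ).P f := let ⟨C, h⟩ := hf; ⟨C, fun z => (wt_Fp s δ z).toWtP.CBs.2 (h z)⟩

theorem ubW {f : J → M → A} (hf : UB (P0 𝔉) f) : UB (H.dm h r k ρ).P fun z => f z.1 :=
  H.ubW' (ub0 hf)

theorem uc_id : UC (H.dm h r k ρ).toRg fun _ v => v := UC.id ⟨max √ρ r₀, fun _ _ hv =>
  max_le_max (mem_closedBall_zero_iff.1 hv.1) (mem_closedBall_zero_iff.1 hv.2)⟩

theorem uc_q (L : PP T U r h N →L[ℝ] A) : UC (H.dm h r k ρ).toRg fun _ v => L v.2 :=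
  (uc_snd H.uc_id).clm (Bv.const L)

theorem sc_q (L : PP T U r h N →L[ℝ] A) : (H.dm h r k ρ).Sc fun _ y => L y.2.1 :=
  ⟨_, H.uc_q L, fun _ _ => rfl⟩

theorem uc_t {Z : J × Pf → Type} [∀ i, NormedAddCommGroup (Z i)] [∀ i, NormedSpace ℝ (Z i)]
    {f : ∀ z, T → Z z} (h1 : ∀ z, ContDiffOn ℝ ∞ (f z) (𝔉 z.1).Q)
    (h2 : ∀ n, Bn (fun _ => closedBall 0 r₀) n f) : UC (H.dm h r k ρ).toRg fun z v => f z v.2.1 :=
  UC.cmp (R' := ⟨fun z : J × Pf => (𝔉 z.1).Q, fun _ => closedBall 0 r₀, fun z => (H.fam z.1).opn,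
    fun z => H.sub z.1⟩) ⟨h1, h2⟩ (H.uc_q (ContinuousLinearMap.fst ℝ _ _)) (fun _ _ hv => hv)
    fun _ v hv => mem_closedBall_zero_iff.2
      ((norm_fst_le v.2).trans (mem_closedBall_zero_iff.1 hv.2))

theorem usW {f : J → T → M → A} (hf : UT 𝔉 r₀ f) : (H.dm h r k ρ).US fun z v => f z.1 v.2.1 := by
  have w := fun z => (wt_Fp s δ z).toWtP
  refine ⟨fun z v hv => (w z).Cb.2 ((hf.sb _).cb _ hv), fun l => ?_⟩
  let L : ∀ z : J × Pf, B (P0 𝔉 z.1) l A →L[ℝ] B (Fp s δ z).toPre l A := fun z =>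
    LinearMap.mkContinuous
      { toFun := fun f => B.mk l (B.fn f) ((w z).Cb.2 f.cb)
        map_add' := fun _ _ => rfl
        map_smul' := fun _ _ => rfl } 1 fun f =>
      (B.norm_le (by positivity)).2 ((w z).CB.2 (by simpa using f.CB))
  exact ((H.uc_t (fun z => (hf.sb z.1).sm l) fun n => bn_reix Prod.fst n (hf.bn l n)).clm (L := L)
    ⟨1, fun _ => LinearMap.mkContinuous_norm_le _ zero_le_one _⟩).congr fun z v hv =>
      (eq_toB (g := L z _) (fn_toB ((hf.sb _).cb _ hv))).symm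

theorem a0_bu {V : Type} [NormedAddCommGroup V] [InnerProductSpace ℝ V] [CompleteSpace V] {ε : Prop}
    {j : ℕ} (hj : 4 ≤ j) {f : J → M → V} (hf : Bu s f) :
    (H.dm h r k ρ).A0 ε j fun z _ => f z.1 := by
  obtain ⟨C, hC⟩ := hf.ub
  obtain ⟨K, hK⟩ := hf.vol
  obtain ⟨a, ha⟩ := hf.ht
  refine A0.of_hcs hj (H.ubW hf.ub) (fun z => hf.hc _) ⟨√(exp (2 * (2 * δ * ka a)) *
    ((Fintype.card ι + 1) ^ j * C j ^ 2) * K), fun z => ?_⟩
  have := (N_sec (wt_Fp s δ z).toWtP ⟨f z.1, mem_triv (hC _).1 (hf.hc _)⟩).symm.trans_le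
    ((N_bump ((hC _).2 j) fun x hx => (pr_le H.δ0 z.2.hx z.2.hy).trans (mul_le_mul_of_nonneg_left
      (ka_mono (ha _ x hx)) (by linarith [H.δ0]))).trans (mul_le_mul_right (hK _) _))
  rw [← ENNReal.ofReal_coe_nnreal, ← ENNReal.ofReal_mul (by positivity), q2,
    ENNReal.ofReal_le_ofReal_iff (by positivity), Pre.norm_toH] at this
  exact le_sqrt_of_sq_le this

theorem lcW {f : J → T → M → ℝ} (hf : UT 𝔉 r₀ f) {χ : J → M → ℝ} (hχ : Bu s χ)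
    (e : ∀ i, Off (𝔉 i).Q (χ i) (f i)) : (H.dm h r k ρ).Lc fun z v => f z.1 v.2.1 :=
  Lc.of_cut (H.usW hf) (χ := fun z => χ z.1) (fun _ hj => H.a0_bu hj hχ) fun z y x => by
    by_cases e' : χ z.1 x = 1
    · rw [e', one_smul]
    · have := e _ _ y.2.2 _ (H.ok _).q0 x e'
      change χ z.1 x • (f z.1 y.2.1.1 x - f z.1 0 x) = f z.1 y.2.1.1 x - f z.1 0 x
      rw [this, sub_self, smul_zero]

theorem ff : (H.dm h r k ρ).FF fun z v => ((𝔉 z.1).G v.2.1).F := by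
  obtain ⟨χ, c1, c2⟩ := H.loc
  obtain ⟨σ, r1, r2⟩ := H.dens
  have w := fun z => (wt_Fp s δ z).toWtP
  have e1 : UB (H.dm h r k ρ).P fun z x => exp (-2 * wg s δ z x) := H.ubW' (ub_exp
    (fun z => contMDiff_const.mul (w z).sm) (fun z x => by linarith [H.wg0 z x]) fun a =>
      ub_congr ((UB.const (-2 : ℝ)).smul (H.ub_wg a)) fun z => (P0 𝔉 _).D_smul (w _).sm (-2) a)
  refine ⟨⟨fun a b z v x => (𝔉 z.1).S v.2.1 x a b, fun a b => H.lcW (H.S a b) c1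
    fun i => (c2 i).1 a b, fun z v hv => (H.fam _).mix _ hv⟩,
    fun a => H.lcW (H.dv a) c1 fun i => (c2 i).2.2.2.2 a,
    fun a b c => H.lcW (H.c a b c) c1 fun i => (c2 i).2.2.2.1 a b c,
    fun z y => Mp86.bumps_of_tame _ ((H.fam _).tameG _ y.2.2).choose_spec, _,
    us_smul (US.fixed e1) (H.usW r1), fun z y g => ?_⟩
  change ∫ x, g x ∂((𝔉 z.1).G y.2.1.1).F.μ =
    ∫ x, (exp (-2 * wg s δ z x) • σ z.1 y.2.1.1 x) • g x ∂(Fp s δ z).μ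
  rw [(r2 _ _ y.2.2).2, integral_withDensity_eq_integral_toReal_smul
    (Cb.sm ((r1.sb _).cb _ y.2.2)).continuous.measurable.ennreal_ofReal
    (.of_forall fun _ => ENNReal.ofReal_lt_top), (w z).integral]
  refine integral_congr_ae (.of_forall fun x => ?_)
  simp only [ENNReal.toReal_ofReal ((r2 _ _ y.2.2).1 x), smul_smul, smul_eq_mul]
  rw [← mul_assoc, ← exp_add, neg_mul, add_neg_cancel, exp_zero, one_mul]

theorem dr_wg (z : J × Pf) {t : T} (ht : t ∈ (𝔉 z.1).Q) (x : M) :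
    ∑ a, ((𝔉 z.1).G t).F.D a (wg s δ z) x ^ 2 ≤ 1 / 4 := by
  have h1 : ∀ a, ((𝔉 z.1).G t).F.D a (wg s δ z) x ^ 2 ≤
      (2 * δ) ^ 2 * ((𝔉 z.1).G t).F.D a (s z.1).ht x ^ 2 := fun a => by
    rw [D_comp (s z.1).sh cd_pr, mul_pow, ← sq_abs (deriv _ _)]
    exact mul_le_mul_of_nonneg_right (pow_le_pow_left₀ (abs_nonneg _) (abs_pr_deriv H.δ0) 2)
      (sq_nonneg _)
  have := Finset.sum_le_sum fun a (_ : a ∈ Finset.univ) => h1 a
  rw [← Finset.mul_sum] at this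
  linarith [H.slope _ t ht x]

variable {V : Type} [NormedAddCommGroup V] [InnerProductSpace ℝ V] [FiniteDimensional ℝ V]

theorem re : (H.dm h r k ρ).RE V fun z v => ((𝔉 z.1).G v.2.1).F :=
  re_of_tame H.ff (fun _ y => (H.fam _).tameG _ y.2.2)
    (S' := fun a b z y x => (𝔉 z.1).Si y.2.1.1 x a b) (fun a b => (H.usW (H.Si a b)).sz)
    fun _ y => Mon62.mix_inv (H.fam _) y.2.2

theorem rb : (H.dm h r k ρ).RB V fun z v => ((𝔉 z.1).G v.2.1).F := by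
  obtain ⟨σ, r1, r2⟩ := H.dens
  obtain ⟨C₀, hC₀⟩ := H.tame
  obtain ⟨c, hc⟩ := H.lowU
  have w := fun z => (wt_Fp s δ z).toWtP
  let Z := (J × Pf) × closedBall (0 : T) r₀
  let G : Z → Fr I M ι := fun q => ((𝔉 q.1.1).G q.2).F
  have hq : ∀ q : Z, q.2.1 ∈ (𝔉 q.1.1).Q := fun q => H.sub _ q.2.2
  have up : ∀ {f : Z → M → ℝ}, UB (fun q => P0 𝔉 q.1.1) f → UB (fun q => (G q).toPre) f :=
    ub_mix (fun q => (H.fam _).mix _ (hq q)) fun a b => (H.S a b).ub H.sub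
  obtain ⟨C₁, h1⟩ := UB.unif fun a : (ι × ι) × Bool => show UB (fun q : Z => P0 𝔉 q.1.1) fun q x =>
      if a.2 then (𝔉 q.1.1).S q.2 x a.1.1 a.1.2 else (𝔉 q.1.1).Si q.2 x a.1.1 a.1.2 by
    cases a.2; exacts [(H.Si _ _).ub H.sub, (H.S _ _).ub H.sub]
  obtain ⟨C₂, h2⟩ := UB.unif fun a : ι × ι × ι => (H.c a.1 a.2.1 a.2.2).ub H.sub
  obtain ⟨C₃, h3⟩ := UB.unif fun a => (H.dv a).ub H.sub
  obtain ⟨C₄, h4⟩ := r1.ub H.sub
  obtain ⟨C₅, h5⟩ := UB.unif fun a : ι × ι => up ((H.Si a.1 a.2).ub H.sub)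
  obtain ⟨D, hD⟩ := UB.unif fun a => show UB (fun q : Z => (G q).toPre) fun q =>
      (G q).D a (wg s δ q.1) from ub_congr (up (UB.sum fun b => ((H.S a b).ub H.sub).smul
      (let ⟨C, h⟩ := H.ub_wg b; ⟨C, fun q : Z => h q.1⟩))) fun q => ((H.fam _).mix _ (hq q)).D a _
  let c' := max c (C₄ 0).toNNReal
  have m1 : ∀ q : Z, (G q).μ ≤ c' • (𝔉 q.1.1).F0.μ := fun q => ((r2 _ _ (hq q)).2.trans_le
    (dens_le (CB_bound ((h4 q).2 0)))).trans (smul_mono (le_max_right _ _))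
  have m2 : ∀ q : Z, (𝔉 q.1.1).F0.μ ≤ c' • (G q).μ := fun q =>
    (hc _ _ q.2.2).trans (smul_mono (le_max_left _ _))
  obtain ⟨C', hC'⟩ := tame_mix (I := I) (M := M) (ι := ι)
    (fun k => max (max (C₀ k) (C₁ k)) (max (C₂ k) (C₃ k))) c'
  have tG : ∀ q : Z, (G q).Tame C' := fun q => hC' _ _ _ _
    (Ell97.Tame_mono (hC₀ _) fun _ => by simp) ((H.fam _).mix _ (hq q)) (Mon62.mix_inv (H.fam _) (hq q))
    (fun a b => Ell97.CBs_mono (h1 q ((a, b), true)) fun _ => by simp)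
    (fun a b => Ell97.CBs_mono (h1 q ((a, b), false)) fun _ => by simp) (m1 q) (m2 q)
    (fun a b => Ell97.CBs_mono (((H.fam _).G _ (hq q)).P.trans (H.fam _).P0.symm ▸ (hC₀ _).P a b)
      fun _ => by simp) (fun a b l => Ell97.CBs_mono (h2 q (a, b, l)) fun _ => by simp)
    fun a => Ell97.CBs_mono (h3 q a) fun _ => by simp
  refine rb_unif (F' := fun z v => Nk89.wt ((𝔉 z.1).G v.2.1).F (wg s δ z) (w z).sm) H.ff
    (fun z v hv => ?_) (d := fun k => 2 * |D k|) (C := Nk89.cT ι C' D) (a := fun k => max (cN ι ι c' (C₁ k) k) (cN ι ι c' (C₅ k) k))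
    fun z v hv => ?_
  · have f := H.fam z.1
    have w' := Nk89.wt_wt ((𝔉 z.1).G v.2.1).F (w z).sm
    have s1 := fun a b => (f.sS a b).cb _ hv
    obtain ⟨c, hc⟩ := H.low _ _ hv
    obtain ⟨C, hC⟩ := (r1.sb _).cb _ hv
    obtain ⟨D, hD⟩ := Cb_unif fun a => show ((𝔉 z.1).G v.2.1).F.Cb
        (((𝔉 z.1).G v.2.1).F.D a (wg s δ z)) from by
      rw [(f.mix _ hv).D]
      exact (f.mix _ hv).Cb s1 (Cb_sum _ fun b _ => Cb_smul (s1 a b) ((H.ub_wg b).cb z))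
    exact ⟨⟨⟨⟨_, f.mix _ hv, fun a b => (w z).Cb.2 (s1 a b)⟩, _,
      wm_mono ((r2 _ _ hv).2.trans_le (dens_le (CB_bound (hC.2 0)))) _⟩, ⟨_, Mon62.mix_inv f hv,
        fun a b => w'.toWtP.Cb.2 ((f.mix _ hv).Cb s1 ((f.sSi a b).cb _ hv))⟩, c, wm_mono hc _⟩,
      _, _, w'.dr hD (H.dr_wg z hv), w'.tame (f.tameG _ hv).choose_spec (H.wg0 z) hD⟩
  · let q : Z := (z, ⟨v.2.1, mem_closedBall_zero_iff.2
      ((norm_fst_le v.2).trans (mem_closedBall_zero_iff.1 hv.2))⟩)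
    have w' := Nk89.wt_wt (G q) (w z).sm
    have x1 : Mix (Fp s δ z).toPre (Nk89.wt (G q) (wg s δ z) (w z).sm).toPre _ :=
      (H.fam _).mix _ (hq q)
    have x2 : Mix (Nk89.wt (G q) (wg s δ z) (w z).sm).toPre (Fp s δ z).toPre _ :=
      Mon62.mix_inv (H.fam _) (hq q)
    exact ⟨w'.dr (hD q) (H.dr_wg z (hq q)), w'.tame (tG q) (H.wg0 z) (hD q), fun k =>
      ⟨(x1.rep_id (fun a b => (h1 q ((a, b), true)).1) (wm_mono (m1 q) _)
        fun a b => (w z).CB.2 ((h1 q ((a, b), true)).2 k)).2.trans (le_max_left _ _),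
      (x2.rep_id (fun a b => (h5 q (a, b)).1) (wm_mono (m2 q) _)
        fun a b => w'.toWtP.CB.2 ((h5 q (a, b)).2 k)).2.trans (le_max_right _ _)⟩⟩

end Un

end Crest.Agent.X212.Gla92
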