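import Crest.Agent.X212.Gla92.Lf2
import Crest.Agent.X212.Gl67.Brg

/-! # Row 212, GL (helper92): Lipschitz bounds from the calculus -/

set_option autoImplicit false
set_option linter.unusedSectionVars false
set_option maxSynthPendingDepth 3
noncomputable section
open scoped Manifold ContDiff Topology InnerProductSpace ENNReal NNReal
open MeasureTheory Set Function Filter Real Metric

namespace Crest.Agent.X212.Gla92
open An Sob92 Prm93 Mod61 Map77 Mon62 Mon62.Dm Gl67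
open Ell97 (UB)

variable {E : Type} [NormedAddCommGroup E] [NormedSpace ℝ E] [FiniteDimensional ℝ E]
  [MeasurableSpace E] [BorelSpace E]
  {HM : Type} [TopologicalSpace HM] {I : ModelWithCorners ℝ E HM} [I.Boundaryless]
  {M : Type} [TopologicalSpace M] [ChartedSpace HM M] [IsManifold I ∞ M]
  [MeasurableSpace M] [T2Space M] [BorelSpace M] [SecondCountableTopology M]
  {ι lam h : Type} [Fintype ι] [Fintype lam] [Fintype h]
  {T U Up R : Type} [NormedAddCommGroup T] [NormedSpace ℝ T] [NormedAddCommGroup U]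
  [NormedSpace ℝ U] [NormedAddCommGroup Up] [NormedSpace ℝ Up] [NormedAddCommGroup R]
  [NormedSpace ℝ R] {N r n m : ℕ} {Jc : En (Fin N)} {J : Type} {𝔉 : J → Fam I M ι lam T}
  {A A' : Type} [NormedAddCommGroup A] [NormedSpace ℝ A] [NormedAddCommGroup A'] [NormedSpace ℝ A']
  {s : ∀ i, Sid (𝔉 i) N Jc U Up R} {Ω : Set M} {δ r₀ : ℝ} {k : ℕ} {ρ : ℝ≥0}

theorem q2_of_le {a : A} {b : A'} {K : ℝ} (h : ‖a‖ ≤ K * ‖b‖) :
    q2 a ≤ (K ^ 2).toNNReal * q2 b := by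
  rw [q2, q2, ← ENNReal.ofReal, ← ENNReal.ofReal_mul (sq_nonneg K), ← mul_pow]
  exact ENNReal.ofReal_le_ofReal (pow_le_pow_left₀ (norm_nonneg _) h 2)

theorem le_of_q2 {a : A} {b : A'} {K : ℝ≥0} (h : q2 a ≤ K * q2 b) : ‖a‖ ≤ √K * ‖b‖ := by
  rw [q2, q2, ← ENNReal.ofReal_coe_nnreal, ← ENNReal.ofReal_mul K.coe_nonneg,
    ENNReal.ofReal_le_ofReal_iff (by positivity)] at h
  exact (le_sqrt_of_sq_le h).trans_eq (by rw [sqrt_mul K.coe_nonneg, sqrt_sq (norm_nonneg _)])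

theorem q2_smul (c : ℝ) (a : A) : q2 (c • a) = ENNReal.ofReal (c ^ 2) * q2 a := by
  rw [q2, q2, norm_smul, mul_pow, ENNReal.ofReal_mul (sq_nonneg _), Real.norm_eq_abs, sq_abs]

variable (s δ k) in
/-- the norm of the bump of the peak rows -/
def nbz (z : J × Pf) : ℝ := √(Gl67.N (P0 𝔉 z.1) (wg s δ z) univ k (s z.1).bp).toReal

theorem wg_lip (h0 : 0 ≤ δ) (z : J × Pf) (x y : M) :
    wg s δ z x - wg s δ z y ≤ 2 * δ * |(s z.1).ht x - (s z.1).ht y| :=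
  (le_abs_self _).trans (convex_univ.norm_image_sub_le_of_norm_deriv_le
    (fun t _ => (pr_deriv t).differentiableAt) (fun _ _ => abs_pr_deriv h0) trivial trivial)

namespace Un
variable (H : Un s δ r₀)

section lip
variable {y y' : ∀ z, YY h r s z} (hy : ∀ z, (H.dm h r k ρ).pt z (y z) ∈ (H.dm h r k ρ).B z)
include H

theorem cvx (z : J × Pf) : Convex ℝ ((H.dm h r k ρ).B z) :=
  (convex_closedBall _ _).prod (convex_closedBall _ _)

/-- Lipschitz on the balls -/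
def Lp (k : ℕ) (ρ : ℝ≥0) (f : ∀ z, YY h r s z → YY h r s z → ℝ≥0∞) : Prop :=
  ∃ C : ℝ≥0, ∀ z y y', (H.dm h r k ρ).pt z y ∈ (H.dm h r k ρ).B z →
    (H.dm h r k ρ).pt z y' ∈ (H.dm h r k ρ).B z →
    f z y y' ≤ C * q2 ((H.dm h r k ρ).pt z y - (H.dm h r k ρ).pt z y')

variable {H} {f g : ∀ z, YY h r s z → YY h r s z → ℝ≥0∞}

theorem Lp.mono (a : H.Lp k ρ f) (e : ∀ z y y', g z y y' ≤ f z y y') : H.Lp k ρ g :=
  let ⟨C, hC⟩ := a; ⟨C, fun z y y' b c => (e z y y').trans (hC z y y' b c)⟩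

theorem Lp.add (a : H.Lp k ρ f) (b : H.Lp k ρ g) : H.Lp k ρ fun z y y' => f z y y' + g z y y' :=
  let ⟨C, hC⟩ := a; let ⟨D, hD⟩ := b
  ⟨C + D, fun z y y' b c => (add_le_add (hC z y y' b c) (hD z y y' b c)).trans_eq
    (by rw [ENNReal.coe_add, add_mul])⟩

theorem Lp.two (a : H.Lp k ρ f) : H.Lp k ρ fun z y y' => 2 * f z y y' :=
  (a.add a).mono fun _ _ _ => (two_mul _).le

theorem sc_lp {c : ∀ z, YY h r s z → A} (a : (H.dm h r k ρ).Sc c) :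
    H.Lp k ρ fun z y y' => q2 (c z y - c z y') := by
  obtain ⟨γ, h1, h2⟩ := a
  obtain ⟨K, -, hK⟩ := h1.c11 H.cvx
  exact ⟨_, fun z y y' b c => by simp only [h2]; exact q2_of_le ((hK z _ c).2.2 _ b).1⟩

theorem a0_lp {V : Type} [NormedAddCommGroup V] [InnerProductSpace ℝ V] [CompleteSpace V]
    {j : ℕ} (hj : 4 ≤ j) {ε : Prop} {w : ∀ z, YY h r s z → M → V} (a : (H.dm h r k ρ).A0 ε j w) :
    H.Lp k ρ fun z y y' => Gl67.N (P0 𝔉 z.1) (wg s δ z) univ j fun x => w z y x - w z y' x := by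
  obtain ⟨b, γ, -, -, h1, h2⟩ := a.ex
  obtain ⟨K, -, hK⟩ := h1.c11 H.cvx
  refine ⟨(K ^ 2).toNNReal, fun z y y' b c => ?_⟩
  beta_reduce
  have e : (fun x => w z y x - w z y' x) = (Fp s δ z).val j _
      (γ z ((H.dm h r k ρ).pt z y) - γ z ((H.dm h r k ρ).pt z y')) := funext fun x => by
    rw [h2, h2, add_sub_add_left_eq_sub]; exact (congrFun (val_sub _ _) x).symm
  rw [e, N_val (wt_Fp s δ z).toWtP ((H.dm h r k ρ).sup z) hj _
    (e ▸ (a.sz.sm z y).sub (a.sz.sm z y'))]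
  exact q2_of_le ((hK z _ c).2.2 _ b).1

end lip

include H

theorem sc_row (hk : 3 ≤ k) {σ : J × Pf → M → CL (Cf ι (Fin N)) A} (h1 : ∀ z, Continuous (σ z))
    (h2 : ∀ z, HasCompactSupport (σ z)) {K : ℝ≥0} (hK : ∀ z u, Sm I u →
      q2 (∫ x, σ z x (u x) ∂(𝔉 z.1).F0.μ) ≤ K * Gl67.N (P0 𝔉 z.1) (wg s δ z) univ (k + 1) u) :
    (H.dm h r k ρ).Sc fun z y => ∫ x, σ z x (y.1.1 x) ∂(𝔉 z.1).F0.μ :=
  sc_int (by omega) (H.a0_w hk) h1 h2 (P := fun z => P0 𝔉 z.1) fun z u =>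
    le_of_q2 ((hK z _ u.2.1).trans_eq (by rw [N_sec (wt_Fp s δ z).toWtP]; rfl))

variable (G : Gm s Ω)
include G

theorem N_bp (z : J × Pf) : Gl67.N (P0 𝔉 z.1) (wg s δ z) univ k (s z.1).bp ≠ ⊤ := by
  obtain ⟨C, hC⟩ := G.bp.ub
  obtain ⟨a, ha⟩ := (G.bp.hc z.1).isCompact.bddAbove_image
    (wt_Fp s δ z).sm.continuous.continuousOn
  exact ((N_bump ((hC _).2 k) fun x hx => ha (mem_image_of_mem _ hx)).trans_lt (ENNReal.mul_lt_top
    ENNReal.ofReal_lt_top (G.bp.hc z.1).isCompact.measure_lt_top)).ne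

theorem nbz_sq (z : J × Pf) :
    ENNReal.ofReal (nbz s δ k z ^ 2) = Gl67.N (P0 𝔉 z.1) (wg s δ z) univ k (s z.1).bp := by
  rw [nbz, sq_sqrt ENNReal.toReal_nonneg, ENNReal.ofReal_toReal (H.N_bp G z)]

theorem pk_le : ∃ K : ℝ≥0, ∀ z u, Sm I u → Gl67.N (P0 𝔉 z.1) (wg s δ z) univ k (s z.1).bp *
    q2 ((s z.1).pk u) ≤ K * Gl67.N (P0 𝔉 z.1) (wg s δ z) univ (k + 1) u := by
  obtain ⟨C, hC⟩ := G.bp.ub
  obtain ⟨D, hD⟩ := G.mo.ub
  obtain ⟨K, hK⟩ := G.bp.vol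
  obtain ⟨L, hL⟩ := G.mo.vol
  obtain ⟨a, ha⟩ := G.pk
  refine ⟨(exp (2 * (6 * δ * |a|)) * ((Fintype.card ι + 1) ^ k * C k ^ 2) * D 0 ^ 2).toNNReal *
      K * L, fun z u hu => ?_⟩
  rcases (tsupport (s z.1).bp).eq_empty_or_nonempty with e | ⟨x₀, hx⟩
  · rw [tsupport_eq_empty_iff.1 e, N_zero, zero_mul]; exact zero_le
  rcases (tsupport (s z.1).mo).eq_empty_or_nonempty with e | ⟨x₁, hx'⟩
  · simp [Sid.pk, tsupport_eq_empty_iff.1 e, q2_zero]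
  have l := fun x y => wg_lip (s := s) H.δ0 z x y
  have l2 : ∀ x ∈ tsupport (s z.1).bp, ∀ y ∈ tsupport (s z.1).mo,
      2 * δ * |(s z.1).ht x - (s z.1).ht y| ≤ 2 * δ * |a| := fun x hx y hy =>
    mul_le_mul_of_nonneg_left ((ha _ x hx y hy).trans (le_abs_self a)) (by linarith [H.δ0])
  have b1 := N_bump (g := wg s δ z) (c := wg s δ z x₁ + 2 * δ * |a|) ((hC z.1).2 k) fun x hx => by
    linarith [l x x₁, l2 x hx x₁ hx']
  have b2 := q2_int (F := P0 𝔉 z.1) (k := k + 1) (c := wg s δ z x₀ - 2 * δ * |a|)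
    (wt_Fp s δ z).sm.continuous hu.continuous (CB_bound ((hD z.1).2 0)) fun x hx' => by
      linarith [l x₀ x, l2 x₀ hx x hx']
  have b3 : wg s δ z x₁ - wg s δ z x₀ ≤ 2 * δ * |a| :=
    (l x₁ x₀).trans (abs_sub_comm ((s z.1).ht x₀) _ ▸ l2 x₀ hx x₁ hx')
  refine (mul_le_mul' (b1.trans (mul_le_mul_right (hK _) _))
    (b2.trans (mul_le_mul_left (mul_le_mul_right (hL _) _) _))).trans ?_
  generalize wg s δ z x₁ = p at b3 ⊢
  generalize wg s δ z x₀ = q at b3 ⊢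
  rw [← mul_assoc, ← mul_assoc, mul_right_comm _ (K : ℝ≥0∞), ← ENNReal.ofReal_mul (by positivity),
    ENNReal.coe_mul, ENNReal.coe_mul]
  refine mul_le_mul_left (mul_le_mul_left (mul_le_mul_left (ENNReal.ofReal_le_ofReal ?_) _) _) _
  rw [mul_pow, ← exp_nat_mul, mul_comm (D 0 ^ 2), ← mul_assoc, mul_right_comm (exp _), ← exp_add]
  refine mul_le_mul_of_nonneg_right (mul_le_mul_of_nonneg_right (exp_le_exp.2 ?_) (by positivity))
    (sq_nonneg _)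
  push_cast
  linarith

/-- the peak rows -/
theorem sc_pk (hk : 3 ≤ k) :
    (H.dm h r k ρ).Sc fun z y => nbz s δ k z • (s z.1).pk y.1.1 := by
  obtain ⟨K, hK⟩ := H.pk_le G (k := k)
  have e : ∀ z (u : M → Cf ι (Fin N)), ∫ x, (nbz s δ k z • (s z.1).mo x) (u x) ∂(𝔉 z.1).F0.μ =
      nbz s δ k z • (s z.1).pk u := fun z u => by
    simp only [smul_apply, integral_smul, Sid.pk]
  have c1 : ∀ z : J × Pf, Continuous fun x => nbz s δ k z • (s z.1).mo x := fun z =>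
    (H.ok z.1).mo.1.continuous.const_smul (nbz s δ k z)
  have c2 : ∀ z : J × Pf, HasCompactSupport fun x => nbz s δ k z • (s z.1).mo x := fun z =>
    (G.mo.hc z.1).mono fun x hx => right_ne_zero_of_smul hx
  have := H.sc_row (h := h) (r := r) (ρ := ρ) hk c1 c2 (K := K) fun z u hu => by
    rw [e, q2_smul, H.nbz_sq G]; exact hK z u hu
  exact this.congr fun z y => (e z _).symm

/-- the rows that kill the symmetries -/
theorem sc_lo (hk : 3 ≤ k) :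
    (H.dm h r k ρ).Sc fun z y => ∫ x, (s z.1).lo x (y.1.1 x) ∂(𝔉 z.1).F0.μ := by
  obtain ⟨D, hD⟩ := G.lo.ub
  obtain ⟨L, hL⟩ := G.lo.vol
  exact H.sc_row hk (fun z => (hD _).1.continuous) (fun z => G.lo.hc _)
    (K := ((D 0 * exp (-0)) ^ 2).toNNReal * L) fun z u hu =>
    (q2_int (wt_Fp s δ z).sm.continuous hu.continuous (CB_bound ((hD _).2 0))
      fun x _ => H.wg0 z x).trans (mul_le_mul_left (mul_le_mul_right (hL _) _) _)

variable {H} {c : Cm N r h R} {e : J → T → PtX M ι lam r n m} (hk : 4 ≤ k)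
  (a : H.Cl c k ρ False e)
include hk a

omit G in
theorem Cl.sm (i : J) (w : Sec I (s i).bd.pC) {q : PP T U r h N} (hq : q.1 ∈ (𝔉 i).Q) :
    Sm I ((s i).eF c (e i) w.1 q) := by
  have s1 := (H.a0_row (ρ := ρ) (ε := False) hk).sz.sm (i, p0) (w, ⟨q, hq⟩)
  have s2 := a.D.sz.sm (i, p0) (w, ⟨q, hq⟩)
  have s3 := a.C.sz.sm (i, p0) (w, ⟨q, hq⟩)
  have s4 : Sm I fun x => (s i).bp x • (s i).pk w.1 := (H.ok i).bp.1.smul contMDiff_const
  exact s1.prodMk_space (s2.prodMk_space (s3.prodMk_space s4))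

omit G in
theorem Cl.ok {Γ : Type} [NormedAddCommGroup Γ] (g : J → (M → Cf ι (Fin N)) → PP T U r h N → Γ)
    (i : J) : (⟨P0 𝔉 i, (s i).ht, (s i).bd.pC, (s i).eF c (e i), g i⟩ :
      Sd I M ι _ _ _ Γ).Ok r₀ :=
  ⟨(s i).sh, fun w hw _ hq => a.sm hk i ⟨w, hw⟩
    (H.sub i (mem_closedBall_zero_iff.2 ((norm_fst_le _).trans hq)))⟩

theorem Cl.lpF : H.Lp k ρ fun z y y' => Gl67.N (P0 𝔉 z.1) (wg s δ z) univ k
    ((s z.1).eF c (e z.1) y.1.1 y.2.1 - (s z.1).eF c (e z.1) y'.1.1 y'.2.1) := by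
  have r1 := H.a0_row (h := h) (r := r) (ρ := ρ) (ε := False) hk
  refine ((a0_lp hk r1).two.add ((a0_lp hk a.D).two.add ((a0_lp hk a.C).two.add
    (sc_lp (H.sc_pk G (by omega))).two).two).two).mono fun z y y' => ?_
  have c := (wt_Fp s δ z).sm.continuous
  have s1 := (r1.sz.sm z y).sub (r1.sz.sm z y')
  have s2 := (a.D.sz.sm z y).sub (a.D.sz.sm z y')
  have s3 := (a.C.sz.sm z y).sub (a.C.sz.sm z y')
  have s4 : Sm I fun x => (s z.1).bp x • (s z.1).pk y.1.1 - (s z.1).bp x • (s z.1).pk y'.1.1 :=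
    ((H.ok _).bp.1.smul contMDiff_const).sub ((H.ok _).bp.1.smul contMDiff_const)
  refine (N_prod c s1 (s2.prodMk_space (s3.prodMk_space s4))).trans (add_le_add_right
    (mul_le_mul_right ((N_prod c s2 (s3.prodMk_space s4)).trans (add_le_add_right
      (mul_le_mul_right ((N_prod c s3 s4).trans (add_le_add_right (mul_le_mul_right ?_ _) _)) _)
        _)) _) _)
  rw [← smul_sub, q2_smul, H.nbz_sq G, mul_comm]
  simp only [← smul_sub]
  refine (N_clm (ContinuousLinearMap.toSpanSingleton ℝ _) (H.ok _).bp.1).trans_eq ?_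
  rw [q2, ContinuousLinearMap.norm_toSpanSingleton]; rfl

/-- **Lipschitz bounds** -/
theorem Cl.lip {Γ : Type} [NormedAddCommGroup Γ] [NormedSpace ℝ Γ]
    {g : J → (M → Cf ι (Fin N)) → PP T U r h N → Γ}
    (hg : (H.dm h r k ρ).Sc fun z y => g z.1 y.1.1 y.2.1) : ∃ C : ℝ≥0, ∀ i,
    (⟨P0 𝔉 i, (s i).ht, (s i).bd.pC, (s i).eF c (e i), g i⟩ : Sd I M ι _ _ _ Γ).Lip δ k r₀ ρ C := by
  obtain ⟨C, hC⟩ := (a.lpF G hk).add (sc_lp hg)
  refine ⟨C, fun i x y z h1 h2 h3 w hw w' hw' q q' hq hq' b b' => ?_⟩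
  let p : J × Pf := (i, ⟨x, y, z, h1, h2, h3⟩)
  have W := (wt_Fp s δ p).toWtP
  have m : ∀ q : PP T U r h N, ‖q‖ ≤ r₀ → q.1 ∈ (𝔉 i).Q := fun q hq =>
    H.sub i (mem_closedBall_zero_iff.2 ((norm_fst_le _).trans hq))
  have n : ∀ w : Sec I (s i).bd.pC, Gl67.N (P0 𝔉 i) (wg s δ p) univ (k + 1) w.1 ≤ ρ →
      (Fp s δ p).toH (k + 1) _ w ∈ closedBall 0 √ρ := fun w b => by
    rw [N_sec W, q2, ← ENNReal.ofReal_coe_nnreal, ENNReal.ofReal_le_ofReal_iff ρ.coe_nonneg] at b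
    exact mem_closedBall_zero_iff.2 (le_sqrt_of_sq_le b)
  have n1 := n ⟨w, hw⟩ b
  have n2 := n ⟨w', hw'⟩ b'
  have n3 := hC p (⟨w, hw⟩, ⟨q, m q hq⟩) (⟨w', hw'⟩, ⟨q', m q' hq'⟩)
    ⟨n1, mem_closedBall_zero_iff.2 hq⟩ ⟨n2, mem_closedBall_zero_iff.2 hq'⟩
  have n4 := (N_sec (k := k + 1) W (⟨w, hw⟩ - ⟨w', hw'⟩)).trans (congrArg q2 (map_sub _ _ _))
  have n5 : q2 ((Fp s δ p).toH (k + 1) _ ⟨w, hw⟩ - (Fp s δ p).toH (k + 1) _ ⟨w', hw'⟩, q - q') ≤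
      Gl67.N (P0 𝔉 i) (wg s δ p) univ (k + 1) (w - w') + q2 (q - q') :=
    q2_le (n4.ge.trans le_self_add) le_add_self
  exact n3.trans (mul_le_mul_right n5 _)

variable {ct : h → Cut M lam} {ε : ∀ i, Eqn (𝔉 i) r n m ct}

omit hk a G in
variable (H c k ρ ε) in
/-- the rows of the cuts lie in the calculus -/
def Cr : Prop := ∀ j, (H.dm h r k ρ).Sc (N := L2c (Fin N)) fun z y => crow (ct j) (𝔉 z.1).B
  ((𝔉 z.1).G y.2.1.1).F ((ε z.1).σ y.2.1.1 j) ((s z.1).cfg c y.1.1 y.2.1) (c.ψ0 j + y.2.1.2.2.2 j)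

omit a in
theorem sc_eR (a : H.Cl c k ρ False fun i => (ε i).e) (b : H.Cr k ρ c ε) :
    (H.dm h r k ρ).Sc fun z y => (s z.1).eR c (ε z.1) y.1.1 y.2.1 := by
  let L : h → PP T U r h N →L[ℝ] L2c (Fin N) := fun j => .proj j ∘L .snd ℝ _ _ ∘L .snd ℝ _ _ ∘L
    .snd ℝ _ _
  have p := fun j => (Sc.const (c.ψ0 j)).add (H.sc_q (k := k) (ρ := ρ) (L j))
  exact sc_prod a.S (sc_prod (sc_pi b) (sc_prod (sc_pi fun j => (((p j).bil (innerSL ℝ) (p j)).add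
    (Sc.const (-1))).congr fun _ _ => by
      rw [innerSL_apply_apply, real_inner_self_eq_norm_sq]; rfl)
    (sc_prod (sc_pi fun j => H.sc_q (innerSL ℝ (Jc.compLpL 2 μc (c.ψ0 j)) ∘L L j))
      ((H.sc_lo G (by omega)).add (H.sc_q (c.lz ∘L .fst ℝ _ _ ∘L .snd ℝ _ _ ∘L .snd ℝ _ _))))))

end Un

end Crest.Agent.X212.Gla92
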