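import Crest.Agent.X212.Gla92.Lf

/-! # Row 212, GL (helper92): test data in the common part of the sides -/

set_option autoImplicit false
set_option linter.unusedSectionVars false
set_option maxSynthPendingDepth 3
noncomputable section
open scoped Manifold ContDiff Topology InnerProductSpace ENNReal NNReal
open MeasureTheory Set Function Filter Real Metric

namespace Crest.Agent.X212.Gla92
open An Sob92 Prm93 Mod61 Map77 Mon62 Mon62.Dm Gl67 Wrd81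
open Ell97 (UB)

variable {E : Type} [NormedAddCommGroup E] [NormedSpace ℝ E] [FiniteDimensional ℝ E]
  [MeasurableSpace E] [BorelSpace E]
  {HM : Type} [TopologicalSpace HM] {I : ModelWithCorners ℝ E HM} [I.Boundaryless]
  {M : Type} [TopologicalSpace M] [ChartedSpace HM M] [IsManifold I ∞ M]
  [MeasurableSpace M] [T2Space M] [BorelSpace M] [SecondCountableTopology M]
  {ι lam h : Type} [Fintype ι] [Fintype lam] [Fintype h]
  {T U Up R : Type} [NormedAddCommGroup T] [NormedSpace ℝ T] [NormedAddCommGroup U]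
  [NormedSpace ℝ U] [NormedAddCommGroup Up] [NormedSpace ℝ Up] [NormedAddCommGroup R]
  [NormedSpace ℝ R] {N r n m : ℕ} {Jc : En (Fin N)} {J : Type} {𝔉 : J → Fam I M ι lam T}
  {A A' : Type} [NormedAddCommGroup A] [NormedSpace ℝ A] [NormedAddCommGroup A'] [NormedSpace ℝ A']
  {s : ∀ i, Sid (𝔉 i) N Jc U Up R} {Ω : Set M} {δ r₀ : ℝ}

/-! ### the parameter region -/

section rt
variable (h1 : ∀ i, IsOpen (𝔉 i).Q) (h2 : ∀ i, closedBall 0 r₀ ⊆ (𝔉 i).Q)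

/-- the parameter region -/
abbrev Rt : Rg fun _ : J => T := ⟨fun i => (𝔉 i).Q, fun _ => closedBall 0 r₀, h1, h2⟩

theorem Co.uc {γ : J → T → A} (h : Co 𝔉 r₀ γ) : UC (Rt h1 h2) γ := ⟨h.sm, h.bn⟩

variable {h1 h2} in
theorem Co.of {γ : J → T → A} (h : UC (Rt h1 h2) γ) : Co 𝔉 r₀ γ := ⟨h.sm, h.bd⟩

theorem UT.uc {f : J → T → M → A} (h : UT 𝔉 r₀ f) (k : ℕ) :
    UC (Rt h1 h2) fun i t => toB (P0 𝔉 i) k (f i t) := ⟨fun i => (h.sb i).sm k, h.bn k⟩

include h1 h2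

theorem Co.cmp {γ : J → T → A} (h : Co 𝔉 r₀ γ) {φ : A → A'} {O K : Set A} (hO : IsOpen O)
    (hK : IsCompact K) (e : K ⊆ O) (hφ : ContDiffOn ℝ ∞ φ O) (m : ∀ i, MapsTo (γ i) (𝔉 i).Q K) :
    Co 𝔉 r₀ fun i t => φ (γ i t) :=
  .of ((h.uc h1 h2).cmp_fixed hO hK e hφ (fun i => (m i).mono_right e) fun i =>
    (m i).mono_left (h2 i))

theorem UT.comp [FiniteDimensional ℝ A] {f : J → T → M → A} (h : UT 𝔉 r₀ f) {g : A → A'}
    (hg : ContDiff ℝ ∞ g) : UT 𝔉 r₀ fun i t x => g (f i t x) :=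
  ⟨fun i => SB_nem hg (h.sb i), fun k => ((((UG.fixed hg).nemB (F := P0 𝔉) (k := k)).cmp
    (h.uc h1 h2 k)).congr fun i t ht => by rw [Sob92.nemB, fn_toB ((h.sb i).cb t ht)]).bd⟩

end rt

namespace Lo
variable (L : Lo s Ω)
include L

theorem D (i j : J) {f : M → A} (hf : tsupport f ⊆ Ω) (a : ι) :
    (P0 𝔉 i).D a f = (P0 𝔉 j).D a f := funext fun x => by
  by_cases hx : x ∈ Ω
  · simp only [Pre.D_def, Sob92.dv, L.e i j x hx a]
  · rw [image_eq_zero_of_notMem_tsupport fun k => hx (hf ((P0 𝔉 i).tsupport_D f a k)),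
      image_eq_zero_of_notMem_tsupport fun k => hx (hf ((P0 𝔉 j).tsupport_D f a k))]

theorem Dw (i j : J) : ∀ (w : List ι) {f : M → A}, tsupport f ⊆ Ω →
    (P0 𝔉 i).Dw w f = (P0 𝔉 j).Dw w f
  | [], _, _ => rfl
  | a :: w, f, hf => by
    rw [Pre.Dw, Pre.Dw, L.D i j hf, Dw i j w (((P0 𝔉 j).tsupport_D f a).trans hf)]

theorem CB (i j : J) {f : M → A} (hf : tsupport f ⊆ Ω) {k : ℕ} {C : ℝ} (h : (P0 𝔉 j).CB k f C) :
    (P0 𝔉 i).CB k f C := fun w hw x => L.Dw i j w hf ▸ h w hw x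

/-- **test functions are bumps** -/
theorem bu {f : M → A} (hf : Sm I f) (hc : HasCompactSupport f) (h : tsupport f ⊆ Ω) :
    Bu s fun _ => f := by
  rcases isEmpty_or_nonempty J with e | ⟨⟨j⟩⟩
  · exact ⟨⟨⟨0, isEmptyElim⟩, isEmptyElim, 0, isEmptyElim⟩, 0, isEmptyElim⟩
  obtain ⟨C, hC⟩ := Cb_of_hcs (F := P0 𝔉 j) hf hc
  obtain ⟨a, ha⟩ := hc.isCompact.bddAbove_image (s j).sh.continuous.continuousOn
  have ms := (isClosed_tsupport f).measurableSet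
  refine ⟨⟨⟨C, fun i => ⟨hf, fun k => L.CB i j h (hC.2 k)⟩⟩, fun _ => hc,
    ((𝔉 j).F0.μ (tsupport f)).toNNReal, fun i => ?_⟩, a, fun i x hx =>
      (L.ht i j x (h hx)).trans_le (ha (mem_image_of_mem _ hx))⟩
  rw [ENNReal.coe_toNNReal hc.isCompact.measure_lt_top.ne, ← inter_eq_left.2 h,
    ← Measure.restrict_apply ms, ← Measure.restrict_apply ms, L.μ i j]

theorem tf {f : M → ℝ} (h : Tf I Ω f) : Bu s fun _ => f := L.bu h.sm h.hcs h.sub

theorem tv {f : M → Eu lam} (h : Tv I Ω f) : Bu s fun _ => f := L.bu h.sm h.hcs h.sub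

/-- **compactly supported families along smooth parameters** -/
theorem ut (h1 : ∀ i, IsOpen (𝔉 i).Q) (h2 : ∀ i, closedBall 0 r₀ ⊆ (𝔉 i).Q) {Pm : Type}
    [NormedAddCommGroup Pm] [NormedSpace ℝ Pm] {θ : J → T → Pm} (hθ : Co 𝔉 r₀ θ) {O O' : Set Pm}
    (hO : IsOpen O) (hK : IsCompact O') (e : O' ⊆ O) (m : ∀ i, MapsTo (θ i) (𝔉 i).Q O')
    {u : Pm → M → A} (hu : JS I O u) {C : Set M} (hC : IsCompact C) (hΩ : C ⊆ Ω)
    (h0 : ∀ p ∈ O, ∀ x ∉ C, u p x = 0) : UT 𝔉 r₀ fun i t => u (θ i t) := by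
  have fam : ∀ i, Prm93.Fam (P0 𝔉 i) C O u := fun i => ⟨hu, fun p hp => Cb_of_hcs (hu.sm hp)
    (HasCompactSupport.intro hC (h0 p hp)), fun p hp q hq x hx => by rw [h0 p hp x hx, h0 q hq x hx]⟩
  have sb := fun i => (fam i).sb hC hO
  refine ⟨fun i => ⟨fun t ht => (sb i).cb _ (e (m i ht)), fun k => ((sb i).sm k).comp (hθ.sm i)
    ((m i).mono_right e)⟩, fun k n => ?_⟩
  rcases isEmpty_or_nonempty J with e | ⟨⟨j⟩⟩
  · exact (Bn.const (R := Rt h1 h2) n (c := fun _ => 0) ⟨0, isEmptyElim⟩).congr n isEmptyElim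
  obtain ⟨χ, c1, c2, c3, -, c4⟩ := Met55.exists_cut (I := I) hC L.op hΩ
  obtain ⟨D, hD⟩ := Cb_of_hcs (F := P0 𝔉 j) c1 c2
  have sup : ∀ f : M → A, tsupport (fun x => χ x • f x) ⊆ Ω := fun f =>
    (tsupport_smul_subset_left _ _).trans c3
  let Λ : ∀ i, B (P0 𝔉 j) k A →L[ℝ] B (P0 𝔉 i) k A := fun i => LinearMap.mkContinuous
    { toFun := fun f => B.mk k (fun x => χ x • B.fn f x) (Cb_of_hcs (c1.smul f.sm) c2.smul_right)
      map_add' := fun _ _ => B.fn_inj (funext fun x => by simp)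
      map_smul' := fun c _ => B.fn_inj (funext fun x => by simp [smul_comm c]) }
    (2 ^ (k + 1) * ‖ContinuousLinearMap.lsmul ℝ ℝ (E := A)‖ * |D k|) fun f =>
      (B.norm_le (by positivity)).2 (L.CB i j (sup _) (by
        simpa using CB_bil (ContinuousLinearMap.lsmul ℝ ℝ) c1 f.sm (hD.2 k) f.CB))
  refine ((((hθ.cmp h1 h2 hO hK e ((sb j).sm k) m).uc h1 h2).clm (L := Λ) ⟨_, fun i =>
    LinearMap.mkContinuous_norm_le _ (by positivity) _⟩).congr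
      (f' := fun i t => toB (P0 𝔉 i) k (u (θ i t))) fun i t ht => ?_).bd n
  refine (eq_toB (funext fun x => ?_)).symm
  change χ x • B.fn (toB (P0 𝔉 j) k (u (θ i t))) x = _
  rw [fn_toB ((sb j).cb _ (e (m i ht)))]
  by_cases hx : x ∈ C
  · rw [(c4 x hx).self_of_nhds, Pi.one_apply, one_smul]
  · rw [h0 _ (e (m i ht)) x hx, smul_zero]

end Lo

theorem Un.int_bu (H : Un s δ r₀) {f : J → M → A} (hf : Bu s f) :
    ∃ K, ∀ z, ∫ x, ‖f z.1 x‖ ∂(Fp s δ z).μ ≤ K := by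
  obtain ⟨C, hC⟩ := hf.ub
  obtain ⟨K, hK⟩ := hf.vol
  obtain ⟨a, ha⟩ := hf.ht
  refine ⟨exp (2 * (2 * δ * ka a)) * |C 0| * K, fun z => ?_⟩
  rw [(wt_Fp s δ z).μ, Nk89.integral_wm (wt_Fp s δ z).sm.continuous,
    ← setIntegral_eq_integral_of_forall_compl_eq_zero (s := tsupport (f z.1)) fun x hx => by
      rw [image_eq_zero_of_notMem_tsupport hx, norm_zero, smul_zero]]
  refine (Real.le_norm_self _).trans ((norm_setIntegral_le_of_norm_le_const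
    (C := exp (2 * (2 * δ * ka a)) * |C 0|) (hf.hc _).isCompact.measure_lt_top fun x hx => ?_).trans
      (mul_le_mul_of_nonneg_left (ENNReal.toReal_le_coe_of_le_coe (hK _)) (by positivity)))
  rw [norm_smul, norm_norm, Real.norm_of_nonneg (exp_pos _).le]
  exact mul_le_mul (exp_le_exp.2 (mul_le_mul_of_nonneg_left ((pr_le H.δ0 z.2.hx z.2.hy).trans
    (mul_le_mul_of_nonneg_left (ka_mono (ha _ x hx)) (by linarith [H.δ0]))) zero_le_two))
    ((CB_bound ((hC _).2 0) x).trans (le_abs_self _)) (norm_nonneg _) (exp_pos _).le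

/-! ### test data -/

namespace Lo
variable (L : Lo s Ω) (H : Un s δ r₀) {k : ℕ} {ρ : ℝ≥0}
include L

theorem cbU {f : M → ℝ} (hf : Tf I Ω f) : (H.dm h r k ρ).CbU f := H.ubW (L.tf hf).ub

theorem cvU {f : M → Eu lam} (hf : Tv I Ω f) : (H.dm h r k ρ).CbU f := H.ubW (L.tv hf).ub

theorem cdU {f : M → ℝ} (hf : Tf I Ω f) : (H.dm h r k ρ).CdU f := (L.cbU H hf).D

theorem swU {u : SW M} (hu : SwIn I Ω u) : (H.dm h r k ρ).SwU u := fun t ht => by
  have := hu t ht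
  cases t
  exacts [L.cbU H this, L.cdU H this, trivial, trivial]

theorem laU {u : List (La M)} (hu : LlIn I Ω u) : ∀ t ∈ u, (H.dm h r k ρ).LaU t := fun t ht => by
  have := hu t ht
  cases t
  exacts [L.cbU H this, trivial]

theorem awU {ξ : AW M} (hξ : AwIn I Ω ξ) : (H.dm h r k ρ).AwU ξ := by
  refine ⟨?_, L.laU H hξ.2⟩
  obtain ⟨s, l⟩ := ξ
  cases s with
  | q u v => exact ⟨L.swU H hξ.1.1, L.swU H hξ.1.2⟩
  | cv f g g' => exact ⟨L.cbU H hξ.1.1, L.cdU H hξ.1.2.1, L.cdU H hξ.1.2.2⟩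

theorem sgU {g : Sg M lam} (hg : SgIn I Ω g) : (H.dm h r k ρ).SgU g :=
  ⟨hg.1.sm.continuous, hg.1.hcs, H.int_bu (L.tv hg.1), L.swU H hg.2.1, L.swU H hg.2.2⟩

theorem coU {d : An.Co M lam r} (hd : CoIn I Ω d) : (H.dm h r k ρ).CoU d := by
  cases d with
  | z k => trivial
  | s g l => exact ⟨L.sgU H hd.1, fun g' hg => L.sgU H (hd.2 g' hg)⟩

theorem tmU {τ : Tm M lam r n} (a : TmIn I Ω τ) : (H.dm h r k ρ).TmU τ := by
  cases τ with
  | lin u => exact L.swU H a.1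
  | anti d s u => exact ⟨L.coU H a.1, L.cvU H a.2.1, L.swU H a.2.2⟩
  | ad g g' ξ => exact ⟨L.cdU H a.1, L.cdU H a.2.1, L.awU H a.2.2⟩
  | adj d s g g' u v l => exact ⟨L.coU H a.1, L.cvU H a.2.1, L.cdU H a.2.2.1, L.cdU H a.2.2.2.1,
      L.swU H a.2.2.2.2.1, L.swU H a.2.2.2.2.2.1, L.laU H a.2.2.2.2.2.2⟩
  | adn f g g' φ l => exact ⟨L.cbU H a.1, L.cdU H a.2.1, L.cdU H a.2.2.1, a.2.2.2.1,
      fun ξ hξ => L.awU H (a.2.2.2.2.2 ξ hξ)⟩
  | cut k w g => exact L.sgU H a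
  | cz k w k' => trivial

theorem xiU {ξ : Xi M lam r} (a : XiIn I Ω ξ) : Csm97.XiU (H.dm h r k ρ) ξ := by
  cases ξ with
  | one => trivial
  | aw ξ => exact L.awU H a
  | qj d s u v l => exact ⟨L.coU H a.1, L.swU H a.2.2.2.1, L.laU H a.2.2.2.2⟩

variable {H} {c : Cm N r h R} (κ : (H.kf c k ρ).OK False (k + 1))
include κ

theorem xiP {ξ : Xi M lam r} (a : XiIn I Ω ξ) : Csm97.XiP (H.kf c k ρ) (k + 1) ξ := by
  cases ξ with
  | qj d s u v l => exact (κ.js (H.a0_bu κ.h4 (L.tv a.2.1)) (L.swU H a.2.2.1)).imp Or.inl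
  | _ => trivial

/-- **terms with test data** -/
theorem cl_tm {τ : Tm M lam r n} (a : TmIn I Ω τ) {ε : Prop} :
    H.Cl c k ρ ε fun i t => (⟨tmP (𝔉 i).B ((𝔉 i).G t).F τ, fun _ => 0⟩ : PtX M ι lam r n m) := by
  have u := L.tmU H (h := h) (k := k) (ρ := ρ) a
  have b := fun p => Un.cl_tm (m := m) (ε := ε) κ u (κ.pu_of_cp u p)
  have f := fun {f : M → ℝ} (e : Tf I Ω f) =>
    H.a0_bu (h := h) (r := r) (k := k) (ρ := ρ) (ε := True) κ.h4 (L.tf e)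
  have v := fun {f : M → Eu lam} (e : Tv I Ω f) =>
    H.a0_bu (h := h) (r := r) (k := k) (ρ := ρ) (ε := True) κ.h4 (L.tv e)
  cases τ with
  | lin u => exact let ⟨a, g, l, e⟩ := a; b ⟨g, l, e, f (a (.mul g) (e ▸ List.mem_cons_self))⟩
  | anti d s u => exact b (v a.2.1)
  | ad g g' ξ =>
    have hk := κ.hj
    have d := fun e => (H.a0_bu (h := h) (r := r) (k := k) (ρ := ρ) (ε := True) (j := k + 1 + 7 + 1)
      (by omega) (L.tf a.1)).dG κ.F (by omega) e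
    have := (A0.toLp κ.h4 fun p : ι × ι => (A0.smul κ.lev κ.h4 ((A0.smul
      (Lev.left (by omega) (by omega)) κ.h4 (d p.1) (κ.dg u.2.1 κ.h4 p.2)).imp (ε' := True) Or.inl)
        (κ.aw u.2.2)).imp (ε' := True) Or.inl).app κ.h4 H.ubW_p2
    exact ⟨A0.zero, (this.lower (by omega) k.le_succ).imp fun _ => trivial,
      sc_prod (κ.tS u) (Sc.const 0), fun i _ q _ x => (H.pm_tm i _ q ((𝔉 i).G q.1).F
        (.ad g g' ξ : Tm M lam r n) x).1, fun i _ _ _ x =>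
        (H.pm_tm i _ _ _ (.ad g g' ξ : Tm M lam r n) x).2⟩
  | adj d s g g' v' v'' l => exact b (v a.2.1)
  | adn g g' g'' φ l => exact b (f a.1)
  | cut => exact b trivial
  | cz => exact b trivial

end Lo

end Crest.Agent.X212.Gla92
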