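import Crest.Agent.X212.Lcz33.Sd
import Crest.Agent.X212.Lcz33.Nk
import Crest.Agent.X212.Lcz33.Fin
import Crest.Agent.X212.Cay24.Gx
import Crest.Agent.X212.Gnk23.Main

/-! Row 212, GL-LOCZ (helper92): families of long necks and the pair (cylinder, long neck). -/

set_option autoImplicit false
set_option linter.unusedSectionVars false
noncomputable section
open scoped Manifold ContDiff Topology NNReal
open MeasureTheory Set Function Filter Real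

namespace Crest.Agent.X212.Lz92
open An An.Job M Nd18 Gj67 Gb50 Rsp69
open Gl67 (PP Sid Cm g0)
open Map77 (Cf)
open Cay24 (At)

variable {Wi : Type} {X : M.Mf 4} {A κ lam : Type} [Fintype A] [Fintype κ] [Fintype lam]
  [DecidableEq lam] {M : Mark X A κ} {W : World M} {L : ML M lam} {Λ : Lns W L}
  {A' h : Type} [Fintype A'] [DecidableEq A'] [Fintype h] {r n : ℕ}
  {J : Job Wi Λ A' h r n} {σ : Cel A'} {a : A'}
  {U Up R : Type} [NormedAddCommGroup U] [NormedSpace ℝ U] [NormedAddCommGroup Up]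
  [NormedSpace ℝ Up] [NormedAddCommGroup R] [NormedSpace ℝ R]

/-- a family of inputs of `LocZ` -/
structure Fz (d : Dat J σ a U Up R) (q₀ : Wi →₀ ℝ) (δ : ℝ) (k : ℕ) : Type 1 where
  𝒟 : Type
  l : Filter 𝒟
  τ : 𝒟 → d.Ta
  q : 𝒟 → Wi →₀ ℝ
  w : 𝒟 → (W.Z M.c0).M → Cf (Option κ) (Fin d.N)
  w' : 𝒟 → (W.Z M.c0).M → Cf (Option κ) (Fin d.N)
  p : 𝒟 → PP (Tc σ a) U r h d.N
  b : ℝ
  ρ : ℝ≥0
  t₀ : Tc σ a
  C : ℕ → ℝ
  θ : ℝ
  ok : d.OK q₀ δ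
  hk : 7 ≤ k
  tτ : Tendsto τ l d.lg
  tp : Tendsto (fun e => (p e).1) l (𝓝 t₀)
  cv : St.Cv l q q₀
  lg : ∀ e, Lg d (τ e)
  ta : ∀ e, At d (τ e)
  okX : ∀ e, (d.Xs (τ e)).OK
  fu : ∀ e, FU (d.FX (τ e)) ρ C
  su : ∀ e, SU (d.Xs (τ e)) C
  np : ∀ e, ‖p e‖ ≤ ρ
  cl : ∀ e, d.s (τ e) (p e).1 ∈ cl σ
  cl0 : d.s 1 t₀ ∈ Job.cl σ
  ν : ∀ e, J.ν d.x (d.s (τ e) (p e).1) = 1
  tz : d.D.Z.Tame C
  cs : ∀ i, d.D.Z.CBs (d.D.Z.D i Prod.snd) C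
  δθ : δ < θ
  θδ : θ ≤ 2 * δ
  θN : 4 * θ ≤ (J.xs d.x).N.δ
  sw : ∀ e, w e ∈ Sec (W.Z M.c0).I (d.Xs (τ e)).bd.pC
  sw' : ∀ e, w' e ∈ Sec (W.Z M.c0).I (d.Xs (τ e)).bd.pC
  ts : ∀ e, tsupport (w' e) ⊆ d.hX (τ e) ⁻¹' Ici 1
  eq : ∀ e x, b < d.hX (τ e) x → w' e x = w e x
  Q : ∀ e, (d.sX (τ e) (q e)).Q (g0 δ) univ (k + 1) (w e) ≤ ρ
  Q' : ∀ e, (d.sX (τ e) (q e)).Q (g0 δ) univ (k + 1) (w' e) ≤ ρ

namespace Fz
variable {d : Dat J σ a U Up R} {q₀ : Wi →₀ ℝ} {δ : ℝ} {k : ℕ} (F : Fz d q₀ δ k) (e : F.𝒟)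

/-- the parameters -/
abbrev sp : A' → ℝ := d.s (F.τ e) (F.p e).1

/-- the half length of the band -/
def al : ℝ := nl (F.τ e) / 2 - d.R0

theorem n1 : ‖(F.p e).1‖ ≤ F.ρ := (norm_fst_le _).trans (F.np e)

theorem mQ : (F.p e).1 ∈ (d.FX (F.τ e)).Q := (F.fu e).sub (mem_closedBall_zero_iff.2 (F.n1 e))

theorem act : Act J.m M.c0 d.x none (J.Θ (F.sp e)) := Cay24.act_t F.ok (F.lg e) (F.mQ e)

theorem okG : (J.G M.c0 (F.sp e)).OK (J.B M.c0) := (F.okX e).fam.G _ (F.mQ e)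

include F in
theorem okN : (J.xs d.x).N.OK d.D := (F.ok.ok.xs d.x).2

include F in
theorem okD : d.D.OK := ⟨(F.ok.okZ 0).fam.B, (F.ok.okZ 0).fam.G0⟩

/-- the neck -/
abbrev K0 : Nk d.D (J.B M.c0) (J.G M.c0 (F.sp e)) := J.K _ d.x none _ (F.act e)

theorem same : Mon62.Same (F.K0 e) (d.KX (F.τ e)) :=
  Gnk23.same F.ok.ok (F.act e) (F.τ e).2 (((F.lg e).x _).trans ((F.lg e).x _).symm) rfl rfl rfl

/-- the centred neck -/
def K : Nk d.D (J.B M.c0) (J.G M.c0 (F.sp e)) :=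
  Lcz33.shift (F.K0 e) (nl (F.τ e) / 2) F.okD.G.vol (F.okG e).vol

theorem K_p : (F.K e).p = some (-(nl (F.τ e) / 2)) := by
  simp [K, Lcz33.shift, (F.same e).p, X_p F.ok (F.lg e)]

theorem K_q : (F.K e).q = some (nl (F.τ e) / 2) := by
  simp only [K, Lcz33.shift, (F.same e).q, X_q F.ok (F.lg e), Option.map]
  congr 1; ring

theorem K_ψ {z : d.Y × ℝ} (hz : z ∈ (F.K e).ψ.source) : (F.K e).ψ z = d.ψ (F.τ e) z :=
  (F.same e).ψ _ hz.2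

theorem θ0 : 0 < F.θ := F.ok.δ0.trans F.δθ

/-- **the pair of necks**: `false` = the cylinder, `true` = the long neck -/
@[reducible] def P : NP d.D F.𝒟 where
  l := F.l
  p e := some (-F.al e)
  q e := some (F.al e)
  C := F.C
  S e i := Bool.rec ⟨d.D.B, d.D.G⟩ ⟨J.B M.c0, J.G M.c0 (F.sp e)⟩ i
  K e i := Bool.rec d.D.nk (F.K e) i
  γ := 8 * F.θ
  ρ e t := exp (-F.θ * (F.al e - |t|))
  hD := F.okD
  tz := F.tz
  cs := F.cs
  tame := .of_forall fun e i => by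
    cases i
    exacts [⟨F.okD.G.vol, F.tz⟩,
      ⟨(F.okG e).vol, (F.fu e).tG _ (mem_closedBall_zero_iff.2 (F.n1 e))⟩]
  sub := .of_forall fun e i L s hs => by
    have h1 := hs.1 _ rfl
    have h2 := hs.2 _ rfl
    have := F.ok.R1
    cases i
    · exact ⟨fun _ h => (by cases h), fun _ h => by cases h⟩
    · show s ∈ Dp (F.K e).p (F.K e).q L
      rw [K_p, K_q]
      exact ⟨by rintro _ ⟨⟩; unfold al at h1; linarith, by rintro _ ⟨⟩; unfold al at h2; linarith⟩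
  γ0 := by linarith [F.θ0]
  γ1 := by linarith [F.θδ, F.ok.δ2]
  lw := .of_forall fun e s t => ⟨exp_pos _, by
    rw [← exp_add]
    exact exp_le_exp.2 (by nlinarith [abs_sub_abs_le_abs_sub s t, F.θ0])⟩
  off := .of_forall fun e => ⟨by
    rintro _ ⟨⟩; exact one_le_exp (by nlinarith [neg_le_abs (-F.al e), F.θ0]), by
    rintro _ ⟨⟩; exact one_le_exp (by nlinarith [le_abs_self (F.al e), F.θ0])⟩

/-- pairs of sections -/
abbrev sc {V : Type} (u : F.𝒟 → d.Y × ℝ → V) (v : F.𝒟 → (W.Z M.c0).M → V) :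
    F.P.tw.Sc fun _ => V := fun e i => Bool.rec (u e) (v e) i

/-- the families -/
@[reducible] def fm (i : Bool) :
    Mod61.Fam (F.P.S e i).I (F.P.S e i).M (Option κ) (lam ⊕ lam) (Tc σ a) :=
  Bool.rec d.FZ (d.FX (F.τ e)) i

/-- the sides -/
@[reducible] def sd (i : Bool) : Sid (F.fm e i) d.N d.Jc U Up R :=
  Bool.rec (d.Z (F.τ e)) (d.Xs (F.τ e)) i

/-- the unknowns -/
abbrev ww : F.P.tw.Sc fun _ => Cf (Option κ) (Fin d.N) :=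
  F.sc (fun e => pull (d.ψ (F.τ e)) (F.w' e)) F.w

/-- LEAF: the sides are close -/
def SpZ : Prop := Lcz33.SP F.sd d.cm F.ww F.p k

/-- the difference of the equations -/
abbrev df (z : d.Y × ℝ) := ((d.sZ (F.τ e) (F.q e)).E (pull (d.ψ (F.τ e)) (F.w' e)) (F.p e) -
  (d.sX (F.τ e) (F.q e)).E (F.w e) (F.p e) ∘ d.ψ (F.τ e)) z

/-- LEAF: the difference decays on windows -/
def HkZ : Prop := F.P.cx.Hk (N := fun _ => Gl67.WW (Option κ) d.N Up) F.P.ρ k F.df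

/-- LEAF: the conclusion -/
def FinZ : Prop := ∀ η : ℝ≥0, 0 < η → ∃ t, ∀ᶠ e in F.l,
  (d.sZ (F.τ e) (F.q e)).Q (g0 δ) (Ici t) k (F.df e) ≤ η

end Fz
end Crest.Agent.X212.Lz92
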