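import Crest.Agent.X212.Gla92.Lz0
import Crest.Agent.X212.Lw78.Mov
import Crest.Agent.X212.Lpe67.Un

/-! Row 212, GL-LOCZ (helper92): the cylinder and the long neck are close on the band. -/

set_option autoImplicit false
set_option linter.unusedSectionVars false
set_option maxSynthPendingDepth 3
noncomputable section
open scoped Manifold ContDiff Topology NNReal
open MeasureTheory Set Function Filter Real Metric

namespace Crest.Agent.X212.Lz92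
open An An.Job M Nd18 Gj67 Gb50 Rsp69 Rsp69.Cx Rsp69.Tw Prm93 Sob92
open Gl67 (PP Sid Cm g0 ka)
open Map77 (Cf)
open Cay24 (At pY st mix_hi mix_φ pY_ψ src_of)
open Lcz33 (E1 SP)
open Lw78.Mv (Dk)

section gen
variable {E : Type} [NormedAddCommGroup E] [NormedSpace ℝ E] [FiniteDimensional ℝ E]
  [MeasurableSpace E] [BorelSpace E]
  {HM : Type} [TopologicalSpace HM] {I : ModelWithCorners ℝ E HM} [I.Boundaryless]
  {M : Type} [TopologicalSpace M] [ChartedSpace HM M] [IsManifold I ∞ M]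
  [MeasurableSpace M] [T2Space M] [BorelSpace M] [SecondCountableTopology M]
  {ι lam : Type} [Fintype ι] [Fintype lam] {T N : Type} [NormedAddCommGroup T] [NormedSpace ℝ T]
  [NormedAddCommGroup N] [NormedSpace ℝ N] {r : ℝ} {C : ℕ → ℝ} {t : T}

theorem cbs_ubn {F : Pre I M ι} {Q : Set T} {f : T → M → N} (sb : SB F Q f) (ub : UBn F r C f)
    (ht : ‖t‖ ≤ r) (hQ : t ∈ Q) : F.CBs (f t) C := ⟨Prm93.Cb.sm (sb.cb _ hQ), fun k => by
  have := CB_mono (B.CB _) ((norm_iteratedFDeriv_zero ..).symm.trans_le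
    (ub k 0 t (mem_closedBall_zero_iff.2 ht)))
  rwa [fn_toB (sb.cb _ hQ)] at this⟩

theorem cb_G {𝔉 : Mod61.Fam I M ι lam T} (h : 𝔉.OK) (fu : FU 𝔉 r C) (ht : ‖t‖ ≤ r) {f : M → N}
    (hf : Sm I f) {k : ℕ} {D : ℝ} (hD : 𝔉.F0.CB k f D) :
    (𝔉.G t).F.CB k f (cM (Fintype.card ι) (C k) k * |D|) :=
  have q := fu.sub (mem_closedBall_zero_iff.2 ht)
  have c := fun a b => cbs_ubn (h.sS a b) (fu.S a b) ht q
  (h.mix _ q).CB (fun a b => (c a b).1) k (fun a b => (c a b).2 k) hf hD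

end gen

variable {Wi : Type} {X : M.Mf 4} {A κ lam : Type} [Fintype A] [Fintype κ] [Fintype lam]
  [DecidableEq lam] {M : Mark X A κ} {W : World M} {L : ML M lam} {Λ : Lns W L}
  {A' h : Type} [Fintype A'] [DecidableEq A'] [Fintype h] {r n : ℕ}
  {J : Job Wi Λ A' h r n} {σ : Cel A'} {a : A'}
  {U Up R : Type} [NormedAddCommGroup U] [NormedSpace ℝ U] [NormedAddCommGroup Up]
  [NormedSpace ℝ Up] [NormedAddCommGroup R] [NormedSpace ℝ R]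
  {d : Dat J σ a U Up R} {q₀ : Wi →₀ ℝ} {δ : ℝ} {k : ℕ}
  {V : Type} [NormedAddCommGroup V] [NormedSpace ℝ V]

theorem mix_ψ' {τ : d.Ta} (G : At d τ) {f : (W.Z (J.cf a)).M → V} {g : d.Y × ℝ → V} (l : d.Lit f g)
    {z} (hz : z ∈ (d.ψ τ).source) : d.mix τ f g (d.ψ τ z) = g z := by
  by_cases k : d.ψ τ z ∈ (d.φ τ).target
  · obtain ⟨b, h1, h2, h3⟩ := G.ovl _ ((d.φ τ).map_target k) z hz ((d.φ τ).right_inv k)
    rw [Dat.mix, h1, l b _ _ _ h2 h3, (d.ψ τ).left_inv hz, ← add_smul, sub_add_cancel, one_smul]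
  · rw [G.φ.2.2.1] at k
    exact mix_hi _ _ hz (by linarith [(not_lt.1 k : d.la τ ≤ d.hX τ _)])

theorem hZ_ge (τ : ℝ) (z : d.Y × ℝ) : nl τ / 2 - d.R0 - |z.2| - 2 ≤ d.hZ τ z := by
  have h1 := Dw82.ka_ge (nl τ / 2 - d.R0 - rho z.2)
  have h2 := (rho_spec z.2).2.1.trans (max_le (le_add_of_nonneg_right zero_le_one)
    (le_add_of_nonneg_left (abs_nonneg z.2)))
  exact le_trans (by linarith) h1

/-- the pre-glued fields converge exponentially on the centred neck -/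
theorem dk_mix (H : d.OK q₀ δ) {ι : Type} {τ : ι → d.Ta} (G : ∀ i, At d (τ i)) {e : ℝ} (e0 : 0 ≤ e)
    {f : (W.Z (J.cf a)).M → V} {g : d.Y → V} (k : d.Dec e f g) (hf : Sm (W.Z (J.cf a)).I f)
    (hg : Sm (Cyf70.IC (J.xs d.x).Y.I) fun z : d.Y × ℝ => g z.1) (w : List (Option κ)) :
    ∃ C, ∀ i, ∀ z ∈ (d.ψ (τ i)).source, ‖d.D.Z.Dw w
      (fun z => d.mix (τ i) f (fun z => g z.1) (d.ψ (τ i) z) - g z.1) z‖ ≤
        C * exp (-e * d.hZ (τ i) z) := by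
  have hf := Lw78.Mv.ds_dec H e0 k hf hg
  obtain ⟨C0, k0⟩ := Gb50.UC.comp (l := ⊤) (F := fun _ => d.FS.F0.toPre) (h := fun _ => d.hS)
    (Gb50.ub_st (d := d)) (fun _ => d.sm_hS) fun i => .of_cb (H.okS.ch i)
  have k : Dk (fun _ : ι => d.FS.F0.toPre) (fun _ => {x | 0 < d.hS x})
      (fun _ x => exp (-e * d.hS x)) fun i w => (1 - st d (τ i) w) • (f w - g (pY d w)) :=
    Dk.smul ((Ell97.UB.const 1).sub ⟨C0, fun i => eventually_top.1 k0 (τ i)⟩)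
      ⟨fun _ => hf.op (), fun _ => hf.g0 (), fun _ => hf.sm (), fun w =>
        (hf.bd w).imp fun _ k _ => k ()⟩
  obtain ⟨C, hC⟩ := k.bd w
  refine ⟨|C|, fun i z hz => ?_⟩
  have h0 := ((G i).ψ.2.2.2 z hz).1
  have h4 : 0 < d.hZ (τ i) z := by rwa [(G i).ψ.2.1] at hz
  rw [(Pj41.fRel_of_iso (G i).ψ.1).Dw hz w (u' := fun y => d.mix (τ i) f (fun z => g z.1) y -
    g ((d.ψ (τ i)).symm y).1) (((d.ψ (τ i)).open_source.eventually_mem hz).mono fun y hy => by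
      rw [(d.ψ (τ i)).left_inv hy]), ← h0]
  rw [← h0] at h4
  generalize d.ψ (τ i) z = y at h4
  by_cases h1 : y ∈ (d.φ (τ i)).target
  · obtain ⟨x, hx, rfl⟩ : ∃ x ∈ (d.φ (τ i)).source, d.φ (τ i) x = y :=
      ⟨_, (d.φ (τ i)).map_target h1, (d.φ (τ i)).right_inv h1⟩
    have h2 := ((G i).φ.2.2.2 x hx).1
    rw [h2] at h4 ⊢
    refine (congrArg norm ((Pj41.fRel_of_iso (G i).φ.1).Dw hx w
      (u := fun w => (1 - st d (τ i) w) • (f w - g (pY d w))) ((((d.φ (τ i)).open_source.eventually_mem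
        hx).and ((k.op i).eventually_mem h4)).mono fun y hy => ?_)).symm).trans_le
      ((hC i x h4).trans (mul_le_mul_of_nonneg_right (le_abs_self C) (exp_pos _).le))
    have h3 : d.φ (τ i) y ∈ (d.ψ (τ i)).target := by
      rw [(G i).ψ.2.2.1]; exact hy.2.trans_eq ((G i).φ.2.2.2 y hy.1).1.symm
    obtain ⟨b, h5, h6, -⟩ := (G i).ovl y hy.1 _ ((d.ψ (τ i)).map_target h3)
      ((d.ψ (τ i)).right_inv h3).symm
    have h7 : pY d y = ((d.ψ (τ i)).symm (d.φ (τ i) y)).1 :=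
      (congrArg (pY d) h5).trans (pY_ψ H.ok (src_of H h6))
    rw [mix_φ H (G i) f g hy.1, ← h7, sub_smul, one_smul]
    abel
  · rw [(G i).φ.2.2.1] at h1
    have h2 : d.la (τ i) ≤ d.hX (τ i) y := not_lt.1 h1
    rw [Dw_congr w (v := fun _ => 0) (((d.sm_hX (τ i)).continuous.continuousAt.eventually_const_lt
      (show d.la (τ i) - 1 < d.hX (τ i) y by linarith)).mono fun y hy => by
        have h3 : y ∈ (d.ψ (τ i)).target := by
          rw [(G i).ψ.2.2.1]; show 0 < d.hX (τ i) y; linarith [(G i).la]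
        have h5 := mix_hi f (fun z => g z.1) ((d.ψ (τ i)).map_target h3)
        rw [(d.ψ (τ i)).right_inv h3] at h5
        exact sub_eq_zero.2 (h5 hy.le))]
    exact (CB_const w.length (0 : V) w le_rfl y).trans (by rw [norm_zero]; positivity)

namespace Fz
variable (F : Fz d q₀ δ k)

/-- deep in the band -/
theorem band (c : ℝ) : F.P.cx.Ev fun e z => (F.K e).ψ z = d.ψ (F.τ e) z ∧
    z ∈ (d.ψ (F.τ e)).source ∧ c < d.hZ (F.τ e) z :=
  ((F.P.dp 0).and (show F.P.cx.Ev fun e z => |c| < d.hZ (F.τ e) z from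
    ⟨|c| + 3, by positivity, .of_forall fun e z hz => by
      have h1 := hz.1 _ rfl
      have h2 := hz.2 _ rfl
      have h3 : |z.2| ≤ F.al e - (|c| + 3) := abs_le.2 ⟨by linarith, h2⟩
      linarith [hZ_ge (d := d) (F.τ e) z, show F.al e = nl (F.τ e) / 2 - d.R0 from rfl]⟩)).mono fun e z h =>
    ⟨F.K_ψ e (h.1 true).1, by rw [(F.ta e).ψ.2.1]; exact (abs_nonneg c).trans_lt h.2,
      (le_abs_self c).trans_lt h.2⟩

variable {F} {u : F.𝒟 → d.Y × ℝ → V} {v : F.𝒟 → (W.Z M.c0).M → V} {C C' : ℕ → ℝ} {m : ℕ}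

theorem e1 (hu : ∀ e, d.D.Z.CBs (u e) C) (hv : ∀ e, (d.FX (F.τ e)).F0.CBs (v e) C')
    (hd : F.P.cx.Hk (N := fun _ => V) F.P.ρ m fun e z => v e (d.ψ (F.τ e) z) - u e z) :
    E1 F.P.tw m (F.sc u v) := by
  have h : ∀ e i, (F.P.tw.F e i).CBs (F.sc u v e i) fun j =>
      max (C j) (cM (Fintype.card (Option κ)) (F.C j) j * |C' j|) := fun e i => by
    cases i
    exacts [Ell97.CBs_mono (hu e) fun _ => le_max_left _ _, ⟨(hv e).1, fun j => CB_mono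
      (cb_G (F.okX e).fam (F.fu e) (F.n1 e) (hv e).1 ((hv e).2 j)) (le_max_right _ _)⟩]
  exact .of (.of_forall fun e i => ⟨⟨_, h e i⟩, (h e i).2 1⟩)
    ⟨fun i => hk_of_CB (.of_forall fun e => ⟨(h e i).1, (h e i).2 m⟩),
      hd.congr ((F.band 0).mono fun e z k => congrArg (v e · - u e z) k.1.symm)⟩

theorem e1_eq (hu : ∀ e, d.D.Z.CBs (u e) C) (hv : ∀ e, (d.FX (F.τ e)).F0.CBs (v e) C')
    (hd : ∀ e, ∀ z ∈ (d.ψ (F.τ e)).source, v e (d.ψ (F.τ e) z) = u e z) :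
    E1 F.P.tw m (F.sc u v) :=
  e1 hu hv ((Lw.zero F.P.tw.lw m).congr ((F.band 0).mono fun e z k =>
    (sub_eq_zero.2 (hd e z k.2.1)).symm))

theorem e1_lit {f : (W.Z (J.cf a)).M → V} {g : d.Y × ℝ → V} (l : d.Lit f g) (hg : d.D.Z.Cb g)
    (hv : ∀ e, (d.FX (F.τ e)).F0.CBs (d.mix (F.τ e) f g) C') :
    E1 F.P.tw m (F.sc (fun _ => g) fun e => d.mix (F.τ e) f g) :=
  e1_eq (fun _ => hg.choose_spec) hv fun e _ => mix_ψ' (F.ta e) l

theorem e1_dec {f : (W.Z (J.cf a)).M → V} {g : d.Y → V} {c : ℝ} (hc : 2 * δ < c) (l : d.Dec c f g)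
    (hf : Sm (W.Z (J.cf a)).I f) (hg : d.D.Z.Cb fun z => g z.1)
    (hv : ∀ e, (d.FX (F.τ e)).F0.CBs (d.mix (F.τ e) f fun z => g z.1) C') :
    E1 F.P.tw m (F.sc (fun _ z => g z.1) fun e => d.mix (F.τ e) f fun z => g z.1) := by
  refine e1 (fun _ => hg.choose_spec) hv (Bd.hk F.P.tw.lw ?_)
  choose B hB using dk_mix F.ok F.ta (by linarith [F.ok.δ0]) l hf (Prm93.Cb.sm hg)
  obtain ⟨K, hK⟩ := ((List.finite_length_le (Option κ) m).image fun w => |B w|).bddAbove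
  obtain ⟨L, hL, k⟩ := F.band 0
  have θ0 := F.θ0
  refine ⟨L, hL, |K| * exp (2 * F.θ), by positivity, k.mono fun e k z hz => ⟨(exp_pos _).le,
    ((Pj41.fRel_of_iso (F.ta e).ψ.1).sm (k z hz).2.1 ((hv e).1 _)).sub (Prm93.Cb.sm hg z),
    fun w hw => (hB w e z (k z hz).2.1).trans ?_⟩⟩
  rw [mul_assoc, ← exp_add]
  refine mul_le_mul ((le_abs_self _).trans ((hK ⟨w, hw, rfl⟩).trans (le_abs_self _)))
    (exp_le_exp.2 ?_) (exp_pos _).le (abs_nonneg _)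
  have h1 := hZ_ge (d := d) (F.τ e) z
  have h2 := (k z hz).2.2
  have h3 := F.θδ
  show _ ≤ 2 * F.θ + -F.θ * (nl (F.τ e) / 2 - d.R0 - |z.2|)
  nlinarith

theorem lt (e : F.𝒟) {z} (hz : z ∈ (d.ψ (F.τ e)).source) :
    (∀ i j, (d.FX (F.τ e)).S (F.p e).1 (d.ψ (F.τ e) z) i j = d.D.B.P i j z) ∧
    (d.FX (F.τ e)).cf (F.p e).1 (d.ψ (F.τ e) z) = 0 ∧
    (d.FX (F.τ e)).la (F.p e).1 (d.ψ (F.τ e) z) = 0 :=
  have h := Lpe67.lt_fam (Gh_ok F.ok (F.τ e)) _ (F.mQ e) _ (Cay24.agr_t F.ok (F.lg e) (F.mQ e)) _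
    ((X_tgt F.ok (F.lg e)).1 ((d.KX (F.τ e)).ψ.map_source hz.1.2))
  ⟨fun i j => (h.1 i j).trans ((ch_ψ (F.ta e) F.ok).g.P i j z hz).symm, h.2⟩

theorem mt (e : F.𝒟) : (d.sZ (F.τ e) (F.q e)).Mt (d.sX (F.τ e) (F.q e)) (d.ψ (F.τ e)) ∧
    (d.sZ (F.τ e) (F.q e)).Cov (d.sX (F.τ e) (F.q e)) (d.ψ (F.τ e)) (Ici 1) :=
  have G := (F.ta e).ψ
  ⟨⟨G.1, fun x hx => (G.2.2.2 x hx).1, fun _ hx =>
      (ch_ψ (F.ta e) F.ok).pC hx (F.ok.okZ 0).om (F.okX e).om⟩,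
    (preimage_mono (Ici_subset_Ioi.2 one_pos)).trans G.2.1.ge,
    (preimage_mono (Ici_subset_Ioi.2 one_pos)).trans G.2.2.1.ge⟩

theorem swZ (e : F.𝒟) : pull (d.ψ (F.τ e)) (F.w' e) ∈
    Sec (Cyf70.IC (J.xs d.x).Y.I) (d.Z (F.τ e)).bd.pC :=
  (Gl67.Sd.pull_sec (mt e).1 (mt e).2 (F.sw' e) (F.ts e)).1

theorem nZ (e : F.𝒟) :
    Gl67.N d.D.Z.toPre (fun _ => 0) univ (k + 1) (pull (d.ψ (F.τ e)) (F.w' e)) ≤ F.ρ :=
  (Gl67.N_wt' .univ fun _ _ => Gl67.pr_nonneg F.ok.δ0.le le_rfl).trans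
    ((Gl67.Sd.Q_pull (d.sm_hZ _) (d.sm_hX _) (mt e).1 (mt e).2 measurableSet_Ici
      Gl67.cd_pr.continuous (F.sw' e) (F.ts e)).trans_le (F.Q' e))

theorem nX (e : F.𝒟) : Gl67.N (d.FX (F.τ e)).F0.toPre (fun _ => 0) univ (k + 1) (F.w e) ≤ F.ρ :=
  (Gl67.N_wt' .univ fun _ _ => Gl67.pr_nonneg F.ok.δ0.le le_rfl).trans (F.Q e)

theorem e1_w : E1 F.P.tw (k + 1) F.ww := by
  have h5 : 1 + 4 ≤ k + 1 := by linarith [F.hk]
  obtain ⟨K, -, hK⟩ := (((Lcz33.nb_of_N (F := fun _ => d.D.Z) (l := F.l) (.of_forall fun e =>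
    ⟨(swZ e).1, (swZ e).2.1, nZ e⟩)).of_le h5).sup (.of_forall fun _ => F.tz)).glob
  obtain ⟨K', -, hK'⟩ := (((Lcz33.nb_of_N (F := fun e => (d.FX (F.τ e)).F0) (l := F.l)
    (.of_forall fun e => ⟨(F.sw e).1, (F.sw e).2.1, nX e⟩)).of_le h5).sup
      (.of_forall fun e => (F.fu e).t0)).glob
  refine .of (C := max (K * 1) (cM (Fintype.card (Option κ)) (F.C 1) 1 * |K' * 1|))
    ((hK.and hK').mono fun e h i => ?_) (Pr.of_eq F.P.tw.lw (fun i => ?_) ((F.band F.b).mono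
      fun e z h => ?_))
  · cases i
    exacts [⟨Cb_of_hcs (swZ e).1 (swZ e).2.1, CB_mono h.1.2 (le_max_left _ _)⟩,
      ⟨Cb_of_hcs (F.sw e).1 (F.sw e).2.1, CB_mono (cb_G (F.okX e).fam (F.fu e) (F.n1 e) (F.sw e).1
        h.2.2) (le_max_right _ _)⟩]
  · cases i
    · exact Lcz33.hk_of_N (X := F.P.cx) (φ := fun _ => .refl _) (.of_forall fun e =>
        ⟨d.D.nk.iso, (swZ e).1, nZ e⟩) (.of_ev (.of_forall fun _ _ => trivial))
    · exact (Lcz33.hk_of_N (X := F.P.cx) (.of_forall fun e => ⟨(F.ta e).ψ.1, (F.sw e).1, nX e⟩)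
        ((F.band 0).mono fun _ _ h => h.2.1)).congr
          ((F.band 0).mono fun e z h => congrArg (F.w e) h.1.symm)
  · show F.w e ((F.K e).ψ z) = pull (d.ψ (F.τ e)) (F.w' e) z
    rw [h.1, pull_of_mem h.2.1, F.eq e _ (h.2.2.trans_eq ((F.ta e).ψ.2.2.2 z h.2.1).1.symm)]

variable (F) in
/-- **LEAF SP** -/
theorem spZ : F.SpZ := by
  have H := F.ok
  have Z := H.okZ 0
  have h7 : 7 ≤ k + 1 := F.hk.trans k.le_succ
  have c : ∀ {V : Type} [NormedAddCommGroup V] [NormedSpace ℝ V] {m : ℕ} {u v : F.P.tw.Sc fun _ => V},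
      E1 F.P.tw m u → (∀ e, u e false = v e false ∧ u e true = v e true) → E1 F.P.tw m v :=
    fun h e => h.congr (.of_forall fun x i => by cases i; exacts [(e x).1, (e x).2])
  have z : ∀ {V : Type} [NormedAddCommGroup V] [NormedSpace ℝ V],
      d.D.Z.CBs (fun _ => (0 : V)) fun _ => 0 := cbs_zero fun _ => le_rfl
  obtain ⟨e, he, dA, dΦ⟩ := H.dec
  refine ⟨F.hk, fun _ i => by cases i <;> rfl, fun _ i => by cases i <;> rfl,
    .of_forall fun e i => ?_, H.sol.sol.z, fun i j => ?_, fun i j l => ?_, fun i => ?_, fun i => ?_,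
    ?_, ?_, fun i => ?_, ?_, ?_, fun i => ?_, e1_w⟩
  · cases i
    exacts [⟨H.okZ _, trivial, swZ e⟩, ⟨F.okX e, F.mQ e, F.sw e⟩]
  · exact c (e1_eq (fun _ => congrFun₂ F.okD.G.P i j ▸ F.tz.P i j) (fun e => cbs_ubn
      ((F.okX e).fam.sS i j) ((F.fu e).S i j) (F.n1 e) (F.mQ e)) fun e _ h => (lt e h).1 i j)
      fun _ => ⟨rfl, rfl⟩
  · exact c (e1_eq (fun _ => z) (fun e => cbs_ubn ((F.okX e).fam.scf i j l) ((F.fu e).cf i j l)
      (F.n1 e) (F.mQ e)) fun e _ h => by rw [(lt e h).2.1]; rfl) fun _ => ⟨rfl, rfl⟩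
  · exact c (e1_eq (fun _ => z) (fun e => cbs_ubn ((F.okX e).fam.sla i) ((F.fu e).la i)
      (F.n1 e) (F.mQ e)) fun e _ h => by rw [(lt e h).2.2]; rfl) fun _ => ⟨rfl, rfl⟩
  · exact c (e1_dec he (dA i) (Prm93.Cb.sm (H.okS.cA i)) (Z.cA i) fun e => (F.su e).A i)
      fun _ => ⟨rfl, rfl⟩
  · exact c (e1_dec he dΦ (Prm93.Cb.sm H.okS.cΦ) Z.cΦ fun e => (F.su e).Φ) fun _ => ⟨rfl, rfl⟩
  · exact c (e1_lit H.lp Z.cp fun e => (F.su e).p) fun _ => ⟨rfl, rfl⟩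
  · exact c (e1_lit (H.lρ i) (Z.cρ i) fun e => (F.su e).ρ i) fun _ => ⟨rfl, rfl⟩
  · exact c (e1_lit H.lj Z.cj fun e => (F.su e).j) fun _ => ⟨rfl, rfl⟩
  · exact c ((e1_lit H.lb Z.cb fun e => (F.su e).b).app h7 (u := fun e _ _ => (F.p e).2.1)
      (.of (C := F.ρ) (.of_forall fun e _ => ⟨Cb_const _, CB_mono (CB_const _ _)
        ((norm_fst_le _).trans ((norm_snd_le _).trans (F.np e)))⟩) (EC.const (.of_le F.ρ fun e =>
          (norm_fst_le _).trans ((norm_snd_le _).trans (F.np e)))).el)) fun _ => ⟨rfl, rfl⟩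
  · exact (c (v := fun e j => (F.sd e j).dr i) (e1_lit (H.ld i) (Z.cd i) fun e => (F.su e).dr i)
      fun _ => ⟨rfl, rfl⟩).c.el

end Fz
end Crest.Agent.X212.Lz92
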