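import Crest.Agent.X212.Gla92.Lz1
import Crest.Agent.X212.Nfo63.Loc
import Crest.Agent.X212.Pat85.Fj

/-! Row 212, GL-LOCZ (helper92): the equations are close on the band. -/

set_option autoImplicit false
set_option linter.unusedSectionVars false
set_option maxSynthPendingDepth 3
noncomputable section
open scoped Manifold ContDiff Topology NNReal
open MeasureTheory Set Function Filter Real Metric

namespace Crest.Agent.X212.Lz92
open An An.Job M Nd18 Gj67 Gb50 Rsp69 Rsp69.Cx Rsp69.Tw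
open Gl67 (PP Sid Cm g0 ka)
open Map77 (Cf)

section gen
variable {E : Type} [NormedAddCommGroup E] [NormedSpace ℝ E] [FiniteDimensional ℝ E]
  [MeasurableSpace E] [BorelSpace E]
  {HM : Type} [TopologicalSpace HM] {I : ModelWithCorners ℝ E HM} [I.Boundaryless]
  {M : Type} [TopologicalSpace M] [ChartedSpace HM M] [IsManifold I ∞ M]
  [MeasurableSpace M] [T2Space M] [BorelSpace M] [SecondCountableTopology M]
  {ι 𝒟 : Type} [Fintype ι] {X : Cx I M ι 𝒟} {V V' : Type} [NormedAddCommGroup V] [NormedSpace ℝ V]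
  [NormedAddCommGroup V'] [NormedSpace ℝ V'] {w : 𝒟 → ℝ → ℝ} {k : ℕ}

theorem hk_prod {f : 𝒟 → M → V} {g : 𝒟 → M → V'} (h : X.Hk (N := fun _ => V) w k f)
    (h' : X.Hk (N := fun _ => V') w k g) :
    X.Hk (N := fun _ => V × V') w k fun d x => (f d x, g d x) :=
  ((h.clm (T := fun _ => .inl ℝ V V') (.const _)).add
    (h'.clm (T := fun _ => .inr ℝ V V') (.const _))).congr' fun _ _ => by simp

theorem dp_sh {p q : Option ℝ} {a s c : ℝ}
    (h : s + -a ∈ Dp (p.map (· - a)) (q.map (· - a)) c) : s ∈ Dp p q c :=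
  ⟨by rintro x rfl; linarith [h.1 _ rfl], by rintro x rfl; linarith [h.2 _ rfl]⟩

theorem cv_fin {α W : Type} {l : Filter α} {q : α → W →₀ ℝ} {q₀ : W →₀ ℝ} (h : St.Cv l q q₀) :
    ∃ S : Finset W, (∀ i, ∀ w ∉ S, q i w = 0) ∧ ∀ w, Ub l fun i => ‖q i w‖ := by
  classical
  obtain ⟨S, h1, h2⟩ := h
  refine ⟨S ∪ q₀.support, fun i w hw => ?_, fun w => ⟨‖q₀ w‖ + 1, by positivity,
    ((h2 w).norm.eventually_le_const (lt_add_one _))⟩⟩
  rw [Finset.mem_union, not_or] at hw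
  rw [h1 i w hw.1, Finsupp.notMem_support_iff.1 hw.2]

end gen

variable {Wi : Type} {X : M.Mf 4} {A κ lam : Type} [Fintype A] [Fintype κ] [Fintype lam]
  [DecidableEq lam] {M : Mark X A κ} {W : World M} {L : ML M lam} {Λ : Lns W L}
  {A' h : Type} [Fintype A'] [DecidableEq A'] [Fintype h] {r n : ℕ}
  {J : Job Wi Λ A' h r n} {σ : Cel A'} {a : A'}
  {U Up R : Type} [NormedAddCommGroup U] [NormedSpace ℝ U] [NormedAddCommGroup Up]
  [NormedSpace ℝ Up] [NormedAddCommGroup R] [NormedSpace ℝ R]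
  {d : Dat J σ a U Up R} {q₀ : Wi →₀ ℝ} {δ : ℝ} {k : ℕ}

namespace Fz
variable (F : Fz d q₀ δ k)

/-- the coefficients of the neck terms -/
abbrev β (e : F.𝒟) := (J.xs d.x).q (F.q e)

/-- the configuration on the long neck -/
abbrev cX (e : F.𝒟) := (d.Xs (F.τ e)).cfg d.cm (F.w e) (F.p e)

/-- deep in the band only the terms of the neck survive -/
theorem tau : F.P.cx.Ev fun e z =>
    (J.τ M.c0 (F.q e) (F.sp e)).D (F.cX e) ((F.K e).ψ z) =
      ((J.xs d.x).N.pt (F.K e) (F.β e) : Pt _ _ _ r n).D (F.cX e) ((F.K e).ψ z) ∧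
    (J.τ M.c0 (F.q e) (F.sp e)).C (F.cX e) ((F.K e).ψ z) =
      ((J.xs d.x).N.pt (F.K e) (F.β e) : Pt _ _ _ r n).C (F.cX e) ((F.K e).ψ z) := by
  obtain ⟨S, hS, -⟩ := cv_fin F.cv
  have ht : Tendsto F.sp F.l (𝓝 (d.s 1 F.t₀)) := ((cd_ee d.y.s).continuous.tendsto (1, F.t₀)).comp
    ((tendsto_comap_iff.1 F.tτ).prodMk_nhds F.tp)
  obtain ⟨c, hc⟩ := Nfo63.loc (c := M.c0) F.ok.ok F.ok.mem (fun e => ⟨F.cl e, eq_empty_of_forall_notMem
    fun x hx => (F.mQ e x (fr0 x)).ne hx⟩) ht F.cl0 ((ev_x F.ok).self_of_nhds.2 F.t₀) F.act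
    (Pat85.dj F.ok.ok) F.ν (q := F.q) fun w hw e => hS e w hw
  refine ((F.P.dp c).and (.of_ev (P := fun _ _ => _) (hc.mono fun _ h _ => h))).mono fun e z h => ?_
  have h1 := h.2 (F.cX e) ((F.K e).ψ z) (dp_sh ((h.1 true).2.2.1.symm ▸ (h.1 true).2.1 :))
  have h2 := Lcz33.pt_sh (n := n) (J.xs d.x).N (F.K0 e) (F.cX e) (nl (F.τ e) / 2) F.okD.G.vol
    (F.okG e).vol (F.okX e).fam.B (F.okG e) ((F.fu e).tG _ (mem_closedBall_zero_iff.2 (F.n1 e)))
    F.okN (Cay24.sd_ad0 (F.okX e) d.cm (F.sw e).1 (F.sw e).2.2 (F.mQ e)) (F.β e) ((F.K e).ψ z)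
  exact ⟨h1.1.trans h2.1.symm, h1.2.trans h2.2.symm⟩

/-- **LEAF HK** (from the peak row) -/
theorem hkZ (hp : F.P.cx.Ev fun e z => (F.df e z).2.2.2 = 0) : F.HkZ := by
  have H := F.spZ
  have γ : F.P.γ ≤ 2 * (J.xs d.x).N.δ := by linarith [F.θN, show F.P.γ = 8 * F.θ from rfl]
  obtain ⟨S, hS, hS'⟩ := cv_fin (Nfo63.cv_q (J.xs d.x) F.cv)
  have e := (F.band 0).and F.tau
  have h1 := (Lcz33.SP.row H F.okN γ).d.neg
  have h2 := (Lcz33.SP.eD (n := n) H F.okN γ hS hS').d.neg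
  have h3 := (Lcz33.SP.eC (n := n) H F.okN γ hS hS').d.neg
  refine (hk_prod h1 (hk_prod h2 (hk_prod h3 (Lw.zero F.P.tw.lw k)))).congr
    ((e.and hp).mono fun e z h => Prod.ext ?_ (Prod.ext ?_ (Prod.ext ?_ h.2.symm)))
  · exact (neg_sub _ _).trans (congrArg (_ - (d.Xs (F.τ e)).row _ _ ·) h.1.1.1)
  · refine (neg_sub _ _).trans (congrArg₂ HSub.hSub rfl ?_)
    refine .trans ?_ (congrArg ((F.cX e).eD _ (J.τ M.c0 (F.q e) (F.sp e))) h.1.1.1)
    exact congrArg₂ HSub.hSub rfl h.1.2.1.symm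
  · refine (neg_sub _ _).trans (congrArg₂ HSub.hSub rfl ?_)
    refine .trans ?_ (congrArg ((F.cX e).eC _ _ (J.τ M.c0 (F.q e) (F.sp e))) h.1.1.1)
    exact congrArg₂ HSub.hSub rfl h.1.2.2.symm

end Fz
end Crest.Agent.X212.Lz92
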