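import Crest.Agent.X212.Gla92.Uw
import Crest.Agent.X212.Gla92.Lip

/-! # Row 212, GL (helper92): the neck terms, uniformly -/

set_option autoImplicit false
set_option linter.unusedSectionVars false
set_option maxSynthPendingDepth 3
noncomputable section
open scoped Manifold ContDiff Topology InnerProductSpace ENNReal NNReal
open MeasureTheory Set Function Filter Real Metric

namespace Crest.Agent.X212.Gla92
open An Sob92 Prm93 Mod61 Map77 Mon62 Mon62.Dm Gl67 Nd18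
open Ell97 (UB)

variable {E : Type} [NormedAddCommGroup E] [NormedSpace ℝ E] [FiniteDimensional ℝ E]
  [MeasurableSpace E] [BorelSpace E]
  {HM : Type} [TopologicalSpace HM] {I : ModelWithCorners ℝ E HM} [I.Boundaryless]
  {M : Type} [TopologicalSpace M] [ChartedSpace HM M] [IsManifold I ∞ M]
  [MeasurableSpace M] [T2Space M] [BorelSpace M] [SecondCountableTopology M]
  {lam h : Type} [Fintype lam] [Fintype h]
  {T U Up R : Type} [NormedAddCommGroup T] [NormedSpace ℝ T] [NormedAddCommGroup U]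
  [NormedSpace ℝ U] [NormedAddCommGroup Up] [NormedSpace ℝ Up] [NormedAddCommGroup R]
  [NormedSpace ℝ R] {N r n m : ℕ} {Jc : En (Fin N)} {J : Type} {Ω : Set M} {δ r₀ : ℝ} {k : ℕ}
  {ρ : ℝ≥0} {c : Cm N r h R} {ε : Prop}

namespace Un.Cl
variable {ι : Type} [Fintype ι] {𝔉 : J → Fam I M ι lam T} {s : ∀ i, Sid (𝔉 i) N Jc U Up R}
  {H : Un s δ r₀} {e e' e'' : J → T → PtX M ι lam r n m}

/-- bounded coefficients that depend on the side -/
theorem cst (hk : 4 ≤ k) {γ : J → ℝ} (hγ : Bv γ) (a : H.Cl c k ρ ε e) :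
    H.Cl c k ρ ε fun i t => γ i • e i t := by
  have g : Bv fun z : J × Pf => γ z.1 := let ⟨K, hK⟩ := hγ; ⟨K, fun z => hK z.1⟩
  have u := fun (V : Type) [NormedAddCommGroup V] [NormedSpace ℝ V] =>
    (ub_const (F := (H.dm h r k ρ).P) g).clm (ContinuousLinearMap.lsmul ℝ ℝ (E := V))
  have a1 := a.D.app hk (u _)
  have a2 := a.C.app hk (u _)
  have a3 := (sc_fixed g).bil (ContinuousLinearMap.lsmul ℝ ℝ) a.S
  refine ⟨a1.congr fun _ _ _ => rfl, a2.congr fun _ _ _ => rfl, a3.congr fun _ _ => rfl,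
    fun i w q hq x => ?_, fun i w q hq x => ?_⟩
  · exact (map_smul _ (γ i) _).trans (congrArg (γ i • ·) (a.pD i w q hq x))
  · exact (map_smul _ (γ i) _).trans (congrArg (γ i • ·) (a.pC i w q hq x))

theorem eqn (hk : 4 ≤ k) (a : H.Cl c k ρ ε e') (b : H.Cl c k ρ ε e'')
    (hD : ∀ i t c x, (e i t).D c x = (e' i t).D c x - (e'' i t).D c x)
    (hC : ∀ i t c x, (e i t).C c x = (e' i t).C c x - (e'' i t).C c x)
    (hS : (H.dm h r k ρ).Sc fun z y => ((e z.1 y.2.1.1).S ((s z.1).cfg c y.1.1 y.2.1),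
      (e z.1 y.2.1.1).R ((s z.1).cfg c y.1.1 y.2.1))) : H.Cl c k ρ ε e :=
  ⟨(a.D.sub hk b.D).congr fun _ _ _ => hD _ _ _ _, (a.C.sub hk b.C).congr fun _ _ _ => hC _ _ _ _,
    hS, fun i w q hq x => by
      rw [hD]; exact (map_sub _ _ _).trans (congrArg₂ (· - ·) (a.pD i w q hq x) (b.pD i w q hq x)),
    fun i w q hq x => by
      rw [hC]; exact (map_sub _ _ _).trans (congrArg₂ (· - ·) (a.pC i w q hq x) (b.pC i w q hq x))⟩

theorem dq {τ : ∀ i, ∀ t ∈ (𝔉 i).Q, Pt M ι lam r n}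
    (hD : (H.dm h r k ρ).A0 ε k (V := Eu (Fin N)) fun z y =>
      (τ z.1 _ y.2.2).D ((s z.1).cfg c y.1.1 y.2.1))
    (hC : (H.dm h r k ρ).A0 ε k (V := Fm (ι × ι) (HS (Fin N))) fun z y =>
      (τ z.1 _ y.2.2).C ((s z.1).cfg c y.1.1 y.2.1))
    (hS : ∀ i t h c j, (τ i t h).S c j = 0)
    (pD : ∀ i w (q : PP T U r h N) hq x, (s i).md.pm (𝔉 i).B x
      ((τ i q.1 hq).D ((s i).cfg c w q) x) = (τ i q.1 hq).D ((s i).cfg c w q) x)
    (pC : ∀ i w (q : PP T U r h N) hq x, (s i).md.p2 (𝔉 i).B x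
      ((τ i q.1 hq).C ((s i).cfg c w q) x) = (τ i q.1 hq).C ((s i).cfg c w q) x) :
    H.Cl c k ρ ε fun i => Mon62.dq (· ∈ (𝔉 i).Q) fun t h => px m (τ i t h) := by
  have e : ∀ i t (ht : t ∈ (𝔉 i).Q), Mon62.dq (· ∈ (𝔉 i).Q) (fun t h => px m (τ i t h)) t =
      px m (τ i t ht) := fun i t ht => dif_pos ht
  refine ⟨hD.congr fun z y x => ?_, hC.congr fun z y x => ?_, (Sc.const 0).congr fun z y => ?_,
    fun i w q hq x => ?_, fun i w q hq x => ?_⟩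
  · rw [e _ _ y.2.2]; rfl
  · rw [e _ _ y.2.2]; rfl
  · rw [e _ _ y.2.2]; exact Prod.ext (funext (hS _ _ _ _)) rfl
  · rw [e _ _ hq]; exact pD _ _ _ _ _
  · rw [e _ _ hq]; exact pC _ _ _ _ _

end Un.Cl

variable {E3 : Type} [NormedAddCommGroup E3] [NormedSpace ℝ E3] [FiniteDimensional ℝ E3]
  [MeasurableSpace E3] [BorelSpace E3]
  {H3 : Type} [TopologicalSpace H3] {I3 : ModelWithCorners ℝ E3 H3} [I3.Boundaryless]
  {Y : Type} [TopologicalSpace Y] [ChartedSpace H3 Y] [IsManifold I3 ∞ Y] [T2Space Y]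
  [MeasurableSpace Y] [BorelSpace Y] [SecondCountableTopology Y] [CompactSpace Y]
  {κ : Type} [Fintype κ] {DY : YD I3 Y κ lam} {𝔉 : J → Fam I M (Option κ) lam T}
  {s : ∀ i, Sid (𝔉 i) N Jc U Up R} (H : Un s δ r₀)
  (K : ∀ i, ∀ t ∈ (𝔉 i).Q, Nk DY (𝔉 i).B ((𝔉 i).G t)) {Nd : ND Y lam}

variable (c k ρ) in
/-- the necks at the smooth points -/
abbrev kd (z : J × Pf) (y : YY h r s z) :
    Nk DY (𝔉 z.1).B ⟨(H.kf c k ρ).F z y, ((𝔉 z.1).G y.2.1.1).a⟩ := K z.1 _ y.2.2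

/-- supports are separated uniformly -/
def SepU : Prop := ∀ f f' : Y → ℝ, Cyc79.Sep DY.F.toPre f f' → ∃ φ : J → M → ℝ,
  UB (P0 𝔉) φ ∧ ∀ i t h x, ((K i t h).ext f x ≠ 0 → 1 ≤ φ i x) ∧ ((K i t h).ext f' x ≠ 0 → φ i x ≤ 0)

variable {K}

include H in
theorem FxU.sep (a : FxU s K) : SepU K := fun f f' hs => by
  obtain ⟨K0, -, e, -⟩ := a
  obtain ⟨C, hC⟩ := Nka63.sep_unif (D := DY) hs
  choose φ h1 h2 h3 using fun i => hC (K0 i)
  exact ⟨φ, ⟨C, fun i => cbs_e (H.fam i).e0 (h1 i)⟩, fun i t ht x => by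
    rw [(e i t ht).ext, (e i t ht).ext]; exact ⟨h2 i x, h3 i x⟩⟩

theorem FxU.nh (a : FxU s K) (V : Uv s δ r₀) {d : ℝ} (hd : 2 * δ < d) {j : ℕ} (hj : 4 ≤ j) :
    NH (kd k ρ c H K) d j := by
  obtain ⟨K0, C, e, f⟩ := a
  refine NE.nh (G0 := fun z => (𝔉 z.1).G0) (K0 := fun z => K0 z.1) ⟨fun z => (H.fam _).e0,
    fun z y => e _ _ _, wg s δ, d - 2 * δ, 2 * δ * C, sub_pos.2 hd,
    sub_le_self _ (by linarith [H.δ0]), fun z => ⟨(wt_Fp s δ z).sm.continuous,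
      V.e0 z.1 ▸ (wt_Fp s δ z).μ, fun x hx y hy => (wg_lip H.δ0 z x y).trans ?_⟩⟩ hj
  rw [sub_sub_cancel, ← mul_add]
  exact mul_le_mul_of_nonneg_left (f _ x hx y hy) (by linarith [H.δ0])

section mv
variable {Pm : Type} [NormedAddCommGroup Pm] [NormedSpace ℝ Pm] {θ : J → T → Pm}
  (a : MvU Ω K θ) (L : Lo s Ω)
include a L

omit H in
theorem MvU.sep : SepU K := by
  obtain ⟨O, O', V, C, ϖ, g, P, Q, -, -, -, -, a1, a2, a3, a3', a4, -, a7⟩ := a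
  rintro f f' ⟨-, -, φ, h1, h2, h3⟩
  obtain ⟨χ, c1, c2, c3, -, c4⟩ := Met55.exists_cut (I := I) a2 (a1.inter L.op)
    (subset_inter a3 a3')
  have e : ∀ i t h x (f : Y → ℝ), (K i t h).ext f x ≠ 0 → χ x = 1 ∧ f (ϖ x) ≠ 0 :=
    fun i t h x f hx => by
    have h4 := (a7 i t h).2.2.1 (Nka63.dp_mono _ (by norm_num)
      (by_contra fun k => hx ((K i t h).ext_zero f k)))
    have h5 := right_ne_zero_of_smul hx
    rw [((a7 i t h).2.2.2 x (a3 h4)).2] at h5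
    exact ⟨(c4 x h4).self_of_nhds, h5⟩
  refine ⟨fun _ x => χ x * φ (ϖ x), (L.bu (contMDiff_of_tsupport fun x hx => (c1 x).mul
    (((Cb.sm h1) _).comp x (a4.contMDiffAt (a1.mem_nhds (c3 (tsupport_mul_subset_left hx)).1))))
    c2.mul_right fun x hx => (c3 (tsupport_mul_subset_left hx)).2).ub,
    fun i t h x => ⟨fun k => ?_, fun k => ?_⟩⟩
  · simp only [(e i t h x f k).1, one_mul]; exact h2 _ (e i t h x f k).2
  · simp only [(e i t h x f' k).1, one_mul]; exact h3 _ (e i t h x f' k).2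

theorem MvU.nf (hθ : Co 𝔉 r₀ θ) : ∃ P Q, NF (kd k ρ c H K) P Q := by
  classical
  obtain ⟨O, O', V, C, ϖ, g, P, Q, o1, o2, o3, o4, a1, a2, a3, a3', a4, a5, a7⟩ := a
  obtain ⟨χ, c1, c2, c3, -, c4⟩ := Met55.exists_cut (I := I) a2 L.op a3'
  refine ⟨fun z y => P (θ z.1 y.2.1.1), fun z y => Q (θ z.1 y.2.1.1), fun _ y => (a7 _ _ y.2.2).1,
    fun _ y => (a7 _ _ y.2.2).2.1, ⟨fun _ => χ, fun l hl => H.a0_bu hl (L.bu c1 c2 c3),
      fun _ y x hx => (c4 x ((a7 _ _ y.2.2).2.2.1 hx)).self_of_nhds⟩,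
    fun {N} _ _ Φ f d h1 h2 hd h3 => ?_⟩
  let u : Pm → M → N := fun p x => if x ∈ C then Φ (P p, Q p, g p x) • f (ϖ x) else 0
  have js : JS I O u := fun p hp x => by
    by_cases hx : x ∈ C
    · refine JAt.congr (f := fun p x => Φ (P p, Q p, g p x) • f (ϖ x))
        ((h1.contMDiff.contMDiffAt.comp (p, x) ((JAt.of_par (a5 p hp).1).prodMk_space
          ((JAt.of_par (a5 p hp).2.1).prodMk_space ((a5 p hp).2.2.2 x (a3 hx)).1))).smul
            (JAt.of_fixed ((h2 _).comp x (a4.contMDiffAt (a1.mem_nhds (a3 hx)))))) ?_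
      filter_upwards [prod_mem_nhds (o1.mem_nhds hp) (a1.mem_nhds (a3 hx))] with w hw
      by_cases hc : w.2 ∈ C
      · exact if_pos hc
      · rw [h3 _ _ _ (a5 _ hw.1).2.2.1 fun e => hc (((a5 _ hw.1).2.2.2 _ hw.2).2 (Dp_mono hd e)),
          zero_smul]
        exact if_neg hc
    · refine JAt.congr (f := fun _ _ => 0) contMDiffAt_const ?_
      filter_upwards [prod_mem_nhds univ_mem (a2.isClosed.isOpen_compl.mem_nhds hx)] with w hw
      exact if_neg hw.2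
  refine ⟨_, H.usW (L.ut (fun i => (H.fam i).opn) H.sub hθ o1 o2 o3 o4 js a2 a3'
    fun _ _ _ hx => if_neg hx), fun z y x => ?_⟩
  obtain ⟨b1, b2, b3, b4⟩ := a7 _ _ y.2.2
  by_cases hx : x ∈ C
  · refine (if_pos hx).trans ?_
    have e := (b4 x (a3 hx)).2
    exact congrArg₂ (fun (u : ℝ) (v : Y) => Φ (_, _, u) • f v)
      ((congrArg Prod.snd e).symm.trans (Nk.snd_symm _ (b4 x (a3 hx)).1)) (congrArg Prod.fst e).symm
  · refine (if_neg hx).trans ?_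
    rw [h3 _ _ _ ((K _ _ y.2.2).len _ b1 _ b2) fun e => hx (b3 (Nka63.dp_mono _ hd
      (by rwa [Nk.dp, b1, b2]))), zero_smul]

end mv

variable {H} (o : (H.kf c k ρ).OK False (k + 1))
include o

theorem nc (V : Uv s δ r₀) (G : Gm s Ω) {d : ℝ} (a : NH (kd k ρ c H K) d (k + 1)) (hs : SepU K) :
    NC (kd k ρ c H K) (k + 1) := fun _ hd =>
  let ⟨φ, h1, h2⟩ := hs _ _ hd.sep
  Cys97.sm I M _ lam _ _ _ _ _ _ _ _ _ _ _ _ _ o (H.uw V G)
    (fun z y a x => (((H.fam z.1).G _ y.2.2).P ▸ (conn_cfg (H.ok _) c y.1 y.2.2).cc.proj a x :))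
    ⟨a.ex o (Cb.sm hd.sep.1), a.ex o (Cb.sm hd.sep.2.1), fun z => φ z.1, H.ubW h1,
      fun _ y x => h2 _ _ y.2.2 x⟩ (a.las o fun t ht => Nka63.laOK_of (hd.w t ht))
    (a.las o fun t ht => Nka63.laOK_of (hd.w' t ht))

theorem cl_Q1 (a : NH (kd k ρ c H K) Nd.δ (k + 1)) (hN : Nd.OK DY) (b : NC (kd k ρ c H K) (k + 1))
    (hτ : ∀ e, (H.dm h r k ρ).A0 ε (k + 1) fun z y => ((H.kf c k ρ).F z y).D e (K z.1 _ y.2.2).τ) :
    H.Cl c k ρ ε fun i => Q1 n m (K i) Nd :=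
  have hk := o.hj
  Un.Cl.dq ((a.q1D o hN b H.ubW_pp hτ).lower (by omega) k.le_succ)
    ((a.q1C o hN b H.ubW_p2 hτ).lower (by omega) k.le_succ) (fun _ _ _ _ _ => rfl)
    (fun i w q _ x => by
      have e : ∀ a v, (s i).md.pm (𝔉 i).B x ((s i).ρ a x ((s i).md.pp (𝔉 i).B x v)) =
          (s i).ρ a x ((s i).md.pp (𝔉 i).B x v) := fun a v =>
        congrArg (fun S : En (Fin N) => S v) (show (s i).md.pm (𝔉 i).B x * (s i).md.ρ a x *
          (s i).md.pp (𝔉 i).B x = (s i).md.ρ a x * (s i).md.pp (𝔉 i).B x by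
          rw [Wz78.pm_rho (H.fam i).B (H.ok i).ok, mul_assoc, Wz78.pp_pp (H.fam i).B (H.ok i).ok])
      exact (map_neg _ _).trans (congrArg _ ((map_sum _ _ _).trans (Finset.sum_congr rfl fun a _ =>
        (map_smul _ _ _).trans (congrArg _ (e a _))))))
    fun i _ _ _ x => (map_smul _ _ _).trans (congrArg _ (Std94.p2_p2 (H.fam i).B x _))

theorem cl_Q2 (a : NH (kd k ρ c H K) Nd.δ (k + 1)) (hy : ∀ i, Sm I3 (Nd.y i)) {w : YT Y}
    (hw : w.OK I3) (ho : (H.dm h r k ρ).A0 ε (k + 1) fun z y =>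
      Nd.oc (kd k ρ c H K z y) w ((H.kf c k ρ).c z y)) :
    H.Cl c k ρ ε fun i => Q2 n m (K i) Nd w :=
  have hk := o.hj
  Un.Cl.dq ((a.q2D o hy hw H.ubW_pm ho).lower (by omega) k.le_succ)
    ((a.q2C o hy hw H.ubW_p2 ho).lower (by omega) k.le_succ) (fun _ _ _ _ _ => rfl)
    (fun i _ _ _ x => (map_smul _ _ _).trans (congrArg _ ((map_smul _ _ _).trans
      (congrArg _ (H.pm_tm i _ _ _ _ x).1))))
    fun i _ _ _ x => (map_smul _ _ _).trans (congrArg _ ((map_smul _ _ _).trans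
      (congrArg _ (H.pm_tm i _ _ _ _ x).2)))

variable (V : Uv s δ r₀) (G : Gm s Ω) (hN : Nd.OK DY)
include V G hN

/-- **fixed necks** -/
theorem FxU.cl (a : FxU s K) (hd : 2 * δ < Nd.δ) : H.Cl c k ρ False (fun i => Q1 n m (K i) Nd) ∧
    ∀ w : YW I3 Y, H.Cl c k ρ False fun i => Q2 n m (K i) Nd w.1 :=
  have b := a.nh H V hd o.h4
  ⟨cl_Q1 o b hN (nc o V G b (a.sep H)) b.dτ, fun w => cl_Q2 o b hN.sy w.2 (b.oc o hN.sy w.2)⟩

/-- **moving necks** -/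
theorem MvU.cl {Pm : Type} [NormedAddCommGroup Pm] [NormedSpace ℝ Pm] {θ : J → T → Pm}
    (a : MvU Ω K θ) (L : Lo s Ω) (hθ : Co 𝔉 r₀ θ) : H.Cl c k ρ True (fun i => Q1 n m (K i) Nd) ∧
    ∀ w : YW I3 Y, H.Cl c k ρ True fun i => Q2 n m (K i) Nd w.1 :=
  let ⟨_, _, f⟩ := a.nf H L hθ
  have b := f.nh o.F o.h4
  ⟨cl_Q1 o b hN (nc o V G b (a.sep L)) (f.dτ o.h4),
    fun w => cl_Q2 o b hN.sy w.2 (f.oc o hN.sy w.2)⟩

end Crest.Agent.X212.Gla92
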