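import Crest.Agent.X212.Gla92.Lf2

/-! # Row 212, GL (helper92): the unweighted companion of the models -/

set_option autoImplicit false
set_option linter.unusedSectionVars false
set_option maxSynthPendingDepth 3
noncomputable section
open scoped Manifold ContDiff Topology InnerProductSpace ENNReal NNReal
open MeasureTheory Set Function Filter Real Metric

namespace Crest.Agent.X212.Gla92
open An Sob92 Prm93 Mod61 Map77 Mon62 Mon62.Dm Gl67 Cys97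
open Ell97 (UB)

/-! ### stretched profiles -/

section prof
variable {L u : ℝ}

/-- a stretched primitive of the step -/
def gL (L a u : ℝ) : ℝ := L * ka ((u - a) / L)

theorem gL_d1 (hL : L ≠ 0) (a u : ℝ) :
    HasDerivAt (gL L a) (smoothTransition ((u - a) / L)) u := by
  have := ((ka_deriv ((u - a) / L)).comp u (((hasDerivAt_id u).sub_const a).div_const L)).const_mul L
  rwa [one_div, mul_left_comm, mul_inv_cancel₀ hL, mul_one] at this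

theorem gL_d2 (L a u : ℝ) : HasDerivAt (fun u => smoothTransition ((u - a) / L))
    (deriv smoothTransition ((u - a) / L) * (1 / L)) u :=
  ((smoothTransition.contDiff (n := 1)).differentiable one_ne_zero _).hasDerivAt.comp u
    (((hasDerivAt_id u).sub_const a).div_const L)

theorem ka_bd (u : ℝ) : max u 0 - 1 ≤ ka u ∧ ka u ≤ max u 0 := by
  rcases le_total u 0 with h | h
  · rw [ka_zero h, max_eq_right h]; norm_num
  have h0 := ka_lip h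
  rw [ka_zero le_rfl] at h0
  refine ⟨?_, by rw [max_eq_left h]; linarith⟩
  rw [max_eq_left h]
  rcases le_total u 1 with k | k
  · linarith [ka_nonneg u]
  · linarith [ka_lin le_rfl k, ka_nonneg 1]

theorem gL_bd (hL : 0 < L) (a u : ℝ) : |gL L (a + 1) u - ka (u - a)| ≤ L + 2 := by
  have h1 := ka_bd ((u - (a + 1)) / L)
  have h2 := ka_bd (u - a)
  have h3 : L * max ((u - (a + 1)) / L) 0 = max (u - (a + 1)) 0 := by
    rw [mul_max_of_nonneg _ _ hL.le, mul_div_cancel₀ _ hL.ne', mul_zero]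
  have h4 := mul_le_mul_of_nonneg_left h1.1 hL.le
  have h5 := mul_le_mul_of_nonneg_left h1.2 hL.le
  rw [mul_sub, h3] at h4
  rw [h3] at h5
  have h6 := abs_le.1 (abs_max_sub_max_le_abs (u - (a + 1)) (u - a) 0)
  rw [show u - (a + 1) - (u - a) = -1 by ring, abs_neg, abs_one] at h6
  rw [gL, abs_le]
  constructor <;> linarith [h2.1, h2.2, h6.1, h6.2]

end prof

variable {E : Type} [NormedAddCommGroup E] [NormedSpace ℝ E] [FiniteDimensional ℝ E]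
  [MeasurableSpace E] [BorelSpace E]
  {HM : Type} [TopologicalSpace HM] {I : ModelWithCorners ℝ E HM} [I.Boundaryless]
  {M : Type} [TopologicalSpace M] [ChartedSpace HM M] [IsManifold I ∞ M]
  [MeasurableSpace M] [T2Space M] [BorelSpace M] [SecondCountableTopology M]
  {ι lam h : Type} [Fintype ι] [Fintype lam] [Fintype h]
  {T U Up R : Type} [NormedAddCommGroup T] [NormedSpace ℝ T] [NormedAddCommGroup U]
  [NormedSpace ℝ U] [NormedAddCommGroup Up] [NormedSpace ℝ Up] [NormedAddCommGroup R]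
  [NormedSpace ℝ R] {N r n m : ℕ} {Jc : En (Fin N)} {J : Type} {𝔉 : J → Fam I M ι lam T}
  {s : ∀ i, Sid (𝔉 i) N Jc U Up R} {Ω : Set M} {δ r₀ : ℝ} {k : ℕ} {ρ : ℝ≥0}

/-- supersolutions comparable with the weights -/
theorem exists_wu (h0 : 0 ≤ δ) (h1 : δ ≤ 1 / 32) : ∃ c > 0, ∀ (F : Fr I M ι) (f : M → ℝ) (p : Pf),
    Sm I f → (∀ x, ∑ a, F.D a f x ^ 2 ≤ 1) → (∀ x, 1 ≤ f x → Mp86.Lop I F.e F.dv f x ≤ 0) →
    ∃ u, Cyc79.Wu F u ∧ ∀ x, c * u x ≤ exp (2 * pr δ p.x p.y p.z (f x)) ∧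
      c * exp (2 * pr δ p.x p.y p.z (f x)) ≤ u x := by
  obtain ⟨L, hL⟩ : ∃ L, L = 3 * Neck67.cS 0 := ⟨_, rfl⟩
  have L0 : 0 < L := by linarith [Neck67.one_le_cS 0]
  refine ⟨exp (-(2 * δ * (3 * (L + 2)))), exp_pos _, fun F f p hf gr lop => ?_⟩
  let φ : ℝ → ℝ := fun u => 2 * δ * (gL L (p.x + 1) u + gL L (p.y + 1) u - gL L (p.z + 1) u)
  let st : ℝ → ℝ → ℝ := fun a u => smoothTransition ((u - (a + 1)) / L)
  have d1 : ∀ u, HasDerivAt φ (2 * δ * (st p.x u + st p.y u - st p.z u)) u := fun u =>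
    (((gL_d1 L0.ne' _ u).add (gL_d1 L0.ne' _ u)).sub (gL_d1 L0.ne' _ u)).const_mul _
  have d2 := fun u => (((gL_d2 L (p.x + 1) u).add (gL_d2 L (p.y + 1) u)).sub
    (gL_d2 L (p.z + 1) u)).const_mul (2 * δ)
  have cd : ContDiff ℝ ∞ φ := by
    have := cd_ka
    unfold φ gL; fun_prop
  have s0 := fun a u => smoothTransition.nonneg ((u - (a + 1)) / L)
  have s1 := fun a u => smoothTransition.le_one ((u - (a + 1)) / L)
  have s2 : ∀ v, |deriv smoothTransition v * (1 / L)| ≤ 1 / 3 := fun v => by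
    rw [abs_mul, abs_of_pos (one_div_pos.2 L0), mul_one_div, div_le_iff₀ L0]
    linarith [(Neck67.bd_step 0).2 v]
  refine ⟨_, Cyc79.wu_exp (ψ := fun x => φ (f x)) (cd.contMDiff.comp hf) (fun x => ?_) fun x => ?_,
    fun x => ?_⟩
  · rw [Cyc79.sum_cmp hf (d1 _)]
    have : |2 * δ * (st p.x (f x) + st p.y (f x) - st p.z (f x))| ≤ 1 / 8 := by
      rw [abs_mul, abs_of_nonneg (by linarith : 0 ≤ 2 * δ)]
      refine (mul_le_mul (by linarith : _ ≤ (1 / 16 : ℝ)) (abs_le.2 ⟨?_, ?_⟩ : _ ≤ (2 : ℝ))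
        (abs_nonneg _) (by norm_num)).trans (by norm_num) <;>
      linarith [s0 p.x (f x), s0 p.y (f x), s0 p.z (f x), s1 p.x (f x), s1 p.y (f x), s1 p.z (f x)]
    have := pow_le_pow_left₀ (abs_nonneg _) this 2
    rw [sq_abs] at this
    exact (mul_le_mul this (gr x) (Cyc79.gr_nn F f x) (by norm_num)).trans (by norm_num)
  · rw [Mp86.Lop_comp (Mp86.vf F.toPre x) (Mp86.cm2 hf x) (.of_forall d1) (d2 _)]
    have a1 : 2 * δ * (st p.x (f x) + st p.y (f x) - st p.z (f x)) *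
        Mp86.Lop I F.e F.dv f x ≤ 0 := by
      rcases le_total 1 (f x) with e | e
      · refine mul_nonpos_of_nonneg_of_nonpos (mul_nonneg (by linarith) ?_) (lop x e)
        have : st p.z (f x) ≤ st p.y (f x) := smoothTransition.monotone
          (div_le_div_of_nonneg_right (by linarith [p.hz]) L0.le)
        linarith [s0 p.x (f x)]
      · have z : ∀ a, 0 ≤ a → st a (f x) = 0 := fun a ha => smoothTransition.zero_of_nonpos
          (div_nonpos_of_nonpos_of_nonneg (by linarith) L0.le)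
        rw [z _ p.hx, z _ p.hy, z _ (p.hy.trans p.hz)]; simp
    have a2 := abs_le.1 (s2 ((f x - (p.x + 1)) / L))
    have a3 := abs_le.1 (s2 ((f x - (p.y + 1)) / L))
    have a4 := abs_le.1 (s2 ((f x - (p.z + 1)) / L))
    refine (add_le_of_nonpos_right a1).trans ((mul_le_mul_of_nonneg_right (mul_le_mul_of_nonneg_left
      (by linarith [a2.2, a3.2, a4.1] : _ ≤ (1 : ℝ)) (by linarith)) (Cyc79.gr_nn' F f x)).trans ?_)
    exact (mul_le_mul (by linarith : _ ≤ (1 / 16 : ℝ)) (gr x) (Cyc79.gr_nn F f x)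
      (by norm_num)).trans (by norm_num)
  · have a2 := abs_le.1 (gL_bd L0 p.x (f x))
    have a3 := abs_le.1 (gL_bd L0 p.y (f x))
    have a4 := abs_le.1 (gL_bd L0 p.z (f x))
    have a5 : |φ (f x) - 2 * pr δ p.x p.y p.z (f x)| ≤ 2 * δ * (3 * (L + 2)) := by
      rw [Gl67.pr, ← mul_assoc, ← mul_sub, abs_mul, abs_of_nonneg (by linarith : 0 ≤ 2 * δ)]
      exact mul_le_mul_of_nonneg_left (abs_le.2 ⟨by linarith, by linarith⟩) (by linarith)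
    rw [← exp_add, ← exp_add, exp_le_exp, exp_le_exp]
    constructor <;> linarith [(abs_le.1 a5).1, (abs_le.1 a5).2]

section ra
variable {V : Type} [NormedAddCommGroup V] [InnerProductSpace ℝ V] [FiniteDimensional ℝ V]

theorem ra_unif {X Y : J → Type} [∀ i, NormedAddCommGroup (X i)] [∀ i, NormedSpace ℝ (X i)]
    {D : Dm I M ι X Y} {G F' : ∀ i, X i → Fr I M ι}
    (hF : ∀ i, ∀ x ∈ D.U i, Act V (D.P i) (G i x))
    (h1 : ∀ i, ∀ x ∈ D.U i, Cmp (D.P i) (F' i x).toPre ∧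
      ∃ d C, Nk89.Dr (G i x) (F' i x) d ∧ (F' i x).Tame C)
    {d C a : ℕ → ℝ} (h2 : ∀ i, ∀ x ∈ D.B i, Nk89.Dr (G i x) (F' i x) d ∧ (F' i x).Tame C ∧
      ∀ k, ‖(D.P i).liftT k k (triv M V) (F' i x).toPre (triv M V) id‖ ≤ a k ∧
        ‖(F' i x).liftT k k (triv M V) (D.P i) (triv M V) id‖ ≤ a k) : RA V D G := fun l => by
  refine ⟨fun i x hx T hT => ?_, fun R => ?_⟩
  · obtain ⟨c, _, _, c1, c2⟩ := h1 i x hx
    obtain ⟨K, hK⟩ := (rb1_dr (V := V) c1 c2).chg c (hF i x hx) (c1.act c2) l ‖T‖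
    exact (hK T hT le_rfl).1
  · obtain ⟨K, -, hK⟩ := Nk89.res_unif (I := I) (M := M) (ι := ι) (V := V) C d l
      (max (a l * (|R| * a l)) (a (l + 1) * (|R| * a (l + 1))))
    exact ⟨_, fun i x hx T hT hR => let ⟨c1, c2, c3⟩ := h2 i x hx
      chg_bd (h1 i x (D.sub i hx)).1 (hF i x (D.sub i hx)) (c1.act c2) c3
        (fun T a b => (hK _ _ c1 c2 (Ell97.reg V _) T a b).2) hT hR⟩

namespace Un
variable (H : Un s δ r₀)
include H

theorem cmpU : ∃ (c : ℝ≥0) (C C' : ℕ → ℝ), ∀ i, ∀ t ∈ closedBall (0 : T) r₀,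
    ((𝔉 i).G t).F.μ ≤ c • (𝔉 i).F0.μ ∧ (𝔉 i).F0.μ ≤ c • ((𝔉 i).G t).F.μ ∧
    (∀ a b, (𝔉 i).F0.CBs (fun x => (𝔉 i).S t x a b) C) ∧
    (∀ a b, ((𝔉 i).G t).F.CBs (fun x => (𝔉 i).Si t x a b) C) ∧ ((𝔉 i).G t).F.Tame C' := by
  obtain ⟨σ, r1, r2⟩ := H.dens
  obtain ⟨C₀, hC₀⟩ := H.tame
  obtain ⟨c, hc⟩ := H.lowU
  let Z := (J × Pf) × closedBall (0 : T) r₀
  let G : Z → Fr I M ι := fun q => ((𝔉 q.1.1).G q.2).F
  have hq : ∀ q : Z, q.2.1 ∈ (𝔉 q.1.1).Q := fun q => H.sub _ q.2.2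
  have up : ∀ {f : Z → M → ℝ}, UB (fun q => P0 𝔉 q.1.1) f → UB (fun q => (G q).toPre) f :=
    ub_mix (fun q => (H.fam _).mix _ (hq q)) fun a b => (H.S a b).ub H.sub
  obtain ⟨C₁, h1⟩ := UB.unif fun a : (ι × ι) × Bool => show UB (fun q : Z => P0 𝔉 q.1.1) fun q x =>
      if a.2 then (𝔉 q.1.1).S q.2 x a.1.1 a.1.2 else (𝔉 q.1.1).Si q.2 x a.1.1 a.1.2 by
    cases a.2; exacts [(H.Si _ _).ub H.sub, (H.S _ _).ub H.sub]
  obtain ⟨C₂, h2⟩ := UB.unif fun a : ι × ι × ι => (H.c a.1 a.2.1 a.2.2).ub H.sub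
  obtain ⟨C₃, h3⟩ := UB.unif fun a => (H.dv a).ub H.sub
  obtain ⟨C₄, h4⟩ := r1.ub H.sub
  obtain ⟨C₅, h5⟩ := UB.unif fun a : ι × ι => up ((H.Si a.1 a.2).ub H.sub)
  let c' := max c (C₄ 0).toNNReal
  have m1 : ∀ q : Z, (G q).μ ≤ c' • (𝔉 q.1.1).F0.μ := fun q => ((r2 _ _ (hq q)).2.trans_le
    (dens_le (CB_bound ((h4 q).2 0)))).trans (smul_mono (le_max_right _ _))
  have m2 : ∀ q : Z, (𝔉 q.1.1).F0.μ ≤ c' • (G q).μ := fun q =>
    (hc _ _ q.2.2).trans (smul_mono (le_max_left _ _))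
  obtain ⟨C', hC'⟩ := tame_mix (I := I) (M := M) (ι := ι)
    (fun k => max (max (C₀ k) (C₁ k)) (max (C₂ k) (C₃ k))) c'
  have tG : ∀ q : Z, (G q).Tame C' := fun q => hC' _ _ _ _
    (Ell97.Tame_mono (hC₀ _) fun _ => by simp) ((H.fam _).mix _ (hq q)) (Mon62.mix_inv (H.fam _) (hq q))
    (fun a b => Ell97.CBs_mono (h1 q ((a, b), true)) fun _ => by simp)
    (fun a b => Ell97.CBs_mono (h1 q ((a, b), false)) fun _ => by simp) (m1 q) (m2 q)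
    (fun a b => Ell97.CBs_mono (((H.fam _).G _ (hq q)).P.trans (H.fam _).P0.symm ▸ (hC₀ _).P a b)
      fun _ => by simp) (fun a b l => Ell97.CBs_mono (h2 q (a, b, l)) fun _ => by simp)
    fun a => Ell97.CBs_mono (h3 q a) fun _ => by simp
  exact ⟨c', fun k => max (C₁ k) (C₅ k), C', fun i t ht => let q : Z := ((i, p0), ⟨t, ht⟩)
    ⟨m1 q, m2 q, fun a b => Ell97.CBs_mono (h1 q ((a, b), true)) fun _ => le_max_left _ _,
      fun a b => Ell97.CBs_mono (h5 q (a, b)) fun _ => le_max_right _ _, tG q⟩⟩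

theorem ra {F : J × Pf → Fr I M ι} {C : ℕ → ℝ} (tm : ∀ z, (F z).Tame C) {ψ : J × Pf → M → ℝ}
    (w : ∀ z, Nk89.WtP (P0 𝔉 z.1) (F z).toPre (ψ z)) (h0 : ∀ z x, 0 ≤ ψ z x)
    (hu : ∀ a, UB (fun z : J × Pf => P0 𝔉 z.1) fun z => (P0 𝔉 z.1).D a (ψ z))
    (hd : ∀ z, ∀ t ∈ (𝔉 z.1).Q, ∀ x, ∑ a, ((𝔉 z.1).G t).F.D a (ψ z) x ^ 2 ≤ 1 / 4) :
    RA V (chF (H.dm h r k ρ) F C tm) fun z v => ((𝔉 z.1).G v.2.1).F := by
  obtain ⟨σ, r1, r2⟩ := H.dens
  obtain ⟨c', C₁, C', h1⟩ := H.cmpU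
  let Z := (J × Pf) × closedBall (0 : T) r₀
  let G : Z → Fr I M ι := fun q => ((𝔉 q.1.1).G q.2).F
  have hq : ∀ q : Z, q.2.1 ∈ (𝔉 q.1.1).Q := fun q => H.sub _ q.2.2
  have up : ∀ {f : Z → M → ℝ}, UB (fun q => P0 𝔉 q.1.1) f → UB (fun q => (G q).toPre) f :=
    ub_mix (fun q => (H.fam _).mix _ (hq q)) fun a b => (H.S a b).ub H.sub
  obtain ⟨D, hD⟩ := UB.unif fun a => show UB (fun q : Z => (G q).toPre) fun q =>
      (G q).D a (ψ q.1) from ub_congr (up (UB.sum fun b => ((H.S a b).ub H.sub).smul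
      (let ⟨C, h⟩ := hu b; ⟨C, fun q : Z => h q.1⟩))) fun q => ((H.fam _).mix _ (hq q)).D a _
  have mx : ∀ z, ∀ t ∈ (𝔉 z.1).Q, Mix (F z).toPre
      (Nk89.wt ((𝔉 z.1).G t).F (ψ z) (w z).sm).toPre (fun a b x => (𝔉 z.1).S t x a b) ∧
      Mix (Nk89.wt ((𝔉 z.1).G t).F (ψ z) (w z).sm).toPre (F z).toPre
        fun a b x => (𝔉 z.1).Si t x a b := fun z t ht =>
    ⟨fun a x => (w z).e ▸ (H.fam _).mix t ht a x, fun a x => (w z).e ▸ Mon62.mix_inv (H.fam _) ht a x⟩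
  refine ra_unif (F' := fun z v => Nk89.wt ((𝔉 z.1).G v.2.1).F (ψ z) (w z).sm)
    (fun z v hv => act_mix (mx z _ hv).1 (fun a b => (w z).Cb.2 (((H.fam _).sS a b).cb _ hv))
      fun a => (w z).Cb.2 (((H.fam _).sdv a).cb _ hv))
    (fun z v hv => ?_) (d := fun k => 2 * |D k|) (C := Nk89.cT ι C' D)
    (a := fun k => cN ι ι c' (C₁ k) k) fun z v hv => ?_
  · have f := H.fam z.1
    have w' := Nk89.wt_wt ((𝔉 z.1).G v.2.1).F (w z).sm
    have s1 := fun a b => (f.sS a b).cb _ hv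
    obtain ⟨c, hc⟩ := H.low _ _ hv
    obtain ⟨C, hC⟩ := (r1.sb _).cb _ hv
    obtain ⟨D, hD⟩ := Cb_unif fun a => show ((𝔉 z.1).G v.2.1).F.Cb
        (((𝔉 z.1).G v.2.1).F.D a (ψ z)) from by
      rw [(f.mix _ hv).D]
      exact (f.mix _ hv).Cb s1 (Cb_sum _ fun b _ => Cb_smul (s1 a b) ((hu b).cb z))
    exact ⟨⟨⟨⟨_, (mx z _ hv).1, fun a b => (w z).Cb.2 (s1 a b)⟩, _, (w z).μ ▸
      wm_mono ((r2 _ _ hv).2.trans_le (dens_le (CB_bound (hC.2 0)))) _⟩, ⟨_, (mx z _ hv).2,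
        fun a b => w'.toWtP.Cb.2 ((f.mix _ hv).Cb s1 ((f.sSi a b).cb _ hv))⟩, c,
          (w z).μ ▸ wm_mono hc _⟩,
      _, _, w'.dr hD (hd z _ hv), w'.tame (f.tameG _ hv).choose_spec (h0 z) hD⟩
  · let q : Z := (z, ⟨v.2.1, mem_closedBall_zero_iff.2
      ((norm_fst_le v.2).trans (mem_closedBall_zero_iff.1 hv.2))⟩)
    have w' := Nk89.wt_wt (G q) (w z).sm
    obtain ⟨m1, m2, s1, s2, tG⟩ := h1 z.1 _ q.2.2
    exact ⟨w'.dr (hD q) (hd z _ (hq q)), w'.tame tG (h0 z) (hD q), fun k =>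
      ⟨((mx z _ (hq q)).1.rep_id (fun a b => (s1 a b).1) ((w z).μ ▸ wm_mono m1 _)
        fun a b => (w z).CB.2 ((s1 a b).2 k)).2,
      ((mx z _ (hq q)).2.rep_id (fun a b => (s2 a b).1) ((w z).μ ▸ wm_mono m2 _)
        fun a b => w'.toWtP.CB.2 ((s2 a b).2 k)).2⟩⟩

end Un
end ra

variable (s δ r₀) in
/-- further hypotheses for the cyclic seeds -/
structure Uv : Prop where
  δ1 : δ ≤ 1 / 32
  e0 : ∀ i, (𝔉 i).G0.F.μ = (𝔉 i).F0.μ
  lg : ∃ ℓ, UT 𝔉 r₀ ℓ ∧ (∀ i, ∀ t ∈ (𝔉 i).Q, ((𝔉 i).G t).F.μ = Nk89.wm (𝔉 i).F0.μ (ℓ i t)) ∧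
    ∃ χ, Bu s χ ∧ ∀ i, Off (𝔉 i).Q (χ i) (ℓ i)

theorem Un.uw {V : Type} [NormedAddCommGroup V] [InnerProductSpace ℝ V] [FiniteDimensional ℝ V]
    (H : Un s δ r₀) (K : Uv s δ r₀) (G : Gm s Ω) :
    Nonempty (Uw V (H.dm h r k ρ) fun z v => ((𝔉 z.1).G v.2.1).F) := by
  obtain ⟨ℓ, l1, l2, χ, l3, l4⟩ := K.lg
  obtain ⟨C, hC⟩ := H.tame
  obtain ⟨_, _, C', h1⟩ := H.cmpU
  obtain ⟨c, c0, hc⟩ := exists_wu (I := I) (M := M) (ι := ι) H.δ0 K.δ1
  choose u hu using fun z : J × Pf => hc ((𝔉 z.1).G 0).F (s z.1).ht z.2 (s z.1).sh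
    (G.gr _ _ (H.ok _).q0) (G.lop _ _ (H.ok _).q0)
  have tm : ∀ z : J × Pf, (𝔉 z.1).F0.Tame fun j => max (C j) (C' j) := fun z =>
    Ell97.Tame_mono (hC z.1) fun _ => le_max_left _ _
  exact ⟨⟨fun z => (𝔉 z.1).F0, _, wg s δ, fun z v => ℓ z.1 v.2.1, tm,
    fun z => (wt_Fp s δ z).toWtP, H.wg0, H.lcW l1 l3 l4, fun _ y => l2 _ _ y.2.2,
    fun _ y => (H.fam _).tameG _ y.2.2, fun z => Ell97.Tame_mono
      (h1 z.1 0 (mem_closedBall_self H.r0)).2.2.2.2 fun _ => le_max_right _ _, ⟨u, c, c0, hu⟩,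
    ⟨fun a b z y x => (𝔉 z.1).Si y.2.1.1 x a b, fun a b => (H.usW (H.Si a b)).sz,
      fun _ y => Mon62.mix_inv (H.fam _) y.2.2⟩,
    H.ra (H.dm h r k ρ).tame (fun z => (wt_Fp s δ z).toWtP) H.wg0 H.ub_wg fun z _ => H.dr_wg z,
    H.ra tm (fun _ => .refl _) (fun _ _ => le_rfl)
      (fun a => ub_congr (UB.const 0) fun _ => Sob92.dv_zero)
      fun _ _ _ _ => by simp [Pre.D_def, Sob92.dv_zero]⟩⟩

end Crest.Agent.X212.Gla92
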