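import Crest.Agent.X212.Gla92.Ca
import Crest.Agent.X212.Lpe67.Job
import Crest.Agent.X212.Sw21.Gz
import Crest.Agent.X212.Lw78.Mov

/-! # Row 212, GL (helper92): the cylinder (`LipZ`, the cylinder part of `Oke`) -/

set_option autoImplicit false
set_option linter.unusedSectionVars false
set_option maxSynthPendingDepth 3
noncomputable section
open scoped Manifold ContDiff Topology InnerProductSpace ENNReal NNReal
open MeasureTheory Set Function Filter Metric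

namespace Crest.Agent.X212.Gla92
open An Sob92 Prm93 Mod61 Mon62 Mon62.Dm Gl67 Nd18 Lpe67

theorem qb_cv {α W : Type} {l : Filter α} {q : α → W →₀ ℝ} {q₀ : W →₀ ℝ} (h : St.Cv l q q₀) :
    ∃ S, ∃ O ∈ l, Qb (fun i : O => q i) S := by
  classical
  obtain ⟨S, h1, h2⟩ := h
  refine ⟨S ∪ q₀.support, {i | ∀ w ∈ S, q i w ∈ ball (q₀ w) 1},
    (eventually_all_finset S).2 fun w _ => h2 w (ball_mem_nhds _ one_pos),
    fun i w hw => ?_, fun w => ⟨‖q₀ w‖ + 1, fun i => ?_⟩⟩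
  · by_cases e : w ∈ S
    · exact Finset.mem_union_left _ e
    · exact Finset.mem_union_right _ (by simpa [h1 _ _ e] using hw)
  · by_cases e : w ∈ S
    · exact norm_le_norm_add_const_of_dist_le (i.2 w e).le
    · exact (congrArg norm (h1 _ _ e)).trans_le (le_add_of_nonneg_right zero_le_one)

section fmt
variable {E : Type} [NormedAddCommGroup E] [NormedSpace ℝ E] [FiniteDimensional ℝ E]
  [MeasurableSpace E] [BorelSpace E]
  {HM : Type} [TopologicalSpace HM] {I : ModelWithCorners ℝ E HM} [I.Boundaryless]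
  {M : Type} [TopologicalSpace M] [ChartedSpace HM M] [IsManifold I ∞ M]
  [MeasurableSpace M] [T2Space M] [BorelSpace M] [SecondCountableTopology M]
  {E3 : Type} [NormedAddCommGroup E3] [NormedSpace ℝ E3] [FiniteDimensional ℝ E3]
  [MeasurableSpace E3] [BorelSpace E3]
  {H3 : Type} [TopologicalSpace H3] {I3 : ModelWithCorners ℝ E3 H3} [I3.Boundaryless]
  {Y : Type} [TopologicalSpace Y] [ChartedSpace H3 Y] [IsManifold I3 ∞ Y] [T2Space Y]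
  [MeasurableSpace Y] [BorelSpace Y] [SecondCountableTopology Y] [CompactSpace Y]
  {κ lam h : Type} [Fintype κ] [Fintype lam] [Fintype h] {DY : YD I3 Y κ lam}
  {T U Up R : Type} [NormedAddCommGroup T] [NormedSpace ℝ T] [NormedAddCommGroup U]
  [NormedSpace ℝ U] [NormedAddCommGroup Up] [NormedSpace ℝ Up] [NormedAddCommGroup R]
  [NormedSpace ℝ R] {N r n m k : ℕ} {Jc : En (Fin N)} {J W : Type}
  {𝔉 : J → Fam I M (Option κ) lam T} {s : ∀ i, Sid (𝔉 i) N Jc U Up R} {δ r₀ : ℝ} {ρ : ℝ≥0}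
  {H : Un s δ r₀} {c : Cm N r h R} {ε : Prop} {Nd : ND Y lam}
  {K : ∀ i t, Nk DY (𝔉 i).B ((𝔉 i).G t)}

theorem cl_pt (hk : 4 ≤ k) {q : J → W →₀ ℝ} {S : Finset W} (hq : Qb q S)
    (ty : W → YW I3 Y →₀ ℝ)
    (a : H.Cl c k ρ ε (fun i => Q1 n m (fun t (_ : t ∈ (𝔉 i).Q) => K i t) Nd) ∧ ∀ w : YW I3 Y,
      H.Cl c k ρ ε fun i => Q2 n m (fun t (_ : t ∈ (𝔉 i).Q) => K i t) Nd w.1) :
    H.Cl c k ρ ε fun i t => px m (Nd.pt (n := n) (K i t) ((q i).sum fun w a => a • ty w)) := by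
  refine (a.1.add (Un.Cl.sum S fun w _ => Un.Cl.cst hk (hq.bv w)
    (Un.Cl.sum (ty w).support fun v _ => (a.2 v).smul hk (ty w v)))).congr fun i t ht => ?_
  rw [ND.pt, px_add, px_fsum, ← Finsupp.linearCombination_apply (R := ℝ), map_finsuppSum,
    Finsupp.sum_of_support_subset _ (hq.sub i) _ fun _ _ => by rw [zero_smul, map_zero]]
  simp only [map_smul, Finsupp.linearCombination_apply, Finsupp.sum, Pi.add_apply,
    Finset.sum_apply, Pi.smul_apply, Q1, Q2, dq, dif_pos ht]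

end fmt

open M An.Job Gj67

variable {Wi : Type} {X : Mf 4} {A κ lam : Type} [Fintype A] [Fintype κ] [Fintype lam]
  [DecidableEq lam] {M : Mark X A κ} {W : World M} {L : ML M lam} {Λ : Lns W L}
  {A' h : Type} [Fintype A'] [DecidableEq A'] [Fintype h] {r n : ℕ}
  {J : Job Wi Λ A' h r n} {σ : Cel A'} {a : A'}
  {U Up R : Type} [NormedAddCommGroup U] [NormedSpace ℝ U] [FiniteDimensional ℝ U]
  [NormedAddCommGroup Up] [NormedSpace ℝ Up] [NormedAddCommGroup R] [NormedSpace ℝ R]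
  {d : Dat J σ a U Up R} {q₀ : Wi →₀ ℝ} {δ : ℝ} {k : ℕ} (H : d.OK q₀ δ) (hk : 7 ≤ k)

section
variable {ι : Type} (τ : ι → ℝ) {q : ι → Wi →₀ ℝ} {S : Finset Wi} {r₀ : ℝ} {ρ : ℝ≥0}

variable (d) in
/-- the cylinder over the unit ball -/
abbrev sZ (i : ι) : Sid (res d.FZ (ball 0 1)) d.N d.Jc U Up R := rs (d.Z (τ i)) (ball 0 1)

include H

theorem gm_Z : Gm (sZ d τ) ∅ := gm_rs ((Sw21.gmZ H).1.1.ix τ)

theorem un_Z (r0 : 0 ≤ r₀) (r1 : r₀ < 1) : Un (sZ d τ) δ r₀ ∧ Uv (sZ d τ) δ r₀ :=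
  let ⟨⟨G, _, fu, su⟩, _⟩ := Sw21.gmZ H
  ⟨un_of (s := fun i => d.Z (τ i)) (fun i => H.okZ (τ i)) (fun _ => fu) (fun i => su (τ i))
    (fun _ => lt_cst) lo_empty (G.ix τ) H.δ0.le (H.δ2.trans (by norm_num)) r0 r1 le_rfl,
  uv_of (s := fun i => d.Z (τ i)) (fun i => H.okZ (τ i)) (fun _ => fu) (fun _ => rfl) lo_empty
    (G.ix τ) H.δ2 r1 le_rfl⟩

theorem fx_Z : FxU (sZ d τ) fun _ _ _ => d.D.nk :=
  let ⟨_, K0, C, e1, e2⟩ := Sw21.gmZ H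
  ⟨fun i => K0 (τ i), C, fun i t ht => e1 (τ i) t ht.1, fun i => e2 (τ i)⟩

include hk

theorem ca_Z (Hu : Un (sZ d τ) δ r₀) (V : Uv (sZ d τ) δ r₀) (hq : Qb q S) :
    Ca k Hu d.cm ρ ∅ ∧ Hu.Cl d.cm k ρ False fun i _ =>
      px (min r 1) ((J.xs d.x).N.pt d.D.nk ((J.xs d.x).q (q i)) : Pt _ _ _ r n) := by
  rcases H.b0 with b | b
  · have hb : ∀ i x u, (sZ d τ i).b x u = 0 := fun _ x u =>
      congrArg (fun f : d.Y → CL U _ => f x.1 u) b.2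
    have a := FxU.cl (n := n) (m := min r 1) (Hu.cfOK (ρ := ρ) d.cm hk (Hu.hb0 hb)) V (gm_Z H τ)
      (H.ok.xs d.x).2 (fx_Z H τ) (by linarith [H.δ0, H.δ1.2 d.x])
    exact ⟨ca0 Hu _ hk hb lo_empty, cl_pt (𝔉 := fun _ => res d.FZ (ball 0 1))
      (K := fun _ _ => d.D.nk) (by omega) hq (J.xs d.x).ty a⟩
  · refine ⟨Cap39.cap _ _ _ _ _ _ _ _ _ _ _ _ _ _ _ (sZ d τ) δ r₀ ρ Hu _ _ hk lo_empty
      (mo_rs ((Lw78.Mv.mov H (b.1 d.x).1 b.2 k).Z.ix τ)), Un.Cl.zero.congr fun i t _ => ?_⟩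
    rw [Ink3.q_nil (congrFun (b.1 d.x).2), (b.1 d.x).1.pt]
    rfl

theorem cl_Z (hq : Qb q S) (r0 : 0 ≤ r₀) (r1 : r₀ < 1) (ρ : ℝ≥0) : ∃ C : ℝ≥0, ∀ i,
    (d.sZ (τ i) (q i)).Ok r₀ ∧ (d.sZ (τ i) (q i)).Lip δ k r₀ ρ C := by
  have h4 : 4 ≤ k := by omega
  obtain ⟨Hu, V⟩ := un_Z H τ r0 r1
  have key := ca_Z (ρ := ρ) H hk τ Hu V hq
  have b : Hu.Cl d.cm k ρ False fun i => d.eZ (q i) :=
    Un.Cl.eqn h4 (key.1.eq0 _ _) key.2 (fun _ _ _ _ => rfl) (fun _ _ _ _ => rfl) (Sc.const 0)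
  obtain ⟨C, e⟩ := b.lip (gm_Z H τ) h4 (g := fun _ => 0) (Sc.const (0 : GG n (min r 1) h d.N R))
  exact ⟨C, fun i => ⟨b.ok h4 (fun _ => 0) i, e i⟩⟩

end

include H hk

/-- **LEAF LIP-Z** -/
theorem lipZ : d.LipZ q₀ δ k := fun _ _ τ _ _ hq =>
  let ⟨_, O, hO, b⟩ := qb_cv hq
  let ⟨C, e⟩ := cl_Z H hk (fun i : O => τ i) b (r₀ := (1 / 2 : ℝ≥0)) (by positivity)
    (by norm_num) (1 / 2)
  ⟨1 / 2, C, by positivity, mem_of_superset hO fun i hi => (e ⟨i, hi⟩).2⟩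

theorem okZ {r₀ : ℝ} (r0 : 0 ≤ r₀) (r1 : r₀ < 1) (τ : ℝ) (q : Wi →₀ ℝ) : (d.sZ τ q).Ok r₀ :=
  let ⟨_, e⟩ := cl_Z H hk (fun _ : Unit => τ) (qb_cst q) r0 r1 0
  (e ()).1

end Crest.Agent.X212.Gla92
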